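import Mathlib

/-! Coding of special lists: `tau`, `dep`. (helper999) -/

set_option autoImplicit false

namespace Crest.Agent.R114

open Set Filter

/-- lists of pairs (rational functional, index of its weight) -/
abbrev SList (I : Type*) := List ((I →₀ ℚ) × ℕ)

section coding
variable {I : Type*} [LinearOrder I]

/-- union of the supports of the functionals of a list -/
noncomputable def suppL (L : SList I) : Finset I :=
  L.foldr (fun p s => p.1.support ∪ s) ∅

@[simp] lemma suppL_nil : suppL ([] : SList I) = ∅ := rfl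

@[simp] lemma suppL_cons (p : (I →₀ ℚ) × ℕ) (L : SList I) :
    suppL (p :: L) = p.1.support ∪ suppL L := rfl

lemma mem_suppL {L : SList I} {ξ : I} : ξ ∈ suppL L ↔ ∃ p ∈ L, p.1 ξ ≠ 0 := by
  induction L with
  | nil => simp
  | cons p L ih => simp [ih]

/-- the part of a list below `ξ`: `l ↦ (b_l restricted to Iic ξ)`. -/
noncomputable def restr (ξ : I) (L : SList I) : ℕ →₀ (Set.Iic ξ →₀ ℚ) :=
  (L.map fun p => p.1.subtypeDomain (· ∈ Set.Iic ξ)).toFinsupp

lemma restr_apply (ξ : I) (L : SList I) (l : ℕ) (η : Set.Iic ξ) :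
    restr ξ L l η = (L.getD l 0).1 η := by
  classical
  unfold restr
  rw [List.toFinsupp_apply, List.getD_eq_getElem?_getD, List.getElem?_map,
    List.getD_eq_getElem?_getD]
  cases h : L[l]? with
  | none => simp
  | some p => simp

lemma restr_eq_iff {ξ : I} {L L' : SList I} :
    restr ξ L = restr ξ L' ↔ ∀ l, ∀ η ≤ ξ, (L.getD l 0).1 η = (L'.getD l 0).1 η := by
  constructor
  · intro h l η hη
    have := congrArg (fun f => f l ⟨η, hη⟩) h
    simpa [restr_apply] using this
  · intro h
    ext l η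
    rw [restr_apply, restr_apply]
    exact h l η.1 η.2

/-- rank of `ξ` in the support of `L` -/
noncomputable def rk (L : SList I) (ξ : I) : ℕ := ((suppL L).filter (· < ξ)).card

/-- type of the data attached to a list -/
abbrev DataT := List ℕ × Finset (ℕ × (List Bool × ℕ))

variable (x : I → ℕ → Bool) (E : ∀ ξ : I, (ℕ →₀ (Set.Iic ξ →₀ ℚ)) → ℕ)

/-- the data of depth `κ` of a list: the indices and, for each point of the support, its rank,
the first `κ` bits of its label and the code of the part of the list below it. -/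
noncomputable def dataL (L : SList I) (κ : ℕ) : DataT :=
  (L.map Prod.snd, (suppL L).image fun ξ =>
    (rk L ξ, (List.ofFn (fun i : Fin κ => x ξ i), E ξ (restr ξ L))))

/-- size of data -/
def sizeD (D : DataT) : ℕ := D.1.length + D.1.sum + ∑ d ∈ D.2, (d.1 + d.2.2)

lemma dataL_zero_of_eq {L L' : SList I} {κ : ℕ} (h : dataL x E L κ = dataL x E L' κ) :
    dataL x E L 0 = dataL x E L' 0 := by
  have key : ∀ L : SList I, dataL x E L 0 =
      ((dataL x E L κ).1, (dataL x E L κ).2.image fun d => (d.1, (([] : List Bool), d.2.2))) := by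
    intro L
    unfold dataL
    rw [Finset.image_image]
    rfl
  rw [key L, key L', h]

/-- size of a list -/
noncomputable def sizeL (L : SList I) : ℕ := sizeD (dataL x E L 0)

lemma sizeL_eq_of_eq {L L' : SList I} {κ : ℕ} (h : dataL x E L κ = dataL x E L' κ) :
    sizeL x E L = sizeL x E L' := by
  unfold sizeL; rw [dataL_zero_of_eq x E h]

/-- the code of a list -/
noncomputable def tauL (L : SList I) : ℕ :=
  Nat.pair (Encodable.encode (dataL x E L (sizeL x E L))) ((L.map Prod.snd).sum) + 1

lemma lt_tauL (L : SList I) {p : (I →₀ ℚ) × ℕ} (hp : p ∈ L) : p.2 < tauL x E L := by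
  unfold tauL
  have h1 : p.2 ≤ (L.map Prod.snd).sum :=
    List.le_sum_of_mem (List.mem_map_of_mem hp)
  have h2 := Nat.right_le_pair (Encodable.encode (dataL x E L (sizeL x E L)))
    ((L.map Prod.snd).sum)
  omega

lemma tauL_eq {L L' : SList I} (h : tauL x E L = tauL x E L') :
    dataL x E L (sizeL x E L) = dataL x E L' (sizeL x E L') := by
  unfold tauL at h
  have h' := Nat.succ_injective h
  rw [Nat.pair_eq_pair] at h'
  exact Encodable.encode_injective h'.1

lemma sizeL_of_dataL_eq {L L' : SList I}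
    (h : dataL x E L (sizeL x E L) = dataL x E L' (sizeL x E L')) :
    sizeL x E L = sizeL x E L' := by
  -- the empty-prefix version of the data are equal
  have key : ∀ (L : SList I) (κ : ℕ), dataL x E L 0 =
      ((dataL x E L κ).1, (dataL x E L κ).2.image fun d => (d.1, (([] : List Bool), d.2.2))) := by
    intro L κ
    unfold dataL
    rw [Finset.image_image]
    rfl
  unfold sizeL
  rw [key L (sizeL x E L), key L' (sizeL x E L'), h]

/-- the depth attached to a code -/
noncomputable def depL (j : ℕ) : ℕ :=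
  open Classical in
  if h : ∃ L : SList I, tauL x E L = j then sizeL x E h.choose else j

lemma depL_tauL (L : SList I) : depL x E (tauL x E L) = sizeL x E L := by
  have h : ∃ L' : SList I, tauL x E L' = tauL x E L := ⟨L, rfl⟩
  unfold depL
  rw [dif_pos h]
  exact sizeL_of_dataL_eq x E (tauL_eq x E h.choose_spec)

lemma finite_lists {α : Type*} {T : Set α} (hT : T.Finite) (K : ℕ) :
    {l : List α | l.length ≤ K ∧ ∀ a ∈ l, a ∈ T}.Finite := by
  have := hT.to_subtype
  refine ((List.finite_length_le T K).image (fun l => l.map Subtype.val)).subset ?_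
  rintro l ⟨hl, hT'⟩
  refine ⟨l.attach.map fun a => ⟨a.1, hT' a.1 a.2⟩, ?_, ?_⟩
  · simpa using hl
  · simp

lemma finite_data (K : ℕ) :
    {D : DataT | D.1.length ≤ K ∧ (∀ a ∈ D.1, a ≤ K) ∧
      ∀ d ∈ D.2, d.1 ≤ K ∧ d.2.1.length ≤ K ∧ d.2.2 ≤ K}.Finite := by
  have h1 : {l : List ℕ | l.length ≤ K ∧ ∀ a ∈ l, a ∈ Set.Iic K}.Finite :=
    finite_lists (Set.finite_Iic K) K
  have h2 : {l : List Bool | l.length ≤ K}.Finite := List.finite_length_le Bool K
  have h3 : (Set.Iic K ×ˢ ({l : List Bool | l.length ≤ K} ×ˢ Set.Iic K)).Finite :=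
    (Set.finite_Iic K).prod (h2.prod (Set.finite_Iic K))
  have h4 : {s : Finset (ℕ × (List Bool × ℕ)) | s ⊆ h3.toFinset}.Finite := by
    have : {s : Finset (ℕ × (List Bool × ℕ)) | s ⊆ h3.toFinset}
        = ↑(h3.toFinset.powerset) := by ext s; simp
    rw [this]; exact Finset.finite_toSet _
  refine (h1.prod h4).subset ?_
  rintro ⟨l, s⟩ ⟨ha, hb, hc⟩
  refine ⟨⟨ha, fun a haa => hb a haa⟩, ?_⟩
  intro d hd
  rw [Set.Finite.mem_toFinset]
  exact ⟨(hc d hd).1, (hc d hd).2.1, (hc d hd).2.2⟩

lemma finite_dep (K : ℕ) : {j : ℕ | depL x E j ≤ K}.Finite := by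
  have h1 : ((fun D : DataT => Nat.pair (Encodable.encode D) (D.1.sum) + 1) ''
      {D : DataT | D.1.length ≤ K ∧ (∀ a ∈ D.1, a ≤ K) ∧
      ∀ d ∈ D.2, d.1 ≤ K ∧ d.2.1.length ≤ K ∧ d.2.2 ≤ K}).Finite := (finite_data K).image _
  refine (h1.union (Set.finite_Iic K)).subset ?_
  intro j hj
  by_cases h : ∃ L : SList I, tauL x E L = j
  · left
    obtain ⟨L, rfl⟩ := h
    have hs : sizeL x E L ≤ K := by
      have : depL x E (tauL x E L) ≤ K := hj
      rwa [depL_tauL] at this
    refine ⟨dataL x E L (sizeL x E L), ⟨?_, ?_, ?_⟩, rfl⟩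
    · have : (L.map Prod.snd).length ≤ sizeL x E L := by
        unfold sizeL sizeD dataL; dsimp only; omega
      exact this.trans hs
    · intro a ha
      have h2 : a ≤ (L.map Prod.snd).sum := List.le_sum_of_mem ha
      have h3 : (L.map Prod.snd).sum ≤ sizeL x E L := by
        unfold sizeL sizeD dataL; dsimp only; omega
      omega
    · intro d hd
      obtain ⟨ξ, hξ, rfl⟩ := Finset.mem_image.1 hd
      have h4 : (rk L ξ) + (E ξ (restr ξ L)) ≤ sizeL x E L := by
        unfold sizeL sizeD
        have h5 : (rk L ξ, (List.ofFn (fun i : Fin 0 => x ξ i), E ξ (restr ξ L))) ∈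
            (dataL x E L 0).2 := Finset.mem_image_of_mem _ hξ
        have h6 := Finset.single_le_sum (f := fun d : ℕ × (List Bool × ℕ) => d.1 + d.2.2)
          (fun _ _ => Nat.zero_le _) h5
        dsimp only at h6
        omega
      refine ⟨by dsimp only; omega, ?_, by dsimp only; omega⟩
      simpa using hs
  · right
    have : depL x E j = j := by unfold depL; rw [dif_neg h]
    have hj' : depL x E j ≤ K := hj
    rw [this] at hj'
    exact hj'

lemma tendsto_depL : Tendsto (depL x E) atTop atTop := by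
  rw [tendsto_atTop]
  intro K
  have h := finite_dep x E K
  obtain ⟨N, hN⟩ := h.bddAbove
  filter_upwards [eventually_gt_atTop N] with j hj
  by_contra hlt
  have : j ≤ N := hN (show depL x E j ≤ K by omega)
  omega

end coding

/-- A coding of special lists: injective labels `x`, codes `E ξ L` of the part of `L` below `ξ`,
codes `τ L` of lists with their depth `dep`. -/
structure Coding (I : Type*) [LinearOrder I] where
  x : I → ℕ → Bool
  x_inj : Function.Injective x
  τ : SList I → ℕ
  dep : ℕ → ℕ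
  E : I → SList I → ℕ
  lt_τ : ∀ L : SList I, ∀ p ∈ L, p.2 < τ L
  τ_pos : ∀ L : SList I, 0 < τ L
  dep_tendsto : Tendsto dep atTop atTop
  E_iff : ∀ ξ L L', E ξ L = E ξ L' ↔ restr ξ L = restr ξ L'
  τ_eq : ∀ L L' : SList I, τ L = τ L' →
    L.map Prod.snd = L'.map Prod.snd ∧
      ∀ ξ ∈ suppL L, ∃ ξ' ∈ suppL L', rk L ξ = rk L' ξ' ∧
        (∀ i < dep (τ L), x ξ i = x ξ' i) ∧ E ξ L = E ξ' L'

/-- **Coding theorem.** -/
theorem Coding.exists {I : Type*} [LinearOrder I] (hI : ∀ a : I, (Set.Iic a).Countable)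
    (x : I → ℕ → Bool) (hx : Function.Injective x) : ∃ c : Coding I, c.x = x := by
  have hE : ∀ ξ : I, ∃ f : (ℕ →₀ (Set.Iic ξ →₀ ℚ)) → ℕ, Function.Injective f := by
    intro ξ
    have : Countable (Set.Iic ξ) := (hI ξ).to_subtype
    exact exists_injective_nat _
  choose E hE using hE
  refine ⟨{ x := x, x_inj := hx, τ := tauL x E, dep := depL x E, E := fun ξ L => E ξ (restr ξ L),
            lt_τ := fun L p hp => lt_tauL x E L hp, τ_pos := fun L => Nat.succ_pos _,
            dep_tendsto := tendsto_depL x E,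
            E_iff := fun ξ L L' => (hE ξ).eq_iff, τ_eq := ?_ }, rfl⟩
  intro L L' h
  have h1 := tauL_eq x E h
  have h2 := sizeL_of_dataL_eq x E h1
  rw [← h2] at h1
  have h3 : (dataL x E L (sizeL x E L)).1 = (dataL x E L' (sizeL x E L)).1 := by rw [h1]
  refine ⟨h3, ?_⟩
  intro ξ hξ
  have h4 : (rk L ξ, (List.ofFn (fun i : Fin (sizeL x E L) => x ξ i), E ξ (restr ξ L))) ∈
      (dataL x E L' (sizeL x E L)).2 := by
    rw [← h1]
    exact Finset.mem_image_of_mem _ hξ
  obtain ⟨ξ', hξ', h5⟩ := Finset.mem_image.1 h4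
  simp only [Prod.mk.injEq] at h5
  obtain ⟨h6, h7, h8⟩ := h5
  refine ⟨ξ', hξ', h6.symm, ?_, h8.symm⟩
  intro i hi
  rw [depL_tauL] at hi
  have h9 := List.ofFn_injective h7
  exact (congrFun h9 ⟨i, hi⟩).symm

end Crest.Agent.R114
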