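import Crest.Agent.R114.Code

/-! Coded (special) lists and sequences: almost disjointness (A1) and compactness (A2).
(helper999) -/

set_option autoImplicit false

namespace Crest.Agent.R114

open Set Filter

set_option linter.unusedSectionVars false

variable {I : Type*} [LinearOrder I]

/-- successive supports -/
def SuccF (f g : I →₀ ℚ) : Prop := ∀ a ∈ f.support, ∀ b ∈ g.support, a < b

/-- A coded list: nonzero successive functionals, whose indices (from the second one on) are the
codes of the preceding part of the list. -/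
structure IsCoded (c : Coding I) (L : SList I) : Prop where
  ne_zero : ∀ l (h : l < L.length), (L[l]).1 ≠ 0
  succ : ∀ l l' (h : l < l') (h' : l' < L.length), SuccF (L[l]).1 (L[l']).1
  code : ∀ l (h : l < L.length), 0 < l → (L[l]).2 = c.τ (L.take l)

/-- initial part of a sequence -/
def pre (t : ℕ → (I →₀ ℚ) × ℕ) (n : ℕ) : SList I := List.ofFn (fun i : Fin n => t i)

@[simp] lemma length_pre (t : ℕ → (I →₀ ℚ) × ℕ) (n : ℕ) : (pre t n).length = n := by simp [pre]

@[simp] lemma getElem_pre (t : ℕ → (I →₀ ℚ) × ℕ) (n l : ℕ) (h : l < (pre t n).length) :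
    (pre t n)[l] = t l := by simp [pre]

lemma take_pre (t : ℕ → (I →₀ ℚ) × ℕ) {n m : ℕ} (h : n ≤ m) : (pre t m).take n = pre t n := by
  apply List.ext_getElem
  · simp [h]
  · intro i h1 h2; simp

lemma getD_pre (t : ℕ → (I →₀ ℚ) × ℕ) (n l : ℕ) :
    (pre t n).getD l 0 = if l < n then t l else 0 := by
  rw [List.getD_eq_getElem?_getD]
  split_ifs with h
  · rw [List.getElem?_eq_getElem (by simpa using h)]; simp
  · rw [List.getElem?_eq_none (by simpa using h)]; simp

lemma mem_suppL_iff {L : SList I} {ξ : I} :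
    ξ ∈ suppL L ↔ ∃ l, ∃ h : l < L.length, (L[l]).1 ξ ≠ 0 := by
  rw [mem_suppL]
  constructor
  · rintro ⟨p, hp, h⟩
    obtain ⟨l, hl, rfl⟩ := List.getElem_of_mem hp
    exact ⟨l, hl, h⟩
  · rintro ⟨l, hl, h⟩
    exact ⟨_, List.getElem_mem hl, h⟩

lemma suppL_take_subset (L : SList I) (n : ℕ) : suppL (L.take n) ⊆ suppL L := by
  intro ξ hξ
  rw [mem_suppL] at hξ ⊢
  obtain ⟨p, hp, h⟩ := hξ
  exact ⟨p, List.mem_of_mem_take hp, h⟩

lemma suppL_take_mono (L : SList I) {n m : ℕ} (h : n ≤ m) :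
    suppL (L.take n) ⊆ suppL (L.take m) := by
  have : L.take n = (L.take m).take n := by rw [List.take_take, min_eq_left h]
  rw [this]; exact suppL_take_subset _ _

/-- ranks in the support are injective -/
lemma rk_lt_rk {L : SList I} {ξ η : I} (hξ : ξ ∈ suppL L) (h : ξ < η) : rk L ξ < rk L η := by
  unfold rk
  apply Finset.card_lt_card
  constructor
  · intro a ha
    simp only [Finset.mem_filter] at ha ⊢
    exact ⟨ha.1, ha.2.trans h⟩
  · intro hsub
    have : ξ ∈ (suppL L).filter (· < ξ) := hsub (by simp [hξ, h])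
    simp at this

lemma rk_inj {L : SList I} {ξ η : I} (hξ : ξ ∈ suppL L) (hη : η ∈ suppL L)
    (h : rk L ξ = rk L η) : ξ = η := by
  rcases lt_trichotomy ξ η with h1 | h1 | h1
  · have := rk_lt_rk hξ h1; omega
  · exact h1
  · have := rk_lt_rk hη h1; omega

variable {c : Coding I}

namespace IsCoded

lemma take {L : SList I} (hL : IsCoded c L) (n : ℕ) : IsCoded c (L.take n) where
  ne_zero l h := by
    rw [List.getElem_take]; exact hL.ne_zero l (by simp at h; omega)
  succ l l' h h' := by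
    rw [List.getElem_take, List.getElem_take]
    exact hL.succ l l' h (by simp at h'; omega)
  code l h h0 := by
    rw [List.getElem_take, List.take_take, min_eq_left (by simp at h; omega)]
    exact hL.code l (by simp at h; omega) h0

/-- a point of the support of `L.take n` which is ≥ something in the later part is impossible -/
lemma lt_of_mem_take {L : SList I} (hL : IsCoded c L) {n l : ℕ} (hl : n ≤ l) (h : l < L.length)
    {ξ η : I} (hξ : ξ ∈ suppL (L.take n)) (hη : (L[l]).1 η ≠ 0) : ξ < η := by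
  obtain ⟨l', h', h''⟩ := mem_suppL_iff.1 hξ
  rw [List.getElem_take] at h''
  have h3 : l' < n := by simp at h'; omega
  exact hL.succ l' l (by omega) h ξ (Finsupp.mem_support_iff.2 h'') η
    (Finsupp.mem_support_iff.2 hη)

lemma mem_take_of_le {L : SList I} (hL : IsCoded c L) {n : ℕ} {ξ η : I}
    (hξ : ξ ∈ suppL (L.take n)) (hη : η ∈ suppL L) (h : η ≤ ξ) : η ∈ suppL (L.take n) := by
  obtain ⟨l, hl, h'⟩ := mem_suppL_iff.1 hη
  by_cases hln : l < n
  · rw [mem_suppL_iff]
    refine ⟨l, by simp; omega, ?_⟩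
    rw [List.getElem_take]; exact h'
  · exact absurd (hL.lt_of_mem_take (by omega) hl hξ h') (not_lt.2 h)

lemma rk_take {L : SList I} (hL : IsCoded c L) {n : ℕ} {ξ : I}
    (hξ : ξ ∈ suppL (L.take n)) : rk (L.take n) ξ = rk L ξ := by
  unfold rk
  congr 1
  ext η
  simp only [Finset.mem_filter]
  constructor
  · rintro ⟨h1, h2⟩; exact ⟨suppL_take_subset _ _ h1, h2⟩
  · rintro ⟨h1, h2⟩; exact ⟨hL.mem_take_of_le hξ h1 h2.le, h2⟩

lemma restr_take {L : SList I} (hL : IsCoded c L) {n : ℕ} {ξ : I}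
    (hξ : ξ ∈ suppL (L.take n)) : restr ξ (L.take n) = restr ξ L := by
  rw [restr_eq_iff]
  intro l η hη
  rw [List.getD_eq_getElem?_getD, List.getD_eq_getElem?_getD, List.getElem?_take]
  split_ifs with hln
  · rfl
  · by_cases hl : l < L.length
    · rw [List.getElem?_eq_getElem hl]
      simp only [Option.getD_none, Option.getD_some]
      by_contra hne
      have h0 : (L[l]).1 η ≠ 0 := fun h => hne (by rw [h]; rfl)
      exact absurd (hL.lt_of_mem_take (by omega) hl hξ h0) (not_lt.2 hη)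
    · rw [List.getElem?_eq_none (by omega)]

lemma idx_lt {L : SList I} (hL : IsCoded c L) {l l' : ℕ} (h : l < l') (h' : l' < L.length) :
    (L[l]).2 < (L[l']).2 := by
  rw [hL.code l' h' (by omega)]
  apply c.lt_τ
  rw [List.mem_iff_getElem]
  exact ⟨l, by simp; omega, by simp⟩

lemma nonempty_supp {L : SList I} (hL : IsCoded c L) {l : ℕ} (h : l < L.length) :
    (L[l]).1.support.Nonempty := by
  rw [Finset.nonempty_iff_ne_empty, Ne, Finsupp.support_eq_empty]
  exact hL.ne_zero l h

end IsCoded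

/-- infinite coded sequence -/
def IsCodedSeq (c : Coding I) (t : ℕ → (I →₀ ℚ) × ℕ) : Prop := ∀ n, IsCoded c (pre t n)

namespace IsCodedSeq

lemma ne_zero {t : ℕ → (I →₀ ℚ) × ℕ} (ht : IsCodedSeq c t) (l : ℕ) : (t l).1 ≠ 0 := by
  have := (ht (l + 1)).ne_zero l (by simp)
  simpa using this

lemma succ {t : ℕ → (I →₀ ℚ) × ℕ} (ht : IsCodedSeq c t) {l l' : ℕ} (h : l < l') :
    SuccF (t l).1 (t l').1 := by
  have := (ht (l' + 1)).succ l l' h (by simp)
  simpa using this

lemma code {t : ℕ → (I →₀ ℚ) × ℕ} (ht : IsCodedSeq c t) {l : ℕ} (h : 0 < l) :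
    (t l).2 = c.τ (pre t l) := by
  have := (ht (l + 1)).code l (by simp) h
  rwa [getElem_pre, take_pre t (Nat.le_succ l)] at this

lemma idx_strictMono {t : ℕ → (I →₀ ℚ) × ℕ} (ht : IsCodedSeq c t) :
    StrictMono (fun l => (t l).2) := by
  intro l l' h
  have := (ht (l' + 1)).idx_lt h (by simp)
  simpa using this

lemma mem_suppL_pre {t : ℕ → (I →₀ ℚ) × ℕ} {n : ℕ} {ξ : I} :
    ξ ∈ suppL (pre t n) ↔ ∃ l < n, (t l).1 ξ ≠ 0 := by
  rw [mem_suppL_iff]
  constructor
  · rintro ⟨l, h, h'⟩; exact ⟨l, by simpa using h, by simpa using h'⟩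
  · rintro ⟨l, h, h'⟩; exact ⟨l, by simpa using h, by simpa using h'⟩

/-- one direction of (A1): points of the support of `t` belong to `t'`. -/
lemma eq_at_of_frequently {t t' : ℕ → (I →₀ ℚ) × ℕ} (ht : IsCodedSeq c t)
    (ht' : IsCodedSeq c t') (h : ∃ᶠ l in atTop, (t l).2 = (t' l).2) {r : ℕ} {ξ : I}
    (hξ : (t r).1 ξ ≠ 0) : (t r).1 ξ = (t' r).1 ξ := by
  -- the frequently many levels
  have hfreq : ∃ᶠ l in atTop, r < l ∧ c.τ (pre t l) = c.τ (pre t' l) := by
    refine (h.and_eventually (eventually_gt_atTop r)).mono ?_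
    rintro l ⟨h1, h2⟩
    refine ⟨h2, ?_⟩
    rw [← ht.code (by omega), ← ht'.code (by omega)]; exact h1
  have hτ : ∀ l, r < l → c.τ (pre t l) = c.τ (pre t' l) → ∃ ξ' ∈ suppL (pre t' l),
      rk (pre t l) ξ = rk (pre t' l) ξ' ∧ (∀ i < c.dep (c.τ (pre t l)), c.x ξ i = c.x ξ' i) ∧
        c.E ξ (pre t l) = c.E ξ' (pre t' l) := by
    intro l hl he
    exact (c.τ_eq _ _ he).2 ξ (mem_suppL_pre.2 ⟨r, hl, hξ⟩)
  obtain ⟨l₀, hl₀, he₀⟩ := hfreq.exists
  obtain ⟨ξ', hξ', hrk, -, -⟩ := hτ l₀ hl₀ he₀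
  -- for all other good levels, the same ξ'
  have hsame : ∀ l, l₀ ≤ l → c.τ (pre t l) = c.τ (pre t' l) →
      (∀ i < c.dep (c.τ (pre t l)), c.x ξ i = c.x ξ' i) ∧
        c.E ξ (pre t l) = c.E ξ' (pre t' l) := by
    intro l hl he
    obtain ⟨ξ'', h1, h2, h3, h4⟩ := hτ l (by omega) he
    have hrk1 : rk (pre t l) ξ = rk (pre t l₀) ξ := by
      rw [← take_pre t hl]
      refine ((ht l).rk_take ?_).symm
      rw [take_pre t hl]
      exact mem_suppL_pre.2 ⟨r, hl₀, hξ⟩
    have hmem : ξ' ∈ suppL ((pre t' l).take l₀) := by rwa [take_pre t' hl]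
    have hrk2 : rk (pre t' l) ξ' = rk (pre t' l₀) ξ' := by
      rw [← (ht' l).rk_take hmem, take_pre t' hl]
    have : ξ'' = ξ' := by
      refine rk_inj h1 (suppL_take_subset _ _ hmem) ?_
      rw [← h2, hrk1, hrk, hrk2]
    subst this
    exact ⟨h3, h4⟩
  have hx : c.x ξ = c.x ξ' := by
    funext i
    have hev : ∀ᶠ l in atTop, i < c.dep (c.τ (pre t l)) := by
      have h1 : Tendsto (fun l => c.dep ((t l).2)) atTop atTop :=
        c.dep_tendsto.comp ht.idx_strictMono.tendsto_atTop
      filter_upwards [h1.eventually_gt_atTop i, eventually_gt_atTop 0] with l h2 h3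
      rwa [← ht.code h3]
    obtain ⟨l, ⟨-, h2⟩, h3, h4⟩ :=
      (hfreq.and_eventually (hev.and (eventually_ge_atTop l₀))).exists
    exact (hsame l h4 h2).1 i h3
  have hξξ : ξ = ξ' := c.x_inj hx
  subst hξξ
  have h5 := (hsame l₀ le_rfl he₀).2
  rw [c.E_iff, restr_eq_iff] at h5
  have := h5 r ξ le_rfl
  rwa [getD_pre, getD_pre, if_pos hl₀, if_pos hl₀] at this

/-- **(A1)** distinct infinite coded sequences have only finitely many common indices. -/
theorem almost_disjoint {t t' : ℕ → (I →₀ ℚ) × ℕ} (ht : IsCodedSeq c t)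
    (ht' : IsCodedSeq c t') (h : t ≠ t') :
    {j | ∃ l l', (t l).2 = j ∧ (t' l').2 = j}.Finite := by
  by_contra hinf
  apply h
  -- frequently common codes at the same level
  have hfreq : ∃ᶠ l in atTop, (t l).2 = (t' l).2 := by
    rw [frequently_atTop]
    intro N
    have h1 : ({j | ∃ l l', (t l).2 = j ∧ (t' l').2 = j} \
        Set.Iic ((t N).2 + (t 0).2 + (t' 0).2)).Nonempty :=
      (Set.Infinite.sdiff hinf (Set.finite_Iic _)).nonempty
    obtain ⟨j, ⟨l, l', rfl, h3⟩, h4⟩ := h1
    have h4' : (t N).2 + (t 0).2 + (t' 0).2 < (t l).2 := by simpa using h4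
    have hl0 : 0 < l := by
      rcases Nat.eq_zero_or_pos l with h0 | h0
      · subst h0; omega
      · exact h0
    have hl'0 : 0 < l' := by
      rcases Nat.eq_zero_or_pos l' with h0 | h0
      · subst h0; omega
      · exact h0
    have hNl : N < l := by
      by_contra hle
      have := ht.idx_strictMono.monotone (not_lt.1 hle)
      omega
    have he : c.τ (pre t l) = c.τ (pre t' l') := by
      rw [← ht.code hl0, ← ht'.code hl'0, h3]
    have hlen := congrArg List.length (c.τ_eq _ _ he).1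
    simp only [List.length_map, length_pre] at hlen
    subst hlen
    exact ⟨l, hNl.le, h3.symm⟩
  have hfreq' : ∃ᶠ l in atTop, (t' l).2 = (t l).2 := hfreq.mono fun _ h => h.symm
  funext r
  have h1 : (t r).1 = (t' r).1 := by
    ext ξ
    by_cases h2 : (t r).1 ξ = 0
    · by_cases h3 : (t' r).1 ξ = 0
      · rw [h2, h3]
      · exact (eq_at_of_frequently ht' ht hfreq' h3).symm
    · exact eq_at_of_frequently ht ht' hfreq h2
  have h2 : (t r).2 = (t' r).2 := by
    obtain ⟨l, h3, h4⟩ := (hfreq.and_eventually (eventually_gt_atTop r)).exists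
    have he : c.τ (pre t l) = c.τ (pre t' l) := by
      rw [← ht.code (by omega), ← ht'.code (by omega)]; exact h3
    have h5 := (c.τ_eq _ _ he).1
    have h6 : ((pre t l).map Prod.snd)[r]'(by simpa using h4) =
      ((pre t' l).map Prod.snd)[r]'(by simpa using h4) := by
      simp only [h5]
    simpa using h6
  exact Prod.ext h1 h2

end IsCodedSeq

end Crest.Agent.R114
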