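import Mathlib
import Crest.Agent.R114.CodeSeq

/-! # Row 114, S0152: definitions of the norming set and of the norm. -/

set_option autoImplicit false

open Set Filter

namespace Crest.Agent.R114

/-- the weights `m_j = 16^(j+1)` -/
def mq (j : ℕ) : ℕ := 16 ^ (j + 1)

/-- auxiliary: `nprev (j+1) = n_j`, `nprev 0 = 1` -/
def nprev : ℕ → ℕ
  | 0 => 1
  | j + 1 => 16 ^ (j + 1) * ((j + 2) * nprev j + 10) ^ (4 * j + 6)

/-- the lengths `n_j` -/
def nq (j : ℕ) : ℕ := nprev (j + 1)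

lemma nq_eq (j : ℕ) : nq j = mq j * ((j + 2) * nprev j + 10) ^ (4 * j + 6) := rfl

section basic
variable {I : Type} [LinearOrder I]

/-- restriction of a finitely supported function to a set -/
noncomputable def cut {R : Type*} [Zero R] (E : Set I) (f : I →₀ R) : I →₀ R := by
  classical exact f.filter (· ∈ E)

lemma cut_apply {R : Type*} [Zero R] (E : Set I) (f : I →₀ R) (a : I) [Decidable (a ∈ E)] :
    cut E f a = if a ∈ E then f a else 0 := by
  classical
  unfold cut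
  rw [Finsupp.filter_apply]
  split_ifs <;> rfl

/-- successive finite sets -/
def SLt (s t : Finset I) : Prop := ∀ a ∈ s, ∀ b ∈ t, a < b

/-- action of a rational functional on a vector -/
noncomputable def act {𝕜 : Type} [RCLike 𝕜] (b : I →₀ ℚ) (f : I →₀ 𝕜) : 𝕜 :=
  f.sum fun a z => ((b a : ℚ) : 𝕜) * z

/-- `ℓ₁` norm of a vector -/
noncomputable def l1 {𝕜 : Type} [RCLike 𝕜] (f : I →₀ 𝕜) : ℝ := f.sum fun _ z => ‖z‖

/-- the `(1/m_j)`-weighted sums of at most `n_j` successive elements of `B` -/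
def IsW (B : (I →₀ ℚ) → Prop) (j : ℕ) (b : I →₀ ℚ) : Prop :=
  ∃ l : List (I →₀ ℚ), l.length ≤ nq j ∧ (∀ x ∈ l, B x) ∧ l.Pairwise SuccF ∧
    b = ((mq j : ℚ))⁻¹ • l.sum

/-- special lists -/
structure IsSpecial (c : Coding I) (B : (I →₀ ℚ) → Prop) (L : SList I) : Prop where
  coded : IsCoded c L
  head : ∀ h : 0 < L.length, (L[0]).2 = c.τ []
  wt : ∀ p ∈ L, IsW B p.2 p.1

/-- the sum of the functionals of `L` with index in `J`, restricted to `E` -/
noncomputable def piece (L : SList I) (E : Set I) (J : Set ℕ) : I →₀ ℚ := by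
  classical exact cut E ((L.filter fun p => decide (p.2 ∈ J)).map Prod.fst).sum

/-- functionals of the type `Ψ` -/
def IsPsi (c : Coding I) (B : (I →₀ ℚ) → Prop) (b : I →₀ ℚ) : Prop :=
  ∃ (n : ℕ) (ε : Fin n → ℚ) (L : Fin n → SList I) (E : Fin n → Set I) (J : Fin n → Set ℕ),
    (∀ u, |ε u| ≤ 1) ∧ (∀ u, IsSpecial c B (L u)) ∧ (∀ u, (E u).OrdConnected) ∧
    (∀ u, (J u).OrdConnected) ∧ (∀ u, ∀ p ∈ L u, p.2 ∈ J u → n ≤ p.2) ∧
    (∀ u v, u ≠ v → ∀ p ∈ L u, ∀ q ∈ L v, p.2 ∈ J u → q.2 ∈ J v → p.2 ≠ q.2) ∧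
    b = ∑ u, ε u • piece (L u) (E u) (J u)

/-- closed families of functionals -/
structure ClosedFam (c : Coding I) (B : (I →₀ ℚ) → Prop) : Prop where
  unit : ∀ (a : I) (q : ℚ), |q| ≤ 1 → B (Finsupp.single a q)
  wt : ∀ j b, IsW B j b → B b
  psi : ∀ b, IsPsi c B b → B b

/-- the norming set: the least closed family -/
def NB (c : Coding I) (b : I →₀ ℚ) : Prop := ∀ B : (I →₀ ℚ) → Prop, ClosedFam c B → B b

/-- infinite special sequences -/
def IsSpecialSeq (c : Coding I) (t : ℕ → (I →₀ ℚ) × ℕ) : Prop :=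
  ∀ n, IsSpecial c (NB c) (pre t n)

/-- the norm of a finitely supported vector -/
noncomputable def nrm (c : Coding I) {𝕜 : Type} [RCLike 𝕜] (f : I →₀ 𝕜) : ℝ :=
  ⨆ b : {b : I →₀ ℚ // NB c b}, ‖act b.1 f‖

/-- action of an infinite sequence of successive functionals (a finite sum) -/
noncomputable def actSeq {𝕜 : Type} [RCLike 𝕜] (t : ℕ → (I →₀ ℚ) × ℕ) (f : I →₀ 𝕜) : 𝕜 :=
  ∑ᶠ l, act (t l).1 f

end basic

end Crest.Agent.R114
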