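import Mathlib

set_option autoImplicit false

/-!
# Tail-null functionals from a separable quotient (row 114, S0152)
-/

namespace Crest.Agent.R114

open Filter Topology

section
variable {𝕜 : Type*} {X : Type*} [RCLike 𝕜] [NormedAddCommGroup X] [NormedSpace 𝕜 X]

/-- One step: in an infinite dimensional normed space `Q`, given finitely many vectors and finitely
many functionals, there is a unit functional `g` vanishing at the vectors and a point `y`
with `g y ≠ 0` at which all given functionals vanish. -/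
theorem exists_functional_step {Q : Type*} [NormedAddCommGroup Q] [NormedSpace 𝕜 Q]
    (hQ : ¬ FiniteDimensional 𝕜 Q) (s : Finset Q) (F : Finset (Q →L[𝕜] 𝕜)) :
    ∃ (g : Q →L[𝕜] 𝕜) (y : Q), (∀ d ∈ s, g d = 0) ∧ g y ≠ 0 ∧ ∀ f ∈ F, f y = 0 := by
  classical
  set S : Submodule 𝕜 Q := Submodule.span 𝕜 (s : Set Q) with hS
  haveI hSfin : FiniteDimensional 𝕜 S := FiniteDimensional.span_finset 𝕜 s
  have hSclosed : IsClosed (S : Set Q) := Submodule.closed_of_finiteDimensional S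
  obtain ⟨y, hyF, hyS⟩ : ∃ y : Q, (∀ f ∈ F, f y = 0) ∧ y ∉ S := by
    by_contra hcon
    push Not at hcon
    apply hQ
    let Φ : Q →ₗ[𝕜] (F → 𝕜) := LinearMap.pi (fun f => (f : Q →L[𝕜] 𝕜).toLinearMap)
    have hker : LinearMap.ker Φ ≤ S := by
      intro y hy
      apply hcon
      intro f hf
      have := congrFun (LinearMap.mem_ker.mp hy) ⟨f, hf⟩
      simpa [Φ] using this
    haveI : FiniteDimensional 𝕜 (LinearMap.ker Φ) := Submodule.finiteDimensional_of_le hker
    haveI : FiniteDimensional 𝕜 (Q ⧸ LinearMap.ker Φ) :=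
      Module.Finite.equiv (Φ.quotKerEquivRange).symm
    exact Module.Finite.of_submodule_quotient (LinearMap.ker Φ)
  haveI : IsClosed (S : Set Q) := hSclosed
  have hne : (Submodule.Quotient.mk y : Q ⧸ S) ≠ 0 := by
    rw [Ne, Submodule.Quotient.mk_eq_zero]; exact hyS
  obtain ⟨φ, _, hφ⟩ := exists_dual_vector 𝕜 (Submodule.Quotient.mk y : Q ⧸ S) (norm_ne_zero_iff.mpr hne)
  have hcont : Continuous (S.mkQ : Q → Q ⧸ S) := S.isOpenQuotientMap_mkQ.continuous
  let π : Q →L[𝕜] (Q ⧸ S) := ⟨S.mkQ, hcont⟩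
  refine ⟨φ.comp π, y, ?_, ?_, hyF⟩
  · intro d hd
    have h1 : (S.mkQ d : Q ⧸ S) = 0 := by
      rw [Submodule.mkQ_apply, Submodule.Quotient.mk_eq_zero]
      exact Submodule.subset_span hd
    show φ (S.mkQ d) = 0
    rw [h1, map_zero]
  · show φ (S.mkQ y) ≠ 0
    rw [Submodule.mkQ_apply, hφ]
    exact_mod_cast norm_ne_zero_iff.mpr hne

/-- If `X ⧸ M` is separable and infinite dimensional then there are linearly independent unit
functionals on `X` such that bounded tail combinations converge to zero pointwise. -/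
theorem exists_tail_null (M : Submodule 𝕜 X) (hM : IsClosed (M : Set X))
    (hsep : TopologicalSpace.SeparableSpace (X ⧸ M)) (hfin : ¬ FiniteDimensional 𝕜 (X ⧸ M)) :
    ∃ f : ℕ → (X →L[𝕜] 𝕜), (∀ n, ‖f n‖ = 1) ∧ LinearIndependent 𝕜 f ∧
      ∀ x : X, ∀ ε > 0, ∃ N : ℕ, ∀ g ∈ Submodule.span 𝕜 (f '' {k | N ≤ k}),
        ‖g x‖ ≤ ε * ‖g‖ := by
  classical
  haveI := hM
  have hcont : Continuous (M.mkQ : X → X ⧸ M) := M.isOpenQuotientMap_mkQ.continuous
  let π : X →L[𝕜] (X ⧸ M) := ⟨M.mkQ, hcont⟩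
  have hne : Nonempty (X ⧸ M) := ⟨0⟩
  obtain ⟨d, hd⟩ := TopologicalSpace.exists_dense_seq (X ⧸ M)
  -- states
  let P : ℕ × ((X ⧸ M) →L[𝕜] 𝕜) × (X ⧸ M) → Prop := fun t =>
    (∀ i ≤ t.1, t.2.1 (d i) = 0) ∧ ‖t.2.1.comp π‖ = 1 ∧ t.2.1 t.2.2 ≠ 0
  let r : ℕ × ((X ⧸ M) →L[𝕜] 𝕜) × (X ⧸ M) → ℕ × ((X ⧸ M) →L[𝕜] 𝕜) × (X ⧸ M) → Prop :=
    fun t t' => t.1 < t'.1 ∧ t.2.1 t'.2.2 = 0
  have hstep : ∀ s : Finset (ℕ × ((X ⧸ M) →L[𝕜] 𝕜) × (X ⧸ M)), (∀ t ∈ s, P t) →
      ∃ y, P y ∧ ∀ t ∈ s, r t y := by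
    intro s _
    obtain ⟨N, hN⟩ : ∃ N : ℕ, ∀ t ∈ s, t.1 < N := by
      refine ⟨s.sup (fun t => t.1) + 1, fun t ht => ?_⟩
      exact Nat.lt_succ_of_le (Finset.le_sup (f := fun t => t.1) ht)
    obtain ⟨g, y, hg1, hg2, hg3⟩ := exists_functional_step (𝕜 := 𝕜) hfin
      ((Finset.range (N + 1)).image d) (s.image fun t => t.2.1)
    have hgne : g.comp π ≠ 0 := by
      intro h0
      apply hg2
      obtain ⟨x, rfl⟩ := M.mkQ_surjective y
      exact congrArg (fun h : X →L[𝕜] 𝕜 => h x) h0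
    have hgpos : 0 < ‖g.comp π‖ := norm_pos_iff.mpr hgne
    let c : 𝕜 := ((‖g.comp π‖⁻¹ : ℝ) : 𝕜)
    have hc : c ≠ 0 := by
      simp only [c]
      exact_mod_cast inv_ne_zero hgpos.ne'
    refine ⟨(N, c • g, y), ⟨?_, ?_, ?_⟩, fun t ht => ⟨hN t ht, ?_⟩⟩
    · intro i hi
      show c • g (d i) = 0
      rw [hg1 (d i) (Finset.mem_image_of_mem d (Finset.mem_range.mpr (Nat.lt_succ_of_le hi))),
        smul_zero]
    · show ‖(c • g).comp π‖ = 1
      rw [ContinuousLinearMap.smul_comp, norm_smul]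
      simp only [c, RCLike.norm_ofReal, abs_inv, abs_norm]
      exact inv_mul_cancel₀ hgpos.ne'
    · show c • g y ≠ 0
      exact smul_ne_zero hc hg2
    · exact hg3 t.2.1 (Finset.mem_image_of_mem _ ht)
  obtain ⟨t, htP, htr⟩ := exists_seq_of_forall_finset_exists P r hstep
  have hmono : ∀ j, j ≤ (t j).1 := by
    intro j
    induction j with
    | zero => exact Nat.zero_le _
    | succ j ih => exact Nat.succ_le_of_lt (lt_of_le_of_lt ih (htr j (j + 1) (Nat.lt_succ_self j)).1)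
  have hmono2 : ∀ i j, i ≤ j → (t i).1 ≤ (t j).1 := by
    intro i j hij
    rcases hij.eq_or_lt with rfl | h
    · exact le_rfl
    · exact (htr i j h).1.le
  refine ⟨fun n => (t n).2.1.comp π, fun n => (htP n).2.1, ?_, ?_⟩
  · rw [linearIndependent_iff']
    intro s c hc
    by_contra hcon
    push Not at hcon
    obtain ⟨i0, hi0s, hi0⟩ := hcon
    obtain ⟨i, hi, himax⟩ := (s.filter (fun i => c i ≠ 0)).exists_max_image id
      ⟨i0, Finset.mem_filter.mpr ⟨hi0s, hi0⟩⟩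
    rw [Finset.mem_filter] at hi
    obtain ⟨x, hx⟩ := M.mkQ_surjective (t i).2.2
    have h1 : ∑ j ∈ s, c j * (t j).2.1 (M.mkQ x) = 0 := by
      have := congrArg (fun h : X →L[𝕜] 𝕜 => h x) hc
      simpa [ContinuousLinearMap.sum_apply, π] using this
    rw [Finset.sum_eq_single i] at h1
    · rw [hx] at h1
      rcases mul_eq_zero.mp h1 with h | h
      · exact hi.2 h
      · exact (htP i).2.2 h
    · intro j hj hji
      rcases lt_or_gt_of_ne hji with h | h
      · rw [hx, (htr j i h).2, mul_zero]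
      · by_cases hcj : c j = 0
        · rw [hcj, zero_mul]
        · exact absurd (himax j (Finset.mem_filter.mpr ⟨hj, hcj⟩)) (not_le.mpr h)
    · intro h; exact absurd hi.1 h
  · intro x ε hε
    obtain ⟨N, hN⟩ : ∃ N, ‖M.mkQ x - d N‖ < ε := by
      have := Metric.denseRange_iff.mp hd (M.mkQ x) ε hε
      obtain ⟨N, hN⟩ := this
      exact ⟨N, by rwa [dist_eq_norm] at hN⟩
    refine ⟨N, fun g hg => ?_⟩
    obtain ⟨y, hy⟩ := M.mkQ_surjective (d N)
    obtain ⟨z, hz1, hz2⟩ : ∃ z : X, M.mkQ z = M.mkQ (x - y) ∧ ‖z‖ < ε := by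
      have h1 : ‖(Submodule.Quotient.mk (x - y) : X ⧸ M)‖ < ε := by
        have : (Submodule.Quotient.mk (x - y) : X ⧸ M) = M.mkQ x - d N := by
          rw [← hy]; rfl
        rw [this]; exact hN
      obtain ⟨z, hz1, hz2⟩ := Submodule.Quotient.norm_mk_lt (S := M)
        (Submodule.Quotient.mk (x - y) : X ⧸ M) (ε := ε - ‖(Submodule.Quotient.mk (x - y) : X ⧸ M)‖)
        (by linarith)
      exact ⟨z, hz1, by linarith⟩
    have key : ∀ g ∈ Submodule.span 𝕜 ((fun n => (t n).2.1.comp π) '' {k | N ≤ k}), g x = g z := by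
      intro g hg
      induction hg using Submodule.span_induction with
      | mem g hg =>
        obtain ⟨k, hk, rfl⟩ := hg
        show (t k).2.1 (M.mkQ x) = (t k).2.1 (M.mkQ z)
        rw [hz1, map_sub, map_sub, hy, (htP k).1 N (le_trans hk (hmono k)), sub_zero]
      | zero => rfl
      | add a b _ _ ha hb =>
        rw [ContinuousLinearMap.add_apply, ContinuousLinearMap.add_apply, ha, hb]
      | smul c a _ ha =>
        rw [ContinuousLinearMap.smul_apply, ContinuousLinearMap.smul_apply, ha]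
    rw [key g hg]
    calc ‖g z‖ ≤ ‖g‖ * ‖z‖ := g.le_opNorm z
      _ ≤ ‖g‖ * ε := mul_le_mul_of_nonneg_left hz2.le (norm_nonneg _)
      _ = ε * ‖g‖ := mul_comm _ _

/-- From a linearly independent sequence we get normalized successive blocks killing more and more
members of a given countable family of linear functionals. -/
theorem exists_blocks_killing {E : Type*} [NormedAddCommGroup E] [NormedSpace 𝕜 E]
    (f : ℕ → E) (hf : LinearIndependent 𝕜 f) (e : ℕ → E →ₗ[𝕜] 𝕜) :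
    ∃ (g : ℕ → E) (N : ℕ → ℕ), StrictMono N ∧
      (∀ k, g k ∈ Submodule.span 𝕜 (f '' Set.Ico (N k) (N (k + 1)))) ∧
      (∀ k, ‖g k‖ = 1) ∧ ∀ k, ∀ i ≤ k, e i (g k) = 0 := by
  classical
  -- one block
  have hone : ∀ n k : ℕ, ∃ g : E, g ∈ Submodule.span 𝕜 (f '' Set.Ico n (n + k + 2)) ∧ ‖g‖ = 1 ∧
      ∀ i ≤ k, e i g = 0 := by
    intro n k
    let Φ : (Fin (k + 2) → 𝕜) →ₗ[𝕜] (Fin (k + 1) → 𝕜) :=
      LinearMap.pi (fun i : Fin (k + 1) => (e i) ∘ₗ
        (Fintype.linearCombination 𝕜 (fun j : Fin (k + 2) => f (n + j))))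
    obtain ⟨c, hcker, hcne⟩ : ∃ c ∈ LinearMap.ker Φ, c ≠ 0 := by
      rw [← Submodule.ne_bot_iff]
      exact LinearMap.ker_ne_bot_of_finrank_lt (by simp)
    let h : E := ∑ j : Fin (k + 2), c j • f (n + j)
    have hhne : h ≠ 0 := by
      intro h0
      apply hcne
      have hinj : Function.Injective (fun j : Fin (k + 2) => n + (j : ℕ)) := by
        intro a b hab; simp only [add_right_inj] at hab; exact Fin.ext hab
      have hli : LinearIndependent 𝕜 (fun j : Fin (k + 2) => f (n + j)) := hf.comp _ hinj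
      rw [Fintype.linearIndependent_iff] at hli
      funext j
      exact hli c h0 j
    have hhpos : 0 < ‖h‖ := norm_pos_iff.mpr hhne
    have hhmem : h ∈ Submodule.span 𝕜 (f '' Set.Ico n (n + k + 2)) := by
      refine Submodule.sum_mem _ fun j _ => Submodule.smul_mem _ _ (Submodule.subset_span ?_)
      exact ⟨n + j, ⟨by omega, by have := j.2; omega⟩, rfl⟩
    refine ⟨((‖h‖⁻¹ : ℝ) : 𝕜) • h, Submodule.smul_mem _ _ hhmem, ?_, ?_⟩
    · rw [norm_smul]
      simp only [RCLike.norm_ofReal, abs_inv, abs_norm]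
      exact inv_mul_cancel₀ hhpos.ne'
    · intro i hi
      have h1 := congrFun (LinearMap.mem_ker.mp hcker) ⟨i, Nat.lt_succ_of_le hi⟩
      have h2 : e i h = 0 := by
        simpa [Φ, h, Fintype.linearCombination_apply] using h1
      rw [map_smul, h2, smul_zero]
  let N : ℕ → ℕ := fun k => Nat.rec 0 (fun k n => n + k + 2) k
  have hNsucc : ∀ k, N (k + 1) = N k + k + 2 := fun k => rfl
  choose G hG1 hG2 hG3 using hone
  refine ⟨fun k => G (N k) k, N, strictMono_nat_of_lt_succ fun k => by rw [hNsucc]; omega,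
    fun k => ?_, fun k => hG2 _ _, fun k => hG3 _ _⟩
  rw [hNsucc]; exact hG1 _ _

end

end Crest.Agent.R114
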