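import Mathlib
import Crest.Agent.R114.G1

set_option autoImplicit false

/-!
# The no-separable-quotient argument (row 114, S0152), abstract form
-/

namespace Crest.Agent.R114

open Filter Topology

/-- Abstract frame: a space with a transfinite "basis" `δ`, initial-segment projections `R` of norm
one and coordinate functionals `e`. -/
structure Frame (𝕜 : Type*) (V : Type*) (I : Type*) [RCLike 𝕜] [NormedAddCommGroup V]
    [NormedSpace 𝕜 V] [LinearOrder I] where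
  δ : I → V
  R : I → V →L[𝕜] V
  e : I → V →L[𝕜] 𝕜
  dense : Dense ((Submodule.span 𝕜 (Set.range δ) : Submodule 𝕜 V) : Set V)
  R_norm : ∀ γ v, ‖R γ v‖ ≤ ‖v‖
  R_lt : ∀ γ ξ, ξ < γ → R γ (δ ξ) = δ ξ
  R_ge : ∀ γ ξ, γ ≤ ξ → R γ (δ ξ) = 0
  e_self : ∀ ξ, e ξ (δ ξ) = 1
  e_ne : ∀ ξ η, ξ ≠ η → e ξ (δ η) = 0

namespace Frame

variable {𝕜 : Type*} {V : Type*} {I : Type*} [RCLike 𝕜] [NormedAddCommGroup V]
    [NormedSpace 𝕜 V] [LinearOrder I] (Fr : Frame 𝕜 V I)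

theorem ext_clm {W : Type*} [NormedAddCommGroup W] [NormedSpace 𝕜 W] {A B : V →L[𝕜] W}
    (h : ∀ ξ, A (Fr.δ ξ) = B (Fr.δ ξ)) : A = B := by
  refine ContinuousLinearMap.ext_on Fr.dense ?_
  rintro _ ⟨ξ, rfl⟩
  exact h ξ

theorem R_R (γ γ' : I) (h : γ ≤ γ') (v : V) : Fr.R γ (Fr.R γ' v) = Fr.R γ v := by
  have : (Fr.R γ).comp (Fr.R γ') = Fr.R γ := by
    apply Fr.ext_clm
    intro ξ
    show Fr.R γ (Fr.R γ' (Fr.δ ξ)) = Fr.R γ (Fr.δ ξ)
    rcases lt_or_ge ξ γ' with h1 | h1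
    · rw [Fr.R_lt γ' ξ h1]
    · rw [Fr.R_ge γ' ξ h1, map_zero, Fr.R_ge γ ξ (h.trans h1)]
  exact congrArg (fun A : V →L[𝕜] V => A v) this

theorem R_R' (γ γ' : I) (h : γ' ≤ γ) (v : V) : Fr.R γ (Fr.R γ' v) = Fr.R γ' v := by
  have : (Fr.R γ).comp (Fr.R γ') = Fr.R γ' := by
    apply Fr.ext_clm
    intro ξ
    show Fr.R γ (Fr.R γ' (Fr.δ ξ)) = Fr.R γ' (Fr.δ ξ)
    rcases lt_or_ge ξ γ' with h1 | h1
    · rw [Fr.R_lt γ' ξ h1, Fr.R_lt γ ξ (h1.trans_le h)]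
    · rw [Fr.R_ge γ' ξ h1, map_zero]
  exact congrArg (fun A : V →L[𝕜] V => A v) this

theorem e_R_lt (ξ γ : I) (h : ξ < γ) (v : V) : Fr.e ξ (Fr.R γ v) = Fr.e ξ v := by
  have : (Fr.e ξ).comp (Fr.R γ) = Fr.e ξ := by
    apply Fr.ext_clm
    intro η
    show Fr.e ξ (Fr.R γ (Fr.δ η)) = Fr.e ξ (Fr.δ η)
    rcases lt_or_ge η γ with h1 | h1
    · rw [Fr.R_lt γ η h1]
    · rw [Fr.R_ge γ η h1, map_zero, Fr.e_ne ξ η (h.trans_le h1).ne]
  exact congrArg (fun A : V →L[𝕜] 𝕜 => A v) this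

theorem e_R_ge (ξ γ : I) (h : γ ≤ ξ) (v : V) : Fr.e ξ (Fr.R γ v) = 0 := by
  have : (Fr.e ξ).comp (Fr.R γ) = 0 := by
    apply Fr.ext_clm
    intro η
    show Fr.e ξ (Fr.R γ (Fr.δ η)) = 0
    rcases lt_or_ge η γ with h1 | h1
    · rw [Fr.R_lt γ η h1, Fr.e_ne ξ η (h1.trans_le h).ne']
    · rw [Fr.R_ge γ η h1, map_zero]
  exact congrArg (fun A : V →L[𝕜] 𝕜 => A v) this

/-- For a vector in the span of the basis, `R γ w = w` for all large `γ`. -/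
theorem R_eq_self_of_mem_span [Nonempty I] (hcof : ∀ s : ℕ → I, ∃ γ, ∀ n, s n < γ) {w : V}
    (hw : w ∈ Submodule.span 𝕜 (Set.range Fr.δ)) : ∃ γ0, ∀ γ, γ0 ≤ γ → Fr.R γ w = w := by
  induction hw using Submodule.span_induction with
  | mem x hx =>
    obtain ⟨ξ, rfl⟩ := hx
    obtain ⟨γ, hγ⟩ := hcof (fun _ => ξ)
    exact ⟨γ, fun γ' hγ' => Fr.R_lt γ' ξ ((hγ 0).trans_le hγ')⟩
  | zero => exact ⟨Classical.arbitrary I, fun γ _ => map_zero _⟩
  | add x y _ _ hx hy =>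
    obtain ⟨a, ha⟩ := hx
    obtain ⟨b, hb⟩ := hy
    refine ⟨max a b, fun γ hγ => ?_⟩
    rw [map_add, ha γ ((le_max_left _ _).trans hγ), hb γ ((le_max_right _ _).trans hγ)]
  | smul c x _ hx =>
    obtain ⟨a, ha⟩ := hx
    exact ⟨a, fun γ hγ => by rw [map_smul, ha γ hγ]⟩

/-- Every vector satisfies `R γ v = v` for all large `γ`. -/
theorem exists_R_eq_self [Nonempty I] (hcof : ∀ s : ℕ → I, ∃ γ, ∀ n, s n < γ) (v : V) :
    ∃ γ0, ∀ γ, γ0 ≤ γ → Fr.R γ v = v := by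
  have h1 : ∀ n : ℕ, ∃ w ∈ Submodule.span 𝕜 (Set.range Fr.δ), ‖v - w‖ < 1 / ((n : ℝ) + 1) := by
    intro n
    obtain ⟨w, hw1, hw2⟩ := Metric.dense_iff.mp Fr.dense v (1 / ((n : ℝ) + 1)) (by positivity)
    refine ⟨w, hw2, ?_⟩
    rw [Metric.mem_ball, dist_eq_norm] at hw1
    rwa [norm_sub_rev]
  choose w hw1 hw2 using h1
  choose s hs using fun n => Fr.R_eq_self_of_mem_span hcof (hw1 n)
  obtain ⟨γ0, hγ0⟩ := hcof s
  refine ⟨γ0, fun γ hγ => ?_⟩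
  have h2 : ∀ n : ℕ, ‖Fr.R γ v - v‖ ≤ 2 * (1 / ((n : ℝ) + 1)) := by
    intro n
    have h3 : Fr.R γ v - v = Fr.R γ (v - w n) - (v - w n) := by
      rw [map_sub, hs n γ ((hγ0 n).le.trans hγ)]; abel
    rw [h3]
    calc _ ≤ ‖Fr.R γ (v - w n)‖ + ‖v - w n‖ := norm_sub_le _ _
      _ ≤ ‖v - w n‖ + ‖v - w n‖ := by gcongr; exact Fr.R_norm _ _
      _ ≤ 2 * (1 / ((n : ℝ) + 1)) := by linarith [hw2 n]
  have h4 : Tendsto (fun n : ℕ => 2 * (1 / ((n : ℝ) + 1))) atTop (𝓝 0) := by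
    simpa using (tendsto_one_div_add_atTop_nhds_zero_nat (𝕜 := ℝ)).const_mul 2
  have h5 : ‖Fr.R γ v - v‖ ≤ 0 := ge_of_tendsto' h4 h2
  exact sub_eq_zero.mp (norm_le_zero_iff.mp h5)

/-- Left-continuity of the projections at limit points. -/
theorem exists_R_close (γ : I) (hne : ∃ ξ, ξ < γ) (hlim : ∀ ξ, ξ < γ → ∃ η, ξ < η ∧ η < γ)
    (v : V) (ε : ℝ) (hε : 0 < ε) : ∃ a, a < γ ∧ ∀ a', a ≤ a' → a' < γ → ‖Fr.R γ v - Fr.R a' v‖ ≤ ε := by
  have hspan : ∀ w ∈ Submodule.span 𝕜 (Set.range Fr.δ), ∃ a, a < γ ∧ ∀ a', a ≤ a' → a' < γ →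
      Fr.R γ w = Fr.R a' w := by
    intro w hw
    induction hw using Submodule.span_induction with
    | mem x hx =>
      obtain ⟨ξ, rfl⟩ := hx
      rcases lt_or_ge ξ γ with h | h
      · obtain ⟨η, hη1, hη2⟩ := hlim ξ h
        exact ⟨η, hη2, fun a' h1 h2 => by rw [Fr.R_lt γ ξ h, Fr.R_lt a' ξ (hη1.trans_le h1)]⟩
      · obtain ⟨η, hη⟩ := hne
        exact ⟨η, hη, fun a' h1 h2 => by rw [Fr.R_ge γ ξ h, Fr.R_ge a' ξ (h2.le.trans h)]⟩
    | zero =>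
      obtain ⟨η, hη⟩ := hne
      exact ⟨η, hη, fun a' _ _ => by rw [map_zero, map_zero]⟩
    | add x y _ _ hx hy =>
      obtain ⟨a, ha1, ha2⟩ := hx
      obtain ⟨b, hb1, hb2⟩ := hy
      refine ⟨max a b, max_lt ha1 hb1, fun a' h1 h2 => ?_⟩
      rw [map_add, map_add, ha2 a' ((le_max_left _ _).trans h1) h2,
        hb2 a' ((le_max_right _ _).trans h1) h2]
    | smul c x _ hx =>
      obtain ⟨a, ha1, ha2⟩ := hx
      exact ⟨a, ha1, fun a' h1 h2 => by rw [map_smul, map_smul, ha2 a' h1 h2]⟩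
  obtain ⟨w, hw1, hw2⟩ := Metric.dense_iff.mp Fr.dense v (ε / 2) (by positivity)
  rw [Metric.mem_ball, dist_eq_norm] at hw1
  obtain ⟨a, ha1, ha2⟩ := hspan w hw2
  refine ⟨a, ha1, fun a' h1 h2 => ?_⟩
  have h3 : Fr.R γ v - Fr.R a' v = Fr.R a' (w - v) - Fr.R γ (w - v) := by
    rw [map_sub, map_sub, ← ha2 a' h1 h2]; abel
  rw [h3]
  calc _ ≤ ‖Fr.R a' (w - v)‖ + ‖Fr.R γ (w - v)‖ := norm_sub_le _ _
    _ ≤ ‖w - v‖ + ‖w - v‖ := add_le_add (Fr.R_norm _ _) (Fr.R_norm _ _)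
    _ ≤ ε := by linarith

/-- Projections of vectors in the span of the basis lie in the span of the corresponding part. -/
theorem R_sub_mem_span (a b : I) (hab : a ≤ b) (w : V) (hw : w ∈ Submodule.span 𝕜 (Set.range Fr.δ)) :
    Fr.R b w - Fr.R a w ∈ Submodule.span 𝕜 (Fr.δ '' Set.Ico a b) := by
  induction hw using Submodule.span_induction with
  | mem x hx =>
    obtain ⟨ξ, rfl⟩ := hx
    rcases lt_or_ge ξ a with h | h
    · rw [Fr.R_lt a ξ h, Fr.R_lt b ξ (h.trans_le hab), sub_self]; exact Submodule.zero_mem _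
    · rw [Fr.R_ge a ξ h, sub_zero]
      rcases lt_or_ge ξ b with h' | h'
      · rw [Fr.R_lt b ξ h']; exact Submodule.subset_span ⟨ξ, ⟨h, h'⟩, rfl⟩
      · rw [Fr.R_ge b ξ h']; exact Submodule.zero_mem _
  | zero => rw [map_zero, map_zero, sub_self]; exact Submodule.zero_mem _
  | add x y _ _ hx hy =>
    have : Fr.R b (x + y) - Fr.R a (x + y) = (Fr.R b x - Fr.R a x) + (Fr.R b y - Fr.R a y) := by
      rw [map_add, map_add]; abel
    rw [this]; exact Submodule.add_mem _ hx hy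
  | smul c x _ hx =>
    rw [map_smul, map_smul, ← smul_sub]; exact Submodule.smul_mem _ _ hx

theorem R_of_mem_span_Ico (a b γ : I) (h : b ≤ γ) (w : V)
    (hw : w ∈ Submodule.span 𝕜 (Fr.δ '' Set.Ico a b)) : Fr.R γ w = w := by
  induction hw using Submodule.span_induction with
  | mem x hx =>
    obtain ⟨ξ, hξ, rfl⟩ := hx
    exact Fr.R_lt γ ξ (hξ.2.trans_le h)
  | zero => exact map_zero _
  | add x y _ _ hx hy => rw [map_add, hx, hy]
  | smul c x _ hx => rw [map_smul, hx]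

theorem R_of_mem_span_Ico' (a b γ : I) (h : γ ≤ a) (w : V)
    (hw : w ∈ Submodule.span 𝕜 (Fr.δ '' Set.Ico a b)) : Fr.R γ w = 0 := by
  induction hw using Submodule.span_induction with
  | mem x hx =>
    obtain ⟨ξ, hξ, rfl⟩ := hx
    exact Fr.R_ge γ ξ (h.trans hξ.1)
  | zero => exact map_zero _
  | add x y _ _ hx hy => rw [map_add, hx, hy, add_zero]
  | smul c x _ hx => rw [map_smul, hx, smul_zero]

end Frame

section blocks
variable {𝕜 : Type*} {V : Type*} [RCLike 𝕜] [NormedAddCommGroup V] [NormedSpace 𝕜 V]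

/-- `g` is a sequence of nonzero successive blocks of `f`. -/
def IsBlkOf (𝕜 : Type*) {V : Type*} [RCLike 𝕜] [NormedAddCommGroup V] [NormedSpace 𝕜 V]
    (f g : ℕ → V) : Prop :=
  ∃ N : ℕ → ℕ, StrictMono N ∧ ∀ k, g k ≠ 0 ∧ g k ∈ Submodule.span 𝕜 (f '' Set.Ico (N k) (N (k + 1)))

theorem IsBlkOf.refl {f : ℕ → V} (hf : ∀ k, f k ≠ 0) : IsBlkOf 𝕜 f f :=
  ⟨id, strictMono_id, fun k => ⟨hf k, Submodule.subset_span ⟨k, ⟨le_rfl, Nat.lt_succ_self k⟩, rfl⟩⟩⟩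

theorem IsBlkOf.tail {f : ℕ → V} (hf : ∀ k, f k ≠ 0) (n : ℕ) :
    IsBlkOf 𝕜 f (fun k => f (n + k)) :=
  ⟨fun k => n + k, fun _ _ h => Nat.add_lt_add_left h n,
    fun k => ⟨hf _, Submodule.subset_span ⟨n + k, ⟨le_rfl, by show n + k < n + (k + 1); omega⟩, rfl⟩⟩⟩

theorem IsBlkOf.trans {f g h : ℕ → V} (h1 : IsBlkOf 𝕜 f g) (h2 : IsBlkOf 𝕜 g h) :
    IsBlkOf 𝕜 f h := by
  obtain ⟨N, hN, hg⟩ := h1
  obtain ⟨M, hM, hh⟩ := h2
  refine ⟨fun k => N (M k), hN.comp hM, fun k => ⟨(hh k).1, ?_⟩⟩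
  refine Submodule.span_le.mpr ?_ (hh k).2
  rintro _ ⟨i, hi, rfl⟩
  refine Submodule.span_mono (Set.image_mono (Set.Ico_subset_Ico ?_ ?_)) (hg i).2
  · exact hN.monotone hi.1
  · exact hN.monotone hi.2

theorem IsBlkOf.ne_zero {f g : ℕ → V} (h1 : IsBlkOf 𝕜 f g) (k : ℕ) : g k ≠ 0 := by
  obtain ⟨N, _, hg⟩ := h1
  exact (hg k).1

theorem IsBlkOf.span_le {f g : ℕ → V} (h1 : IsBlkOf 𝕜 f g) (n : ℕ) :
    Submodule.span 𝕜 (g '' {k | n ≤ k}) ≤ Submodule.span 𝕜 (f '' {k | n ≤ k}) := by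
  obtain ⟨N, hN, hg⟩ := h1
  refine Submodule.span_le.mpr ?_
  rintro _ ⟨i, hi, rfl⟩
  refine Submodule.span_mono (Set.image_mono ?_) (hg i).2
  intro j hj
  have hi' : n ≤ i := hi
  exact hi'.trans ((hN.id_le i).trans hj.1)

theorem IsBlkOf.span_range_le {f g : ℕ → V} (h1 : IsBlkOf 𝕜 f g) :
    Submodule.span 𝕜 (Set.range g) ≤ Submodule.span 𝕜 (Set.range f) := by
  have h := h1.span_le 0
  simpa using h

end blocks

namespace Frame

variable {𝕜 : Type*} {V : Type*} {I : Type*} [RCLike 𝕜] [NormedAddCommGroup V]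
    [NormedSpace 𝕜 V] [LinearOrder I] (Fr : Frame 𝕜 V I)

/-- The key consequence of the main lemma, in abstract form: for every block sequence with range
cofinal in `γ` there is a special functional `t` acting on tails, and some `β` for which
`x β = t + (small) + e β`. -/
def MainProp (x : I → V →L[𝕜] 𝕜) : Prop :=
  ∀ (γ : I) (u : ℕ → V) (a : ℕ → I), Monotone a → (∀ k, a k < γ) → (∀ ξ < γ, ∃ k, ξ < a k) →
    (∀ k, u k ≠ 0) → (∀ k, u k ∈ Submodule.span 𝕜 (Fr.δ '' Set.Ico (a k) (a (k + 1)))) →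
    ∃ (β : I) (t : V →L[𝕜] 𝕜) (c C : ℝ), 0 < c ∧ (∀ v, t (Fr.R γ v) = t v) ∧
      (∀ N : ℕ, ∃ v ∈ Submodule.span 𝕜 (u '' {k | N ≤ k}), ‖v‖ ≤ C ∧ c ≤ ‖t v‖) ∧
      (∀ ψ : ℕ → V, (∃ B : ℝ, ∀ n, ‖ψ n‖ ≤ B) →
        (∀ ξ < γ, Tendsto (fun n => Fr.R ξ (ψ n)) atTop (𝓝 0)) →
        Tendsto (fun n => x β (ψ n) - Fr.e β (ψ n) - t (ψ n)) atTop (𝓝 0))

theorem aux_construct {γ : I} (hcount : (Set.Iio γ).Countable) (hne : ∃ ξ, ξ < γ)
    (hlim : ∀ ξ, ξ < γ → ∃ η, ξ < η ∧ η < γ) (g : ℕ → V)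
    (hsmall : ∀ γ' < γ, ∀ N : ℕ, ∀ ε > 0, ∃ h ∈ Submodule.span 𝕜 (g '' {k | N ≤ k}),
      ‖h‖ = 1 ∧ ‖Fr.R γ' h‖ ≤ ε) (ε : ℕ → ℝ) (hε : ∀ n, 0 < ε n) :
    ∃ (a : ℕ → I) (φ u : ℕ → V), Monotone a ∧ (∀ k, a k < γ) ∧ (∀ ξ < γ, ∃ k, ξ < a k) ∧
      (∀ k, φ k ∈ Submodule.span 𝕜 (g '' {i | k ≤ i})) ∧ (∀ k, ‖φ k‖ = 1) ∧
      (∀ k, u k ∈ Submodule.span 𝕜 (Fr.δ '' Set.Ico (a k) (a (k + 1)))) ∧
      (∀ k, ‖Fr.R γ (φ k) - u k‖ ≤ 4 * ε k) := by
  classical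
  obtain ⟨s, hs⟩ := hcount.exists_eq_range (by obtain ⟨ξ, hξ⟩ := hne; exact ⟨ξ, hξ⟩)
  have hs1 : ∀ k, s k < γ := fun k => by
    have : s k ∈ Set.Iio γ := by rw [hs]; exact ⟨k, rfl⟩
    exact this
  have step : ∀ (k : ℕ) (a : {a : I // a < γ}), ∃ (φ : V) (a' : {a : I // a < γ}),
      φ ∈ Submodule.span 𝕜 (g '' {i | k ≤ i}) ∧ ‖φ‖ = 1 ∧ ‖Fr.R a.1 φ‖ ≤ ε k ∧
      a.1 < a'.1 ∧ s k < a'.1 ∧ ‖Fr.R γ φ - Fr.R a'.1 φ‖ ≤ ε k := by
    intro k a
    obtain ⟨φ, hφ1, hφ2, hφ3⟩ := hsmall a.1 a.2 k (ε k) (hε k)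
    obtain ⟨b, hb1, hb2⟩ := Fr.exists_R_close γ hne hlim φ (ε k) (hε k)
    obtain ⟨η, hη1, hη2⟩ := hlim (max (max a.1 (s k)) b) (max_lt (max_lt a.2 (hs1 k)) hb1)
    refine ⟨φ, ⟨η, hη2⟩, hφ1, hφ2, hφ3, ?_, ?_, ?_⟩
    · exact lt_of_le_of_lt ((le_max_left _ _).trans (le_max_left _ _)) hη1
    · exact lt_of_le_of_lt ((le_max_right _ _).trans (le_max_left _ _)) hη1
    · exact hb2 η ((le_max_right _ _).trans hη1.le) hη2
  choose Φ A h1 h2 h3 h4 h5 h6 using step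
  obtain ⟨ξ0, hξ0⟩ := hne
  let a : ℕ → {a : I // a < γ} := fun k => Nat.rec ⟨ξ0, hξ0⟩ (fun k b => A k b) k
  have ha : ∀ k, a (k + 1) = A k (a k) := fun k => rfl
  have hamono : Monotone (fun k => (a k).1) := by
    refine monotone_nat_of_le_succ fun k => ?_
    show (a k).1 ≤ (a (k + 1)).1
    rw [ha]; exact (h4 k (a k)).le
  have hu : ∀ k, ∃ u ∈ Submodule.span 𝕜 (Fr.δ '' Set.Ico (a k).1 (a (k + 1)).1),
      ‖Fr.R γ (Φ k (a k)) - u‖ ≤ 4 * ε k := by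
    intro k
    obtain ⟨w, hw1, hw2⟩ := Metric.dense_iff.mp Fr.dense (Φ k (a k)) (ε k) (hε k)
    rw [Metric.mem_ball, dist_eq_norm] at hw1
    refine ⟨Fr.R (a (k + 1)).1 w - Fr.R (a k).1 w,
      Fr.R_sub_mem_span _ _ (hamono (Nat.le_succ k)) w hw2, ?_⟩
    have e1 : Fr.R γ (Φ k (a k)) - (Fr.R (a (k + 1)).1 w - Fr.R (a k).1 w) =
        (Fr.R γ (Φ k (a k)) - Fr.R (a (k + 1)).1 (Φ k (a k))) + Fr.R (a k).1 (Φ k (a k)) +
        (Fr.R (a k).1 (w - Φ k (a k)) - Fr.R (a (k + 1)).1 (w - Φ k (a k))) := by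
      rw [map_sub, map_sub]; abel
    rw [e1]
    have n1 : ‖Fr.R γ (Φ k (a k)) - Fr.R (a (k + 1)).1 (Φ k (a k))‖ ≤ ε k := by
      rw [ha]; exact h6 k (a k)
    have n2 : ‖Fr.R (a k).1 (Φ k (a k))‖ ≤ ε k := h3 k (a k)
    have n3 : ‖Fr.R (a k).1 (w - Φ k (a k)) - Fr.R (a (k + 1)).1 (w - Φ k (a k))‖ ≤ 2 * ε k := by
      calc _ ≤ ‖Fr.R (a k).1 (w - Φ k (a k))‖ + ‖Fr.R (a (k + 1)).1 (w - Φ k (a k))‖ :=
            norm_sub_le _ _
        _ ≤ ‖w - Φ k (a k)‖ + ‖w - Φ k (a k)‖ := add_le_add (Fr.R_norm _ _) (Fr.R_norm _ _)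
        _ ≤ 2 * ε k := by linarith
    calc _ ≤ ‖Fr.R γ (Φ k (a k)) - Fr.R (a (k + 1)).1 (Φ k (a k))‖ + ‖Fr.R (a k).1 (Φ k (a k))‖ +
          ‖Fr.R (a k).1 (w - Φ k (a k)) - Fr.R (a (k + 1)).1 (w - Φ k (a k))‖ := norm_add₃_le
      _ ≤ 4 * ε k := by linarith
  choose u hu1 hu2 using hu
  refine ⟨fun k => (a k).1, fun k => Φ k (a k), u, hamono, fun k => (a k).2, ?_, fun k => h1 k _,
    fun k => h2 k _, hu1, hu2⟩
  intro ξ hξ
  have : ξ ∈ Set.range s := by rw [← hs]; exact hξ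
  obtain ⟨k, rfl⟩ := this
  exact ⟨k + 1, by show s k < (a (k + 1)).1; rw [ha]; exact h5 k _⟩

/-- Transfer: block sequence `u` close to `R γ φ`. -/
theorem aux_contradiction {γ : I} (x : I → V →L[𝕜] 𝕜) (hmain : Fr.MainProp x)
    (g : ℕ → V) {c₀ : ℝ} (hc₀ : 0 < c₀)
    (hbelow : ∀ h ∈ Submodule.span 𝕜 (Set.range g), c₀ * ‖h‖ ≤ ‖Fr.R γ h‖)
    (hcoord : ∀ ξ, ∃ K : ℕ, ∀ k, K ≤ k → Fr.e ξ (g k) = 0)
    (htail : ∀ β, ∀ ε > 0, ∃ N : ℕ, ∀ h ∈ Submodule.span 𝕜 (g '' {k | N ≤ k}), ‖x β h‖ ≤ ε * ‖h‖)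
    (a : ℕ → I) (φ u : ℕ → V) (ha : Monotone a) (haγ : ∀ k, a k < γ)
    (hacof : ∀ ξ < γ, ∃ k, ξ < a k)
    (hφg : ∀ k, φ k ∈ Submodule.span 𝕜 (g '' {i | k ≤ i})) (hφ1 : ∀ k, ‖φ k‖ = 1)
    (hu : ∀ k, u k ∈ Submodule.span 𝕜 (Fr.δ '' Set.Ico (a k) (a (k + 1))))
    (hclose : ∀ k, ‖Fr.R γ (φ k) - u k‖ ≤ 4 * (c₀ / 32 * (1 / 2) ^ k)) : False := by
  classical
  have hφrange : ∀ k, φ k ∈ Submodule.span 𝕜 (Set.range g) := fun k =>
    Submodule.span_mono (Set.image_subset_range _ _) (hφg k)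
  have hulow : ∀ k, c₀ / 2 ≤ ‖u k‖ := by
    intro k
    have h1 : c₀ ≤ ‖Fr.R γ (φ k)‖ := by simpa [hφ1 k] using hbelow (φ k) (hφrange k)
    have h2 : ‖Fr.R γ (φ k)‖ ≤ ‖Fr.R γ (φ k) - u k‖ + ‖u k‖ := by
      simpa using norm_add_le (Fr.R γ (φ k) - u k) (u k)
    have h3 : (1 / 2 : ℝ) ^ k ≤ 1 := pow_le_one₀ (by norm_num) (by norm_num)
    have h4 := hclose k
    have h5 : 4 * (c₀ / 32 * (1 / 2) ^ k) ≤ c₀ / 8 := by nlinarith
    linarith
  have hune : ∀ k, u k ≠ 0 := by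
    intro k h0
    have := hulow k
    rw [h0, norm_zero] at this
    linarith
  obtain ⟨β, t, c, C, hc, htR, hv, hpsi⟩ := hmain γ u a ha haγ hacof hune hu
  choose v hvspan hvC hvt using hv
  have hC : 0 ≤ C := (norm_nonneg _).trans (hvC 0)
  have hl : ∀ N, ∃ l ∈ Finsupp.supported 𝕜 𝕜 {k | N ≤ k}, Finsupp.linearCombination 𝕜 u l = v N :=
    fun N => (Finsupp.mem_span_image_iff_linearCombination 𝕜).mp (hvspan N)
  choose l hlsupp hlv using hl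
  have hlmem : ∀ N, ∀ k ∈ (l N).support, N ≤ k := by
    intro N k hk
    exact (Finsupp.mem_supported 𝕜 (l N)).mp (hlsupp N) hk
  -- projections of `v N`
  have hproj : ∀ N k, Fr.R (a (k + 1)) (v N) - Fr.R (a k) (v N) = l N k • u k := by
    intro N k
    rw [← hlv N, Finsupp.linearCombination_apply, Finsupp.sum, map_sum, map_sum,
      ← Finset.sum_sub_distrib]
    rw [Finset.sum_eq_single k]
    · rw [map_smul, map_smul, Fr.R_of_mem_span_Ico _ _ _ le_rfl _ (hu k),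
        Fr.R_of_mem_span_Ico' _ _ _ le_rfl _ (hu k), smul_zero, sub_zero]
    · intro j _ hjk
      rcases lt_or_gt_of_ne hjk with h | h
      · rw [map_smul, map_smul, Fr.R_of_mem_span_Ico _ _ _ (ha (by omega)) _ (hu j),
          Fr.R_of_mem_span_Ico _ _ _ (ha (by omega)) _ (hu j), sub_self]
      · rw [map_smul, map_smul, Fr.R_of_mem_span_Ico' _ _ _ (ha (by omega)) _ (hu j),
          Fr.R_of_mem_span_Ico' _ _ _ (ha (by omega)) _ (hu j), sub_self]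
    · intro hk
      rw [Finsupp.notMem_support_iff.mp hk, zero_smul, map_zero, map_zero, sub_zero]
  have hcoef : ∀ N k, ‖l N k‖ ≤ 4 * C / c₀ := by
    intro N k
    have h1 : ‖l N k‖ * ‖u k‖ ≤ 2 * C := by
      rw [← norm_smul, ← hproj N k]
      calc _ ≤ ‖Fr.R (a (k + 1)) (v N)‖ + ‖Fr.R (a k) (v N)‖ := norm_sub_le _ _
        _ ≤ ‖v N‖ + ‖v N‖ := add_le_add (Fr.R_norm _ _) (Fr.R_norm _ _)
        _ ≤ 2 * C := by linarith [hvC N]
    rw [le_div_iff₀ hc₀]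
    have h2 : ‖l N k‖ * (c₀ / 2) ≤ ‖l N k‖ * ‖u k‖ :=
      mul_le_mul_of_nonneg_left (hulow k) (norm_nonneg _)
    linarith
  let ψ : ℕ → V := fun N => Finsupp.linearCombination 𝕜 φ (l N)
  have hψg : ∀ N, ψ N ∈ Submodule.span 𝕜 (g '' {k | N ≤ k}) := by
    intro N
    simp only [ψ, Finsupp.linearCombination_apply, Finsupp.sum]
    refine Submodule.sum_mem _ fun k hk => Submodule.smul_mem _ _ ?_
    refine Submodule.span_mono (Set.image_mono ?_) (hφg k)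
    intro i hi
    exact (hlmem N k hk).trans hi
  have hψdiff : ∀ N, ‖Fr.R γ (ψ N) - v N‖ ≤ C * (1 / 2) ^ N := by
    intro N
    have e1 : Fr.R γ (ψ N) - v N = ∑ k ∈ (l N).support, l N k • (Fr.R γ (φ k) - u k) := by
      rw [← hlv N]
      simp only [ψ, Finsupp.linearCombination_apply, Finsupp.sum]
      rw [map_sum, ← Finset.sum_sub_distrib]
      refine Finset.sum_congr rfl fun k _ => ?_
      rw [map_smul, smul_sub]
    rw [e1]
    have h1 : ∀ k ∈ (l N).support, ‖l N k • (Fr.R γ (φ k) - u k)‖ ≤ C / 2 * (1 / 2) ^ k := by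
      intro k _
      rw [norm_smul]
      calc ‖l N k‖ * ‖Fr.R γ (φ k) - u k‖ ≤ (4 * C / c₀) * (4 * (c₀ / 32 * (1 / 2) ^ k)) :=
            mul_le_mul (hcoef N k) (hclose k) (norm_nonneg _) (by positivity)
        _ = C / 2 * (1 / 2) ^ k := by field_simp; ring
    refine (norm_sum_le _ _).trans ((Finset.sum_le_sum h1).trans ?_)
    rw [← Finset.mul_sum]
    have h2 : ∑ k ∈ (l N).support, (1 / 2 : ℝ) ^ k ≤ 2 * (1 / 2) ^ N := by
      have hsub : (l N).support ⊆ (Finset.range ((l N).support.sup id + 1)).image (fun i => N + i) := by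
        intro k hk
        rw [Finset.mem_image]
        have hk1 := hlmem N k hk
        have hk2 : k ≤ (l N).support.sup id := Finset.le_sup (f := id) hk
        exact ⟨k - N, Finset.mem_range.mpr (by omega), by omega⟩
      calc ∑ k ∈ (l N).support, (1 / 2 : ℝ) ^ k
          ≤ ∑ k ∈ (Finset.range ((l N).support.sup id + 1)).image (fun i => N + i), (1 / 2 : ℝ) ^ k :=
            Finset.sum_le_sum_of_subset_of_nonneg hsub (fun _ _ _ => by positivity)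
        _ = ∑ i ∈ Finset.range ((l N).support.sup id + 1), (1 / 2 : ℝ) ^ (N + i) :=
            Finset.sum_image (fun i _ j _ h => by simpa using h)
        _ = (1 / 2) ^ N * ∑ i ∈ Finset.range ((l N).support.sup id + 1), (1 / 2 : ℝ) ^ i := by
            rw [Finset.mul_sum]; refine Finset.sum_congr rfl fun i _ => pow_add _ _ _
        _ ≤ (1 / 2) ^ N * 2 := by
            refine mul_le_mul_of_nonneg_left ?_ (by positivity)
            have := hasSum_geometric_two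
            have h3 := this.summable.sum_le_tsum (Finset.range ((l N).support.sup id + 1))
              (fun i _ => by positivity)
            rwa [this.tsum_eq] at h3
        _ = 2 * (1 / 2) ^ N := mul_comm _ _
    calc C / 2 * ∑ k ∈ (l N).support, (1 / 2 : ℝ) ^ k ≤ C / 2 * (2 * (1 / 2) ^ N) :=
          mul_le_mul_of_nonneg_left h2 (by positivity)
      _ = C * (1 / 2) ^ N := by ring
  have hpow : Tendsto (fun N : ℕ => C * (1 / 2 : ℝ) ^ N) atTop (𝓝 0) := by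
    simpa using (tendsto_pow_atTop_nhds_zero_of_lt_one (r := (1 / 2 : ℝ)) (by norm_num)
      (by norm_num)).const_mul C
  have hdiff0 : Tendsto (fun N => Fr.R γ (ψ N) - v N) atTop (𝓝 0) :=
    squeeze_zero_norm hψdiff hpow
  have hψbd : ∀ N, ‖ψ N‖ ≤ 2 * C / c₀ := by
    intro N
    have hmem : ψ N ∈ Submodule.span 𝕜 (Set.range g) :=
      Submodule.span_mono (Set.image_subset_range _ _) (hψg N)
    have h1 := hbelow _ hmem
    have h2 : ‖Fr.R γ (ψ N)‖ ≤ ‖Fr.R γ (ψ N) - v N‖ + ‖v N‖ := by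
      simpa using norm_add_le (Fr.R γ (ψ N) - v N) (v N)
    have h3 : (1 / 2 : ℝ) ^ N ≤ 1 := pow_le_one₀ (by norm_num) (by norm_num)
    have h4 := hψdiff N
    have h5 := hvC N
    rw [le_div_iff₀ hc₀]
    nlinarith
  -- `R ξ (ψ N) → 0`
  have hRξ : ∀ ξ < γ, Tendsto (fun N => Fr.R ξ (ψ N)) atTop (𝓝 0) := by
    intro ξ hξ
    obtain ⟨k, hk⟩ := hacof ξ hξ
    have h1 : Tendsto (fun N => Fr.R ξ (Fr.R γ (ψ N) - v N)) atTop (𝓝 0) := by
      have := ((Fr.R ξ).continuous.tendsto 0).comp hdiff0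
      rwa [map_zero] at this
    refine h1.congr' ?_
    filter_upwards [eventually_ge_atTop k] with N hN
    have h2 : Fr.R ξ (v N) = 0 := by
      rw [← hlv N, Finsupp.linearCombination_apply, Finsupp.sum, map_sum]
      refine Finset.sum_eq_zero fun j hj => ?_
      rw [map_smul, Fr.R_of_mem_span_Ico' _ _ _ (hk.le.trans (ha (hN.trans (hlmem N j hj)))) _ (hu j),
        smul_zero]
    rw [map_sub, h2, sub_zero, Fr.R_R ξ γ hξ.le]
  have h0 := hpsi ψ ⟨_, hψbd⟩ hRξ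
  -- `x β (ψ N) → 0`
  have hx0 : Tendsto (fun N => x β (ψ N)) atTop (𝓝 0) := by
    rw [Metric.tendsto_atTop]
    intro ε hε
    have hB : 0 < 2 * C / c₀ + 1 := by positivity
    obtain ⟨N, hN⟩ := htail β (ε / 2 / (2 * C / c₀ + 1)) (by positivity)
    refine ⟨N, fun n hn => ?_⟩
    rw [dist_zero_right]
    have h1 := hN (ψ n) (Submodule.span_mono (Set.image_mono fun i (hi : n ≤ i) => hn.le.trans hi)
      (hψg n))
    have h2 : ε / 2 / (2 * C / c₀ + 1) * ‖ψ n‖ ≤ ε / 2 := by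
      rw [div_mul_eq_mul_div, div_le_iff₀ hB]
      refine mul_le_mul_of_nonneg_left ?_ (by positivity)
      linarith [hψbd n]
    linarith
  -- `e β (ψ N) = 0` eventually
  have he0 : Tendsto (fun N => Fr.e β (ψ N)) atTop (𝓝 0) := by
    obtain ⟨K, hK⟩ := hcoord β
    refine tendsto_const_nhds.congr' ?_
    filter_upwards [eventually_ge_atTop K] with N hN
    have : ∀ h ∈ Submodule.span 𝕜 (g '' {k | N ≤ k}), Fr.e β h = 0 := by
      intro h hh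
      induction hh using Submodule.span_induction with
      | mem y hy => obtain ⟨i, hi, rfl⟩ := hy; exact hK i (hN.trans hi)
      | zero => exact map_zero _
      | add y z _ _ hy hz => rw [map_add, hy, hz, add_zero]
      | smul b y _ hy => rw [map_smul, hy, smul_zero]
    exact (this _ (hψg N)).symm
  have ht0 : Tendsto (fun N => t (ψ N)) atTop (𝓝 0) := by
    have := (hx0.sub he0).sub h0
    simpa using this
  have htdiff : Tendsto (fun N => t (Fr.R γ (ψ N) - v N)) atTop (𝓝 0) := by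
    have := (t.continuous.tendsto 0).comp hdiff0
    rwa [map_zero] at this
  have htv : Tendsto (fun N => t (v N)) atTop (𝓝 0) := by
    have := ht0.sub htdiff
    simp only [map_sub, htR, sub_sub_cancel, sub_zero] at this
    exact this
  have hge : c ≤ ‖(0 : 𝕜)‖ := ge_of_tendsto' htv.norm hvt
  rw [norm_zero] at hge
  linarith

/-- Main abstract theorem: a frame with the main property has no tail-null sequence. -/
theorem no_tail_null [WellFoundedLT I] [Nonempty I] (hcount : ∀ γ : I, (Set.Iio γ).Countable)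
    (hcof : ∀ s : ℕ → I, ∃ γ, ∀ n, s n < γ) (x : I → V →L[𝕜] 𝕜) (hmain : Fr.MainProp x)
    (f : ℕ → V) (hf : LinearIndependent 𝕜 f)
    (htail : ∀ β, ∀ ε > 0, ∃ N : ℕ, ∀ h ∈ Submodule.span 𝕜 (f '' {k | N ≤ k}),
      ‖x β h‖ ≤ ε * ‖h‖) : False := by
  classical
  -- common bound for the supports
  choose s hs using fun k => Fr.exists_R_eq_self hcof (f k)
  obtain ⟨γ0, hγ0⟩ := hcof s
  have hRf : ∀ k, Fr.R γ0 (f k) = f k := fun k => hs k γ0 (hγ0 k).le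
  have hRspan : ∀ h ∈ Submodule.span 𝕜 (Set.range f), Fr.R γ0 h = h := by
    intro h hh
    induction hh using Submodule.span_induction with
    | mem y hy => obtain ⟨i, rfl⟩ := hy; exact hRf i
    | zero => exact map_zero _
    | add y z _ _ hy hz => rw [map_add, hy, hz]
    | smul b y _ hy => rw [map_smul, hy]
  -- kill the coordinates
  haveI : Countable (Set.Iio γ0) := (hcount γ0).to_subtype
  haveI : Encodable (Set.Iio γ0) := Encodable.ofCountable _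
  let e' : ℕ → V →ₗ[𝕜] 𝕜 := fun n => match (Encodable.decode (α := Set.Iio γ0) n) with
    | some ξ => (Fr.e ξ.1).toLinearMap
    | none => 0
  obtain ⟨f', N', hN', hf'1, hf'2, hf'3⟩ := exists_blocks_killing (𝕜 := 𝕜) f hf e'
  have hff' : IsBlkOf 𝕜 f f' := ⟨N', hN', fun k => ⟨by
    intro h0; have := hf'2 k; rw [h0, norm_zero] at this; exact zero_ne_one this, hf'1 k⟩⟩
  have hcoord : ∀ ξ, ∃ K : ℕ, ∀ k, K ≤ k → Fr.e ξ (f' k) = 0 := by
    intro ξ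
    rcases lt_or_ge ξ γ0 with h | h
    · refine ⟨Encodable.encode (⟨ξ, h⟩ : Set.Iio γ0), fun k hk => ?_⟩
      have := hf'3 k _ hk
      simpa [e', Encodable.encodek] using this
    · refine ⟨0, fun k _ => ?_⟩
      have h1 : f' k ∈ Submodule.span 𝕜 (Set.range f) :=
        hff'.span_range_le (Submodule.subset_span ⟨k, rfl⟩)
      rw [← hRspan _ h1]
      exact Fr.e_R_ge ξ γ0 h _
  -- minimal good ordinal
  let Good : I → (ℕ → V) → Prop := fun γ f => ∃ g, IsBlkOf 𝕜 f g ∧ ∃ c > 0,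
    ∀ h ∈ Submodule.span 𝕜 (Set.range g), c * ‖h‖ ≤ ‖Fr.R γ h‖
  have hgood0 : Good γ0 f' := by
    refine ⟨f', IsBlkOf.refl hff'.ne_zero, 1, one_pos, fun h hh => ?_⟩
    rw [hRspan h (hff'.span_range_le hh), one_mul]
  obtain ⟨γ, ⟨g, hfg, c₀, hc₀, hbelow⟩, hmin⟩ := WellFounded.has_min
    (wellFounded_lt (α := I)) {γ | Good γ f'} ⟨γ0, hgood0⟩
  have hmin' : ∀ γ' < γ, ¬ Good γ' g := by
    rintro γ' hγ' ⟨g', hg', c, hc, hb⟩
    exact hmin γ' ⟨g', hfg.trans hg', c, hc, hb⟩ hγ'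
  have hgne := hfg.ne_zero
  have hcoordg : ∀ ξ, ∃ K : ℕ, ∀ k, K ≤ k → Fr.e ξ (g k) = 0 := by
    intro ξ
    obtain ⟨K, hK⟩ := hcoord ξ
    refine ⟨K, fun k hk => ?_⟩
    have h1 : g k ∈ Submodule.span 𝕜 (f' '' {i | k ≤ i}) :=
      hfg.span_le k (Submodule.subset_span ⟨k, (show k ≤ k from le_rfl), rfl⟩)
    have : ∀ h ∈ Submodule.span 𝕜 (f' '' {i | k ≤ i}), Fr.e ξ h = 0 := by
      intro h hh
      induction hh using Submodule.span_induction with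
      | mem y hy => obtain ⟨i, hi, rfl⟩ := hy; exact hK i (hk.trans hi)
      | zero => exact map_zero _
      | add y z _ _ hy hz => rw [map_add, hy, hz, add_zero]
      | smul b y _ hy => rw [map_smul, hy, smul_zero]
    exact this _ h1
  have htailg : ∀ β, ∀ ε > 0, ∃ N : ℕ, ∀ h ∈ Submodule.span 𝕜 (g '' {k | N ≤ k}),
      ‖x β h‖ ≤ ε * ‖h‖ := by
    intro β ε hε
    obtain ⟨N, hN⟩ := htail β ε hε
    exact ⟨N, fun h hh => hN h ((hff'.trans hfg).span_le N hh)⟩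
  -- `γ` is not minimal
  have hne : ∃ ξ, ξ < γ := by
    by_contra hcon
    push Not at hcon
    have h1 : Fr.R γ = 0 := by
      apply Fr.ext_clm
      intro ξ
      rw [Fr.R_ge γ ξ (hcon ξ)]; rfl
    have h2 := hbelow (g 0) (Submodule.subset_span ⟨0, rfl⟩)
    rw [h1] at h2
    have h3 : 0 < ‖g 0‖ := norm_pos_iff.mpr (hgne 0)
    have h4 : ‖(0 : V →L[𝕜] V) (g 0)‖ = 0 := norm_zero
    rw [h4] at h2
    nlinarith
  have hlim : ∀ ξ, ξ < γ → ∃ η, ξ < η ∧ η < γ := by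
    intro ξ hξ
    by_contra hcon
    push Not at hcon
    have hsucc : ∀ η, η < γ → η ≤ ξ := by
      intro η hη
      by_contra h
      exact absurd hη (not_lt.mpr (hcon η (not_le.mp h)))
    obtain ⟨K, hK⟩ := hcoordg ξ
    apply hmin' ξ hξ
    refine ⟨fun k => g (K + k), IsBlkOf.tail hgne K, c₀, hc₀, fun h hh => ?_⟩
    have hmem : h ∈ Submodule.span 𝕜 (Set.range g) := by
      refine Submodule.span_mono ?_ hh
      rintro _ ⟨k, rfl⟩; exact ⟨K + k, rfl⟩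
    have he : Fr.e ξ h = 0 := by
      induction hh using Submodule.span_induction with
      | mem y hy => obtain ⟨i, rfl⟩ := hy; exact hK _ (Nat.le_add_right _ _)
      | zero => exact map_zero _
      | add y z hy' hz' hy hz =>
        have a1 : y ∈ Submodule.span 𝕜 (Set.range g) := by
          refine Submodule.span_mono ?_ hy'
          rintro _ ⟨k, rfl⟩; exact ⟨K + k, rfl⟩
        have a2 : z ∈ Submodule.span 𝕜 (Set.range g) := by
          refine Submodule.span_mono ?_ hz'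
          rintro _ ⟨k, rfl⟩; exact ⟨K + k, rfl⟩
        rw [map_add, hy a1, hz a2, add_zero]
      | smul b y hy' hy =>
        have a1 : y ∈ Submodule.span 𝕜 (Set.range g) := by
          refine Submodule.span_mono ?_ hy'
          rintro _ ⟨k, rfl⟩; exact ⟨K + k, rfl⟩
        rw [map_smul, hy a1, smul_zero]
    have hR : Fr.R γ h = Fr.R ξ h + Fr.e ξ h • Fr.δ ξ := by
      have hclm : Fr.R γ = Fr.R ξ + (Fr.e ξ).smulRight (Fr.δ ξ) := by
        apply Fr.ext_clm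
        intro η
        show Fr.R γ (Fr.δ η) = Fr.R ξ (Fr.δ η) + Fr.e ξ (Fr.δ η) • Fr.δ ξ
        rcases lt_trichotomy η ξ with h1 | h1 | h1
        · rw [Fr.R_lt γ η (h1.trans hξ), Fr.R_lt ξ η h1, Fr.e_ne ξ η h1.ne', zero_smul, add_zero]
        · subst h1
          rw [Fr.R_lt γ η hξ, Fr.R_ge η η le_rfl, Fr.e_self, one_smul, zero_add]
        · have h2 : γ ≤ η := by
            by_contra h3
            exact absurd (hsucc η (not_le.mp h3)) (not_le.mpr h1)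
          rw [Fr.R_ge γ η h2, Fr.R_ge ξ η h1.le, Fr.e_ne ξ η h1.ne, zero_smul, add_zero]
      rw [hclm]; rfl
    have h1 := hbelow h hmem
    rwa [hR, he, zero_smul, add_zero] at h1
  -- smallness of lower projections
  have hsmall : ∀ γ' < γ, ∀ N : ℕ, ∀ ε > 0, ∃ h ∈ Submodule.span 𝕜 (g '' {k | N ≤ k}),
      ‖h‖ = 1 ∧ ‖Fr.R γ' h‖ ≤ ε := by
    intro γ' hγ' N ε hε
    by_contra hcon
    push Not at hcon
    apply hmin' γ' hγ'
    refine ⟨fun k => g (N + k), IsBlkOf.tail hgne N, ε, hε, fun h hh => ?_⟩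
    have hmem : h ∈ Submodule.span 𝕜 (g '' {k | N ≤ k}) := by
      refine Submodule.span_mono ?_ hh
      rintro _ ⟨k, rfl⟩; exact ⟨N + k, Nat.le_add_right _ _, rfl⟩
    by_cases h0 : h = 0
    · rw [h0, norm_zero, mul_zero]; exact norm_nonneg _
    have hpos : 0 < ‖h‖ := norm_pos_iff.mpr h0
    have h1 := hcon (((‖h‖⁻¹ : ℝ) : 𝕜) • h) (Submodule.smul_mem _ _ hmem) (by
      rw [norm_smul]
      simp only [RCLike.norm_ofReal, abs_inv, abs_norm]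
      exact inv_mul_cancel₀ hpos.ne')
    rw [map_smul, norm_smul] at h1
    simp only [RCLike.norm_ofReal, abs_inv, abs_norm] at h1
    rw [lt_inv_mul_iff₀ hpos] at h1
    linarith
  obtain ⟨a, φ, u, ha1, ha2, ha3, hφ1, hφ2, hu1, hu2⟩ := Fr.aux_construct (hcount γ) hne hlim g
    hsmall (fun k => c₀ / 32 * (1 / 2) ^ k) (fun n => by positivity)
  exact Fr.aux_contradiction x hmain g hc₀ hbelow hcoordg htailg a φ u ha1 ha2 ha3 hφ1 hφ2 hu1 hu2

end Frame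

end Crest.Agent.R114
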