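import Mathlib
import Crest.Agent.R114.NoSep

set_option autoImplicit false

/-!
# Final wrap-up for S0152 in abstract form (row 114)
-/

namespace Crest.Agent.R114

open Filter Topology

theorem fd_of_pairing {𝕜 X V : Type*} [RCLike 𝕜] [NormedAddCommGroup X] [NormedSpace 𝕜 X]
    [NormedAddCommGroup V] [NormedSpace 𝕜 V] [FiniteDimensional 𝕜 X] (B : X →ₗ[𝕜] (V →L[𝕜] 𝕜))
    (h : ∀ v, (∀ y, B y v = 0) → v = 0) : FiniteDimensional 𝕜 V := by
  let Φ : V →ₗ[𝕜] (X →ₗ[𝕜] 𝕜) :=
    { toFun := fun v =>
        { toFun := fun y => B y v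
          map_add' := fun y z => by rw [map_add]; rfl
          map_smul' := fun c y => by rw [map_smul]; rfl }
      map_add' := fun v w => by ext y; exact map_add (B y) v w
      map_smul' := fun c v => by ext y; exact map_smul (B y) c v }
  have hΦ : Function.Injective Φ := by
    rw [injective_iff_map_eq_zero]
    intro v hv
    apply h
    intro y
    exact congrArg (fun g : X →ₗ[𝕜] 𝕜 => g y) hv
  exact Module.Finite.of_injective Φ hΦ

namespace Frame

section

variable {𝕜 : Type*} {V : Type*} {I : Type*} [RCLike 𝕜] [NormedAddCommGroup V]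
    [NormedSpace 𝕜 V] [LinearOrder I] (Fr : Frame 𝕜 V I)

/-- The predual: closed span of the functionals `x β`. -/
def Predual (x : I → V →L[𝕜] 𝕜) : Submodule 𝕜 (V →L[𝕜] 𝕜) :=
  (Submodule.span 𝕜 (Set.range x)).topologicalClosure

omit [LinearOrder I] in
theorem mem_predual (x : I → V →L[𝕜] 𝕜) (β : I) : x β ∈ Predual x :=
  Submodule.le_topologicalClosure _ (Submodule.subset_span ⟨β, rfl⟩)

include Fr in
theorem not_finiteDimensional [Infinite I] : ¬ FiniteDimensional 𝕜 V := by
  intro h
  have hli : LinearIndependent 𝕜 Fr.δ := by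
    rw [linearIndependent_iff']
    intro s g hg i hi
    have h1 := congrArg (Fr.e i) hg
    rw [map_sum, map_zero, Finset.sum_eq_single i] at h1
    · rwa [map_smul, Fr.e_self, smul_eq_mul, mul_one] at h1
    · intro j _ hji
      rw [map_smul, Fr.e_ne i j hji.symm, smul_zero]
    · intro h; exact absurd hi h
  have := hli.finite_of_isNoetherian
  exact not_finite I

end

variable {𝕜 : Type} {V : Type} {I : Type} [RCLike 𝕜] [NormedAddCommGroup V]
    [NormedSpace 𝕜 V] [LinearOrder I] (Fr : Frame 𝕜 V I)

/-- The conclusion of S0152 from a frame with the main property such that every functional on the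
predual `closure span {x β}` is evaluation at a vector of `V`, and the `x β` separate the points
of `V`. -/
theorem exists_space [WellFoundedLT I] [Infinite I] (hcount : ∀ γ : I, (Set.Iio γ).Countable)
    (hcof : ∀ s : ℕ → I, ∃ γ, ∀ n, s n < γ) (x : I → V →L[𝕜] 𝕜) (hmain : Fr.MainProp x)
    (hdual : ∀ F : Predual x →L[𝕜] 𝕜, ∃ v : V, ∀ β, F ⟨x β, mem_predual x β⟩ = x β v)
    (hinj : ∀ v : V, (∀ β, x β v = 0) → v = 0) :
    ∃ (X : Type) (_ : NormedAddCommGroup X) (_ : NormedSpace 𝕜 X),
      CompleteSpace X ∧ ¬ FiniteDimensional 𝕜 X ∧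
      ∀ M : Submodule 𝕜 X, IsClosed (M : Set X) →
        TopologicalSpace.SeparableSpace (X ⧸ M) → FiniteDimensional 𝕜 (X ⧸ M) := by
  classical
  have hVinf := Fr.not_finiteDimensional
  refine ⟨Predual x, inferInstance, inferInstance, ?_, ?_, ?_⟩
  · exact (Submodule.isClosed_topologicalClosure _).completeSpace_coe
  · -- infinite dimensional
    intro hfd
    apply hVinf
    exact fd_of_pairing (X := Predual x) (Predual x).subtype
      (fun v hv => hinj v fun β => hv ⟨x β, mem_predual x β⟩)
  · intro M hM hsep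
    by_contra hfin
    obtain ⟨F, hF1, hFli, hFtail⟩ := exists_tail_null (𝕜 := 𝕜) M hM hsep hfin
    choose v hv using fun n => hdual (F n)
    -- `F n y = y (v n)` for all `y` in the predual
    have hFv : ∀ n, ∀ y : Predual x, F n y = (y : V →L[𝕜] 𝕜) (v n) := by
      intro n y
      have hcl : IsClosed {y : Predual x | F n y = (y : V →L[𝕜] 𝕜) (v n)} := by
        refine isClosed_eq (F n).continuous ?_
        exact (ContinuousLinearMap.apply 𝕜 𝕜 (v n)).continuous.comp continuous_subtype_val
      have hspan : ∀ z : V →L[𝕜] 𝕜, ∀ hz : z ∈ Submodule.span 𝕜 (Set.range x),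
          F n ⟨z, Submodule.le_topologicalClosure _ hz⟩ = z (v n) := by
        intro z hz
        induction hz using Submodule.span_induction with
        | mem z hz => obtain ⟨β, rfl⟩ := hz; exact hv n β
        | zero => exact map_zero (F n)
        | add z w hz hw ihz ihw =>
          have := map_add (F n) ⟨z, Submodule.le_topologicalClosure _ hz⟩
            ⟨w, Submodule.le_topologicalClosure _ hw⟩
          rw [ihz, ihw] at this
          exact this
        | smul c z hz ihz =>
          have := map_smul (F n) c ⟨z, Submodule.le_topologicalClosure _ hz⟩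
          rw [ihz] at this
          exact this
      have hdense : Dense {y : Predual x | (y : V →L[𝕜] 𝕜) ∈ Submodule.span 𝕜 (Set.range x)} := by
        intro y
        rw [Metric.mem_closure_iff]
        intro ε hε
        have hy : (y : V →L[𝕜] 𝕜) ∈ closure ((Submodule.span 𝕜 (Set.range x) :
            Submodule 𝕜 (V →L[𝕜] 𝕜)) : Set (V →L[𝕜] 𝕜)) := by
          have h3 : (y : V →L[𝕜] 𝕜) ∈ (Submodule.span 𝕜 (Set.range x)).topologicalClosure := y.2
          rwa [← SetLike.mem_coe, Submodule.topologicalClosure_coe] at h3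
        obtain ⟨z, hz, hyz⟩ := Metric.mem_closure_iff.mp hy ε hε
        exact ⟨⟨z, Submodule.le_topologicalClosure _ hz⟩, hz, hyz⟩
      have h1 : closure {y : Predual x | (y : V →L[𝕜] 𝕜) ∈ Submodule.span 𝕜 (Set.range x)} ⊆
          {y : Predual x | F n y = (y : V →L[𝕜] 𝕜) (v n)} :=
        hcl.closure_subset_iff.mpr fun y hy => hspan y hy
      exact h1 (hdense y)
    -- correspondence of combinations
    have hcomb : ∀ l : ℕ →₀ 𝕜, ∀ y : Predual x,
        (Finsupp.linearCombination 𝕜 F l) y =
          (y : V →L[𝕜] 𝕜) (Finsupp.linearCombination 𝕜 v l) := by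
      intro l y
      rw [Finsupp.linearCombination_apply, Finsupp.linearCombination_apply, Finsupp.sum,
        Finsupp.sum, map_sum]
      simp only [ContinuousLinearMap.coe_sum', Finset.sum_apply, ContinuousLinearMap.coe_smul',
        Pi.smul_apply, hFv, map_smul]
    have hvli : LinearIndependent 𝕜 v := by
      rw [linearIndependent_iff]
      intro l hl
      rw [linearIndependent_iff] at hFli
      apply hFli
      ext y
      rw [hcomb l y, hl, map_zero]; rfl
    refine Fr.no_tail_null hcount hcof x hmain v hvli ?_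
    intro β ε hε
    obtain ⟨N, hN⟩ := hFtail ⟨x β, mem_predual x β⟩ ε hε
    refine ⟨N, fun h hh => ?_⟩
    obtain ⟨l, hl, rfl⟩ := (Finsupp.mem_span_image_iff_linearCombination 𝕜).mp hh
    have h1 := hN (Finsupp.linearCombination 𝕜 F l)
      ((Finsupp.mem_span_image_iff_linearCombination 𝕜).mpr ⟨l, hl, rfl⟩)
    rw [hcomb] at h1
    refine h1.trans (mul_le_mul_of_nonneg_left ?_ hε.le)
    refine ContinuousLinearMap.opNorm_le_bound _ (norm_nonneg _) fun y => ?_
    rw [hcomb l y, mul_comm]
    exact (y : V →L[𝕜] 𝕜).le_opNorm _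

end Frame

end Crest.Agent.R114
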