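import Mathlib

/-! Row 114 (S0152), module (g): the functionals `T ξ K` (recursion and bounds), abstractly.
(helper429) -/

set_option autoImplicit false

namespace Crest.Agent.R114

open Filter Topology

section Tail
variable {𝕜 : Type*} [RCLike 𝕜] {V : Type*} [NormedAddCommGroup V] [NormedSpace 𝕜 V]

/-- Pointwise convergence of tail sums of functionals with bounded interval sums which are
eventually zero on a dense subspace. -/
theorem exists_tail (f : ℕ → StrongDual 𝕜 V) {C : ℝ}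
    (hC : ∀ K N, ‖∑ i ∈ Finset.Ico K N, f i‖ ≤ C)
    (D : Set V) (hD : Dense D) (h0 : ∀ v ∈ D, ∀ᶠ i in atTop, f i v = 0) :
    ∃ S : ℕ → StrongDual 𝕜 V,
      (∀ K v, Tendsto (fun N => ∑ i ∈ Finset.Ico K N, f i v) atTop (𝓝 (S K v))) ∧
      (∀ K, S K = f K + S (K + 1)) ∧
      (∀ v, Tendsto (fun K => S K v) atTop (𝓝 0)) ∧ (∀ K, ‖S K‖ ≤ C) := by
  classical
  have hC0 : 0 ≤ C := (norm_nonneg _).trans (hC 0 0)
  -- partial sums are Cauchy
  have hcau : ∀ v : V, CauchySeq (fun N => (∑ i ∈ Finset.Ico 0 N, f i) v) := by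
    intro v
    rw [Metric.cauchySeq_iff']
    intro ε hε
    obtain ⟨w, hw, hvw⟩ := Metric.dense_iff.1 hD v (ε / (2 * (C + 1))) (by positivity)
    rw [Metric.mem_ball, dist_comm] at hw
    obtain ⟨N0, hN0⟩ := eventually_atTop.1 (h0 w hvw)
    refine ⟨N0, fun n hn => ?_⟩
    have h1 : (∑ i ∈ Finset.Ico 0 n, f i) v - (∑ i ∈ Finset.Ico 0 N0, f i) v =
        (∑ i ∈ Finset.Ico N0 n, f i) v := by
      rw [← Finset.sum_Ico_consecutive _ (Nat.zero_le N0) hn]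
      simp
    have h2 : (∑ i ∈ Finset.Ico N0 n, f i) w = 0 := by
      rw [_root_.sum_apply]
      exact Finset.sum_eq_zero fun i hi => hN0 i (Finset.mem_Ico.1 hi).1
    rw [dist_eq_norm, h1]
    have h3 : (∑ i ∈ Finset.Ico N0 n, f i) v = (∑ i ∈ Finset.Ico N0 n, f i) (v - w) := by
      rw [map_sub, h2, sub_zero]
    rw [h3]
    calc ‖(∑ i ∈ Finset.Ico N0 n, f i) (v - w)‖ ≤ ‖∑ i ∈ Finset.Ico N0 n, f i‖ * ‖v - w‖ :=
          ContinuousLinearMap.le_opNorm _ _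
      _ ≤ C * (ε / (2 * (C + 1))) := by
          have : ‖v - w‖ ≤ ε / (2 * (C + 1)) := by
            rw [← dist_eq_norm]; exact hw.le
          exact mul_le_mul (hC _ _) this (norm_nonneg _) hC0
      _ < ε := by
          rw [mul_div_assoc', div_lt_iff₀ (by positivity)]
          nlinarith
  choose g hg using fun v => cauchySeq_tendsto_of_complete (hcau v)
  have hbd : Bornology.IsBounded (Set.range fun N => ∑ i ∈ Finset.Ico 0 N, f i) := by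
    rw [isBounded_iff_forall_norm_le]
    refine ⟨C, ?_⟩
    rintro _ ⟨N, rfl⟩
    exact hC 0 N
  let S0 : StrongDual 𝕜 V := ContinuousLinearMap.ofTendstoOfBoundedRange (l := atTop) g
    (fun N => ∑ i ∈ Finset.Ico 0 N, f i) (tendsto_pi_nhds.2 hg) hbd
  have hS0 : ∀ v, S0 v = g v := fun v => rfl
  let S : ℕ → StrongDual 𝕜 V := fun K => S0 - ∑ i ∈ Finset.Ico 0 K, f i
  have hS : ∀ K v, Tendsto (fun N => ∑ i ∈ Finset.Ico K N, f i v) atTop (𝓝 (S K v)) := by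
    intro K v
    have h1 : Tendsto (fun N => (∑ i ∈ Finset.Ico 0 N, f i) v - (∑ i ∈ Finset.Ico 0 K, f i) v)
        atTop (𝓝 (S K v)) := by
      have : S K v = g v - (∑ i ∈ Finset.Ico 0 K, f i) v := by
        simp [S, hS0]
      rw [this]
      exact (hg v).sub_const _
    refine h1.congr' ?_
    filter_upwards [eventually_ge_atTop K] with N hN
    rw [← Finset.sum_Ico_consecutive _ (Nat.zero_le K) hN]
    simp
  refine ⟨S, hS, ?_, ?_, ?_⟩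
  · intro K
    simp only [S]
    rw [Finset.sum_Ico_succ_top (Nat.zero_le K)]
    abel
  · intro v
    have h1 : Tendsto (fun K => g v - (∑ i ∈ Finset.Ico 0 K, f i) v) atTop (𝓝 (g v - g v)) :=
      (hg v).const_sub _
    rw [sub_self] at h1
    refine h1.congr fun K => ?_
    simp [S, hS0]
  · intro K
    refine ContinuousLinearMap.opNorm_le_bound _ hC0 fun v => ?_
    refine le_of_tendsto (hS K v).norm (Eventually.of_forall fun N => ?_)
    rw [← _root_.sum_apply]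
    exact (ContinuousLinearMap.le_opNorm _ _).trans
      (mul_le_mul_of_nonneg_right (hC _ _) (norm_nonneg _))

/-- passing to the limit in norm bounds for finite combinations of tails -/
theorem norm_sum_tail_le {ι : Type*} (F : Finset ι) (f : ι → ℕ → StrongDual 𝕜 V)
    (S : ι → StrongDual 𝕜 V) (K : ℕ) {C : ℝ} (hC0 : 0 ≤ C) (lam : ι → 𝕜)
    (hS : ∀ ξ ∈ F, ∀ v, Tendsto (fun N => ∑ i ∈ Finset.Ico K N, f ξ i v) atTop (𝓝 (S ξ v)))
    (hC : ∀ᶠ N in atTop, ‖∑ ξ ∈ F, lam ξ • ∑ i ∈ Finset.Ico K N, f ξ i‖ ≤ C) :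
    ‖∑ ξ ∈ F, lam ξ • S ξ‖ ≤ C := by
  refine ContinuousLinearMap.opNorm_le_bound _ hC0 fun v => ?_
  have h1 : Tendsto (fun N => (∑ ξ ∈ F, lam ξ • ∑ i ∈ Finset.Ico K N, f ξ i) v) atTop
      (𝓝 ((∑ ξ ∈ F, lam ξ • S ξ) v)) := by
    simp only [_root_.sum_apply, _root_.smul_apply]
    exact tendsto_finsetSum _ fun ξ hξ => (hS ξ hξ v).const_smul _
  refine le_of_tendsto h1.norm (hC.mono fun N hN => ?_)
  exact (ContinuousLinearMap.le_opNorm _ _).trans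
    (mul_le_mul_of_nonneg_right hN (norm_nonneg _))

end Tail

section Trec

variable (𝕜 : Type*) [RCLike 𝕜] (V : Type*) [NormedAddCommGroup V] [NormedSpace 𝕜 V]
  (I : Type*) [LinearOrder I]

/-- Data for the recursion: coordinate functionals `est`, sequences `b ξ`, tails `S ξ K`. -/
structure TData where
  est : I → StrongDual 𝕜 V
  b : I → ℕ → (I →₀ ℚ)
  w : I → ℕ → ℝ
  S : I → ℕ → StrongDual 𝕜 V
  lt_of_mem : ∀ ξ l, ∀ η ∈ (b ξ l).support, η < ξ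
  w_summable : ∀ ξ, Summable (w ξ)
  abs_le_w : ∀ ξ l η, |((b ξ l η : ℚ) : ℝ)| ≤ w ξ l
  S_succ : ∀ ξ K, S ξ K = (b ξ K).sum (fun η q => (q : 𝕜) • est η) + S ξ (K + 1)
  S_tendsto : ∀ ξ v, Tendsto (fun K => S ξ K v) atTop (𝓝 0)
  S_bound : ∀ F : Finset I, ∀ᶠ K in atTop, ∀ lam : I → 𝕜, (∀ ξ ∈ F, ‖lam ξ‖ ≤ 1) →
    ‖∑ ξ ∈ F, lam ξ • S ξ K‖ ≤ 2

variable {𝕜 V I}

namespace TData

variable (d : TData 𝕜 V I)

/-- evaluation of a rational functional -/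
noncomputable def ev (c : I →₀ ℚ) : StrongDual 𝕜 V := c.sum (fun η q => (q : 𝕜) • d.est η)

lemma w_nonneg (ξ : I) (l : ℕ) : 0 ≤ d.w ξ l := (abs_nonneg _).trans (d.abs_le_w ξ l ξ)

theorem exists_kappa (F : Finset I) : ∃ K0 : ℕ, ∀ K, K0 ≤ K →
    (∀ lam : I → 𝕜, (∀ ξ ∈ F, ‖lam ξ‖ ≤ 1) → ‖∑ ξ ∈ F, lam ξ • d.S ξ K‖ ≤ 2) ∧
    ∑ ξ ∈ F, 3 * ∑' l, d.w ξ (l + K) ≤ 1 := by
  have h1 : Tendsto (fun K => ∑ ξ ∈ F, 3 * ∑' l, d.w ξ (l + K)) atTop
      (𝓝 (∑ ξ ∈ F, 3 * 0)) := by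
    refine tendsto_finsetSum _ fun ξ _ => Tendsto.const_mul _ ?_
    exact tendsto_sum_nat_add (d.w ξ)
  simp only [mul_zero, Finset.sum_const_zero] at h1
  have h2 := h1.eventually_lt_const (show (0 : ℝ) < 1 by norm_num)
  obtain ⟨K0, hK0⟩ := eventually_atTop.1 ((d.S_bound F).and h2)
  exact ⟨K0, fun K hK => ⟨(hK0 K hK).1, (hK0 K hK).2.le⟩⟩

/-- the threshold attached to a finite set -/
noncomputable def kappa (F : Finset I) : ℕ := (d.exists_kappa F).choose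

lemma kappa_spec (F : Finset I) {K : ℕ} (hK : d.kappa F ≤ K) :
    (∀ lam : I → 𝕜, (∀ ξ ∈ F, ‖lam ξ‖ ≤ 1) → ‖∑ ξ ∈ F, lam ξ • d.S ξ K‖ ≤ 2) ∧
    ∑ ξ ∈ F, 3 * ∑' l, d.w ξ (l + K) ≤ 1 :=
  (d.exists_kappa F).choose_spec K hK

variable [WellFoundedLT I]

/-- the functionals `T ξ K` -/
noncomputable def T : I → ℕ → StrongDual 𝕜 V :=
  (wellFounded_lt (α := I)).fix (C := fun _ => ℕ → StrongDual 𝕜 V) fun ξ ih K =>
    d.S ξ K + ∑' l, ∑ η ∈ (d.b ξ (l + K)).support.attach,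
      ((d.b ξ (l + K) η.1 : ℚ) : 𝕜) •
        ih η.1 (d.lt_of_mem ξ (l + K) η.1 η.2) (d.kappa (d.b ξ (l + K)).support)

/-- correction terms -/
noncomputable def D (c : I →₀ ℚ) : StrongDual 𝕜 V :=
  ∑ η ∈ c.support, ((c η : ℚ) : 𝕜) • d.T η (d.kappa c.support)

lemma T_eq (ξ : I) (K : ℕ) : d.T ξ K = d.S ξ K + ∑' l, d.D (d.b ξ (l + K)) := by
  have h := (wellFounded_lt (α := I)).fix_eq (C := fun _ => ℕ → StrongDual 𝕜 V) (fun ξ ih K =>
    d.S ξ K + ∑' l, ∑ η ∈ (d.b ξ (l + K)).support.attach,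
      ((d.b ξ (l + K) η.1 : ℚ) : 𝕜) •
        ih η.1 (d.lt_of_mem ξ (l + K) η.1 η.2) (d.kappa (d.b ξ (l + K)).support)) ξ
  have h' := congrFun h K
  unfold T
  rw [h']
  congr 1
  refine tsum_congr fun l => ?_
  exact Finset.sum_attach (d.b ξ (l + K)).support (fun η => ((d.b ξ (l + K) η : ℚ) : 𝕜) •
    d.T η (d.kappa (d.b ξ (l + K)).support))

/-- norm-summability and the uniform bound, assuming the bounds of the correction terms -/
lemma bound_of (F : Finset I) (hF : ∀ ξ ∈ F, ∀ l, ‖d.D (d.b ξ l)‖ ≤ 3 * d.w ξ l)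
    {K : ℕ} (hK : d.kappa F ≤ K) (lam : I → 𝕜) (hlam : ∀ ξ ∈ F, ‖lam ξ‖ ≤ 1) :
    ‖∑ ξ ∈ F, lam ξ • d.T ξ K‖ ≤ 3 := by
  have h1 : ∑ ξ ∈ F, lam ξ • d.T ξ K = ∑ ξ ∈ F, lam ξ • d.S ξ K +
      ∑ ξ ∈ F, lam ξ • ∑' l, d.D (d.b ξ (l + K)) := by
    rw [← Finset.sum_add_distrib]
    exact Finset.sum_congr rfl fun ξ _ => by rw [T_eq, smul_add]
  rw [h1]
  obtain ⟨h2, h3⟩ := d.kappa_spec F hK
  have h4 : ‖∑ ξ ∈ F, lam ξ • ∑' l, d.D (d.b ξ (l + K))‖ ≤ 1 := by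
    refine (norm_sum_le _ _).trans (le_trans (Finset.sum_le_sum fun ξ hξ => ?_) h3)
    rw [norm_smul]
    have hs : Summable fun l => 3 * d.w ξ (l + K) :=
      ((summable_nat_add_iff K).2 (d.w_summable ξ)).mul_left 3
    have h5 : ‖∑' l, d.D (d.b ξ (l + K))‖ ≤ ∑' l, 3 * d.w ξ (l + K) :=
      tsum_of_norm_bounded hs.hasSum fun l => hF ξ hξ _
    rw [tsum_mul_left] at h5
    calc ‖lam ξ‖ * ‖∑' l, d.D (d.b ξ (l + K))‖ ≤ 1 * ‖∑' l, d.D (d.b ξ (l + K))‖ :=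
          mul_le_mul_of_nonneg_right (hlam ξ hξ) (norm_nonneg _)
      _ = ‖∑' l, d.D (d.b ξ (l + K))‖ := one_mul _
      _ ≤ _ := h5
  calc _ ≤ ‖∑ ξ ∈ F, lam ξ • d.S ξ K‖ + ‖∑ ξ ∈ F, lam ξ • ∑' l, d.D (d.b ξ (l + K))‖ :=
        norm_add_le _ _
    _ ≤ 2 + 1 := add_le_add (h2 lam hlam) h4
    _ = 3 := by norm_num

lemma norm_le_of_bound {F : Finset I} {K : ℕ}
    (hb : ∀ lam : I → 𝕜, (∀ ξ ∈ F, ‖lam ξ‖ ≤ 1) → ‖∑ ξ ∈ F, lam ξ • d.T ξ K‖ ≤ 3)
    (lam : I → 𝕜) {M : ℝ} (hM : 0 ≤ M) (hlam : ∀ ξ ∈ F, ‖lam ξ‖ ≤ M) :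
    ‖∑ ξ ∈ F, lam ξ • d.T ξ K‖ ≤ 3 * M := by
  rcases hM.eq_or_lt with h | h
  · have h0 : ∀ ξ ∈ F, lam ξ = 0 := fun ξ hξ => by
      have := hlam ξ hξ
      rw [← h] at this
      exact norm_le_zero_iff.1 this
    rw [Finset.sum_eq_zero fun ξ hξ => by rw [h0 ξ hξ]; exact zero_smul 𝕜 (d.T ξ K), norm_zero]
    positivity
  · have h1 : ∑ ξ ∈ F, lam ξ • d.T ξ K =
        ((M : ℝ) : 𝕜) • ∑ ξ ∈ F, (((M : ℝ) : 𝕜)⁻¹ * lam ξ) • d.T ξ K := by
      rw [Finset.smul_sum]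
      refine Finset.sum_congr rfl fun ξ _ => ?_
      rw [smul_smul, mul_inv_cancel_left₀]
      exact_mod_cast h.ne'
    rw [h1, norm_smul, RCLike.norm_ofReal, abs_of_pos h, mul_comm]
    refine mul_le_mul_of_nonneg_right (hb _ fun ξ hξ => ?_) h.le
    rw [norm_mul, norm_inv, RCLike.norm_ofReal, abs_of_pos h, inv_mul_le_iff₀ h, mul_one]
    exact hlam ξ hξ

theorem norm_D_b_le (ξ : I) : ∀ l, ‖d.D (d.b ξ l)‖ ≤ 3 * d.w ξ l := by
  induction ξ using WellFoundedLT.induction with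
  | ind ξ ih =>
    intro l
    unfold D
    refine d.norm_le_of_bound (fun lam hlam => ?_) _ (d.w_nonneg ξ l) fun η hη => ?_
    · exact d.bound_of _ (fun η hη => ih η (d.lt_of_mem ξ l η hη)) le_rfl lam hlam
    · have h1 := d.abs_le_w ξ l η
      have h2 : ‖((d.b ξ l η : ℚ) : 𝕜)‖ = |((d.b ξ l η : ℚ) : ℝ)| := by
        rw [← RCLike.ofReal_ratCast, RCLike.norm_ofReal]
      rw [h2]
      exact h1

/-- the uniform bound -/
theorem norm_sum_T_le (F : Finset I) {K : ℕ} (hK : d.kappa F ≤ K) (lam : I → 𝕜) {M : ℝ}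
    (hM : 0 ≤ M) (hlam : ∀ ξ ∈ F, ‖lam ξ‖ ≤ M) : ‖∑ ξ ∈ F, lam ξ • d.T ξ K‖ ≤ 3 * M :=
  d.norm_le_of_bound (fun _ h => d.bound_of F (fun ξ _ => d.norm_D_b_le ξ) hK _ h) lam hM hlam

lemma summable_norm_D (ξ : I) : Summable fun l => ‖d.D (d.b ξ l)‖ :=
  Summable.of_nonneg_of_le (fun _ => norm_nonneg _) (d.norm_D_b_le ξ)
    ((d.w_summable ξ).mul_left 3)

lemma T_succ (ξ : I) (K : ℕ) :
    d.T ξ K = d.ev (d.b ξ K) + d.D (d.b ξ K) + d.T ξ (K + 1) := by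
  have hs : Summable fun l => d.D (d.b ξ (l + K)) :=
    (summable_nat_add_iff (f := fun l => d.D (d.b ξ l)) K).2 (d.summable_norm_D ξ).of_norm
  rw [T_eq, T_eq, hs.tsum_eq_zero_add, d.S_succ]
  have h1 : ∀ l, l + 1 + K = l + (K + 1) := fun l => by ring
  simp only [h1, zero_add]
  unfold ev
  abel

lemma T_tendsto (ξ : I) (v : V) : Tendsto (fun K => d.T ξ K v) atTop (𝓝 0) := by
  have h1 : Tendsto (fun K => (∑' l, d.D (d.b ξ (l + K)))) atTop (𝓝 0) :=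
    tendsto_sum_nat_add (fun l => d.D (d.b ξ l))
  have h2 : Tendsto (fun K => (∑' l, d.D (d.b ξ (l + K))) v) atTop (𝓝 0) := by
    have := ((ContinuousLinearMap.apply 𝕜 𝕜 v).continuous.tendsto
      (0 : StrongDual 𝕜 V)).comp h1
    simpa [Function.comp_def] using this
  have h3 := (d.S_tendsto ξ v).add h2
  rw [add_zero] at h3
  refine h3.congr fun K => ?_
  rw [T_eq]; rfl

/-- the generators of `X` -/
noncomputable def gen (β : I) : StrongDual 𝕜 V := d.est β + d.T β 0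

lemma ev_add_eq (c : I →₀ ℚ) (K : ℕ) :
    d.ev c + ∑ η ∈ c.support, ((c η : ℚ) : 𝕜) • d.T η K =
      ∑ η ∈ c.support, ((c η : ℚ) : 𝕜) • (d.est η + d.T η K) := by
  unfold ev
  rw [Finsupp.sum, ← Finset.sum_add_distrib]
  exact Finset.sum_congr rfl fun η _ => by rw [smul_add]

/-- `e_ξ + T ξ K` lies in the span of the generators. -/
theorem est_add_T_mem (ξ : I) : ∀ K, d.est ξ + d.T ξ K ∈ Submodule.span 𝕜 (Set.range d.gen) := by
  induction ξ using WellFoundedLT.induction with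
  | ind ξ ih =>
    intro K
    induction K with
    | zero => exact Submodule.subset_span ⟨ξ, rfl⟩
    | succ K ihK =>
      have h1 : d.ev (d.b ξ K) + d.D (d.b ξ K) ∈ Submodule.span 𝕜 (Set.range d.gen) := by
        unfold D
        rw [ev_add_eq]
        exact Submodule.sum_mem _ fun η hη =>
          Submodule.smul_mem _ _ (ih η (d.lt_of_mem ξ K η hη) _)
      have h2 : d.est ξ + d.T ξ (K + 1) =
          (d.est ξ + d.T ξ K) - (d.ev (d.b ξ K) + d.D (d.b ξ K)) := by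
        rw [d.T_succ ξ K]; abel
      rw [h2]
      exact Submodule.sub_mem _ ihK h1

/-- `b^{X,K}`: approximation of a functional by elements of `X` -/
noncomputable def lift (c : I →₀ ℚ) (K : ℕ) : StrongDual 𝕜 V :=
  d.ev c + ∑ η ∈ c.support, ((c η : ℚ) : 𝕜) • d.T η K

theorem lift_mem (c : I →₀ ℚ) (K : ℕ) : d.lift c K ∈ Submodule.span 𝕜 (Set.range d.gen) := by
  unfold lift
  rw [ev_add_eq]
  exact Submodule.sum_mem _ fun η _ => Submodule.smul_mem _ _ (d.est_add_T_mem η _)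

theorem lift_norm_le (c : I →₀ ℚ) {K : ℕ} (hK : d.kappa c.support ≤ K) {M : ℝ} (hM0 : 0 ≤ M)
    (hM : ∀ η, |((c η : ℚ) : ℝ)| ≤ M) : ‖d.lift c K‖ ≤ ‖d.ev c‖ + 3 * M := by
  unfold lift
  refine (norm_add_le _ _).trans (add_le_add le_rfl (d.norm_sum_T_le _ hK _ hM0 fun η _ => ?_))
  rw [← RCLike.ofReal_ratCast, RCLike.norm_ofReal]
  exact hM η

theorem lift_tendsto (c : I →₀ ℚ) (v : V) :
    Tendsto (fun K => d.lift c K v) atTop (𝓝 (d.ev c v)) := by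
  have h1 : Tendsto (fun K => d.ev c v + ∑ η ∈ c.support, ((c η : ℚ) : 𝕜) • d.T η K v) atTop
      (𝓝 (d.ev c v + ∑ η ∈ c.support, ((c η : ℚ) : 𝕜) • (0 : 𝕜))) :=
    tendsto_const_nhds.add (tendsto_finsetSum _ fun η _ => (d.T_tendsto η v).const_smul _)
  simp only [smul_zero, Finset.sum_const_zero, add_zero] at h1
  refine h1.congr fun K => ?_
  simp [lift]

/-- expansion of a generator -/
theorem gen_eq (β : I) (K : ℕ) :
    d.gen β = d.est β + ∑ l ∈ Finset.range K, (d.ev (d.b β l) + d.D (d.b β l)) + d.T β K := by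
  unfold gen
  have h : ∀ K, d.T β 0 = ∑ l ∈ Finset.range K, (d.ev (d.b β l) + d.D (d.b β l)) + d.T β K := by
    intro K
    induction K with
    | zero => simp
    | succ K ih => rw [Finset.sum_range_succ, ih, d.T_succ β K]; abel
  rw [h K]; abel

end TData

end Trec

end Crest.Agent.R114
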