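import Mathlib
import Crest.Agent.R114.FinalAbs
import Crest.Agent.R114.Trec

set_option autoImplicit false

/-!
# Row 114, S0152: frames together with the recursion data `TData` (helper606)
-/

namespace Crest.Agent.R114

open Filter Topology

namespace Frame

variable {𝕜 : Type*} {V : Type*} {I : Type*} [RCLike 𝕜] [NormedAddCommGroup V]
    [NormedSpace 𝕜 V] [LinearOrder I] (Fr : Frame 𝕜 V I)

/-- In a frame all of whose coordinates vanish at `v`, `R γ v = 0` for all `γ`. -/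
theorem R_eq_zero_of_e [WellFoundedLT I] {v : V} (γ : I) (h : ∀ ξ < γ, Fr.e ξ v = 0) :
    Fr.R γ v = 0 := by
  induction γ using WellFoundedLT.induction with
  | ind γ ih =>
    by_cases hne : ∃ ξ, ξ < γ
    · by_cases hlim : ∀ ξ, ξ < γ → ∃ η, ξ < η ∧ η < γ
      · have h1 : ∀ ε > 0, ‖Fr.R γ v‖ ≤ ε := by
          intro ε hε
          obtain ⟨a, ha, ha2⟩ := Fr.exists_R_close γ hne hlim v ε hε
          have h2 := ha2 a le_rfl ha
          rwa [ih a ha (fun ξ hξ => h ξ (hξ.trans ha)), sub_zero] at h2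
        have h3 : ‖Fr.R γ v‖ ≤ 0 := le_of_forall_pos_le_add fun ε hε => by
          simpa using h1 ε hε
        exact norm_le_zero_iff.mp h3
      · push Not at hlim
        obtain ⟨ξ, hξ, hsucc⟩ := hlim
        have hclm : Fr.R γ = Fr.R ξ + (Fr.e ξ).smulRight (Fr.δ ξ) := by
          apply Fr.ext_clm
          intro η
          show Fr.R γ (Fr.δ η) = Fr.R ξ (Fr.δ η) + Fr.e ξ (Fr.δ η) • Fr.δ ξ
          rcases lt_trichotomy η ξ with h1 | h1 | h1
          · rw [Fr.R_lt γ η (h1.trans hξ), Fr.R_lt ξ η h1, Fr.e_ne ξ η h1.ne', zero_smul, add_zero]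
          · subst h1
            rw [Fr.R_lt γ η hξ, Fr.R_ge η η le_rfl, Fr.e_self, one_smul, zero_add]
          · rw [Fr.R_ge γ η (hsucc η h1), Fr.R_ge ξ η h1.le, Fr.e_ne ξ η h1.ne, zero_smul,
              add_zero]
        rw [hclm]
        show Fr.R ξ v + Fr.e ξ v • Fr.δ ξ = 0
        rw [ih ξ hξ (fun η hη => h η (hη.trans hξ)), h ξ hξ, zero_smul, add_zero]
    · push Not at hne
      have h1 : Fr.R γ = 0 := by
        apply Fr.ext_clm
        intro ξ
        rw [Fr.R_ge γ ξ (hne ξ)]; rfl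
      rw [h1]; rfl

theorem eq_zero_of_e [WellFoundedLT I] [Nonempty I] (hcof : ∀ s : ℕ → I, ∃ γ, ∀ n, s n < γ)
    {v : V} (h : ∀ ξ, Fr.e ξ v = 0) : v = 0 := by
  obtain ⟨γ, hγ⟩ := Fr.exists_R_eq_self hcof v
  rw [← hγ γ le_rfl]
  exact Fr.R_eq_zero_of_e γ fun ξ _ => h ξ

/-- compatibility of a frame with recursion data -/
structure Compat (Fr : Frame 𝕜 V I) (d : TData 𝕜 V I) : Prop where
  est : ∀ ξ, d.est ξ = Fr.e ξ
  S_R : ∀ ξ K v, d.S ξ K (Fr.R ξ v) = d.S ξ K v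

variable [WellFoundedLT I] {Fr} {d : TData 𝕜 V I}

theorem Compat.T_R (h : Compat Fr d) (ξ : I) : ∀ (K : ℕ) (v : V),
    d.T ξ K (Fr.R ξ v) = d.T ξ K v := by
  induction ξ using WellFoundedLT.induction with
  | ind ξ ih =>
    intro K v
    have hD : ∀ l, d.D (d.b ξ l) (Fr.R ξ v) = d.D (d.b ξ l) v := by
      intro l
      unfold TData.D
      simp only [_root_.sum_apply, _root_.smul_apply]
      refine Finset.sum_congr rfl fun η hη => ?_
      have hηξ := d.lt_of_mem ξ l η hη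
      rw [← ih η hηξ _ (Fr.R ξ v), Fr.R_R η ξ hηξ.le, ih η hηξ]
    have hsum : Summable fun l => d.D (d.b ξ (l + K)) :=
      ((d.summable_norm_D ξ).of_norm).comp_injective (add_left_injective K)
    have heval : ∀ z : V, (∑' l, d.D (d.b ξ (l + K))) z = ∑' l, d.D (d.b ξ (l + K)) z := by
      intro z
      exact (ContinuousLinearMap.apply 𝕜 𝕜 z).map_tsum hsum
    rw [d.T_eq ξ K]
    show d.S ξ K (Fr.R ξ v) + (∑' l, d.D (d.b ξ (l + K))) (Fr.R ξ v) =
      d.S ξ K v + (∑' l, d.D (d.b ξ (l + K))) v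
    rw [h.S_R, heval, heval]
    congr 1
    exact tsum_congr fun l => hD _

/-- the generators separate the points of `V` -/
theorem Compat.gen_inj [Nonempty I] (h : Compat Fr d) (hcof : ∀ s : ℕ → I, ∃ γ, ∀ n, s n < γ)
    (v : V) (hv : ∀ β, d.gen β v = 0) : v = 0 := by
  apply Fr.eq_zero_of_e hcof
  intro ξ
  induction ξ using WellFoundedLT.induction with
  | ind ξ ih =>
    have h1 : Fr.R ξ v = 0 := Fr.R_eq_zero_of_e ξ ih
    have h2 := hv ξ
    have h3 : d.gen ξ v = d.est ξ v + d.T ξ 0 v := rfl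
    rw [h3, ← h.T_R ξ 0 v, h1, map_zero, add_zero, h.est] at h2
    exact h2

/-- the small part of a generator tends to zero along bounded sequences whose lower projections
tend to zero -/
theorem Compat.small_part (h : Compat Fr d) (β γ : I) (hγ : ∀ l, ∀ η ∈ (d.b β l).support, η < γ)
    (ψ : ℕ → V) (hB : ∃ B : ℝ, ∀ n, ‖ψ n‖ ≤ B)
    (hψ : ∀ ξ < γ, Tendsto (fun n => Fr.R ξ (ψ n)) atTop (𝓝 0)) :
    Tendsto (fun n => d.gen β (ψ n) - Fr.e β (ψ n) - d.S β 0 (ψ n)) atTop (𝓝 0) := by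
  obtain ⟨B, hB⟩ := hB
  have hsum : Summable fun l => d.D (d.b β l) := (d.summable_norm_D β).of_norm
  have heq : ∀ n, d.gen β (ψ n) - Fr.e β (ψ n) - d.S β 0 (ψ n) = ∑' l, d.D (d.b β l) (ψ n) := by
    intro n
    have h3 : d.gen β (ψ n) = d.est β (ψ n) + d.T β 0 (ψ n) := rfl
    have h4 : d.T β 0 (ψ n) = d.S β 0 (ψ n) + (∑' l, d.D (d.b β l)) (ψ n) := by
      rw [d.T_eq β 0]
      simp only [add_zero]
      rfl
    rw [h3, h4, h.est]
    have h5 : (∑' l, d.D (d.b β l)) (ψ n) = ∑' l, d.D (d.b β l) (ψ n) :=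
      (ContinuousLinearMap.apply 𝕜 𝕜 (ψ n)).map_tsum hsum
    rw [h5]; ring
  simp_rw [heq]
  have hlim : ∀ l, Tendsto (fun n => d.D (d.b β l) (ψ n)) atTop (𝓝 0) := by
    intro l
    unfold TData.D
    simp only [_root_.sum_apply, _root_.smul_apply]
    have h0 : (0 : 𝕜) = ∑ η ∈ (d.b β l).support, (((d.b β l) η : ℚ) : 𝕜) • (0 : 𝕜) := by simp
    rw [h0]
    refine tendsto_finsetSum _ fun η hη => Tendsto.const_smul ?_ _
    have h1 : (fun n => d.T η (d.kappa (d.b β l).support) (ψ n)) =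
        fun n => d.T η (d.kappa (d.b β l).support) (Fr.R η (ψ n)) := by
      funext n; rw [h.T_R]
    rw [h1]
    have := ((d.T η (d.kappa (d.b β l).support)).continuous.tendsto 0).comp (hψ η (hγ l η hη))
    rwa [map_zero] at this
  have h0 : (0 : 𝕜) = ∑' _ : ℕ, (0 : 𝕜) := by simp
  rw [h0]
  refine tendsto_tsum_of_dominated_convergence (bound := fun l => 3 * d.w β l * B)
    (((d.w_summable β).mul_left 3).mul_right B) hlim ?_
  filter_upwards with n l
  calc ‖d.D (d.b β l) (ψ n)‖ ≤ ‖d.D (d.b β l)‖ * ‖ψ n‖ := ContinuousLinearMap.le_opNorm _ _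
    _ ≤ (3 * d.w β l) * B := mul_le_mul (d.norm_D_b_le β l) (hB n) (norm_nonneg _)
        ((norm_nonneg _).trans (d.norm_D_b_le β l))

end Frame

end Crest.Agent.R114
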