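import Crest.Agent.R114.CodeSeq

/-!
R114 (S0152): the index set `Idx = ω₁`, labels, and the registration of sequences of functionals
under the continuum hypothesis. (helper475)
-/

set_option autoImplicit false

namespace Crest.Agent.R114

open Cardinal Set

/-- the index set `ω₁` -/
def Idx : Type := (Cardinal.aleph.{0} 1).ord.ToType

noncomputable instance Idx.instLinearOrder : LinearOrder Idx :=
  inferInstanceAs (LinearOrder (Cardinal.aleph.{0} 1).ord.ToType)

instance Idx.instWellFoundedLT : WellFoundedLT Idx :=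
  inferInstanceAs (WellFoundedLT (Cardinal.aleph.{0} 1).ord.ToType)

theorem Idx.mk_eq : Cardinal.mk Idx = Cardinal.aleph 1 := Cardinal.mk_ord_toType _

instance Idx.instUncountable : Uncountable Idx := by
  rw [← Cardinal.aleph0_lt_mk_iff, Idx.mk_eq]
  exact Cardinal.aleph0_lt_aleph_one

instance Idx.instInfinite : Infinite Idx := inferInstance

instance Idx.instNonempty : Nonempty Idx := inferInstance

theorem Idx.countable_Iio (a : Idx) : (Set.Iio a).Countable := by
  rw [← Cardinal.le_aleph0_iff_set_countable, ← Cardinal.lt_aleph_one_iff, ← Idx.mk_eq]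
  refine Cardinal.mk_Iio_lt a ?_
  rw [Idx.mk_eq]
  exact (Ordinal.type_toType _).symm

theorem Idx.countable_Iic (a : Idx) : (Set.Iic a).Countable := by
  rw [← Set.Iio_insert]
  exact (Idx.countable_Iio a).insert a

/-- every countable set of indices is strictly bounded -/
theorem Idx.exists_gt_of_countable (S : Set Idx) (hS : S.Countable) : ∃ a : Idx, ∀ b ∈ S, b < a := by
  by_contra hcon
  push Not at hcon
  have h1 : (Set.univ : Set Idx) ⊆ ⋃ b ∈ S, Set.Iic b := by
    intro a _
    obtain ⟨b, hb, hab⟩ := hcon a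
    exact Set.mem_biUnion hb hab
  have h2 : (⋃ b ∈ S, Set.Iic b).Countable := hS.biUnion fun b _ => Idx.countable_Iic b
  have h3 : (Set.univ : Set Idx).Countable := h2.mono h1
  exact Set.not_countable_univ h3

instance Idx.instNoMaxOrder : NoMaxOrder Idx := by
  refine ⟨fun a => ?_⟩
  obtain ⟨b, hb⟩ := Idx.exists_gt_of_countable {a} (Set.countable_singleton a)
  exact ⟨b, hb a rfl⟩

/-- injective labels -/
theorem Idx.exists_labels : ∃ x : Idx → ℕ → Bool, Function.Injective x := by
  have h : Cardinal.mk Idx ≤ Cardinal.mk (ℕ → Bool) := by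
    rw [Idx.mk_eq]
    have : Cardinal.mk (ℕ → Bool) = Cardinal.continuum := by simp
    rw [this]
    exact Cardinal.aleph_one_le_continuum
  obtain ⟨f⟩ := h
  exact ⟨f, f.injective⟩

/-- General registration: if `S` has at most `ℵ₁` elements and every element has a countable
support then there is an injective map `S → ω₁` beyond the supports. -/
theorem Idx.exists_reg {S : Type} (hS : Cardinal.mk S ≤ Cardinal.aleph 1) (supp : S → Set Idx)
    (hsupp : ∀ t, (supp t).Countable) :
    ∃ reg : S → Idx, Function.Injective reg ∧ ∀ t, ∀ a ∈ supp t, a < reg t := by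
  have h1 : Nonempty (S ↪ Idx) := by
    rw [← Idx.mk_eq] at hS
    exact hS
  obtain ⟨j⟩ := h1
  have h2 : Nonempty (Idx × Idx ≃ Idx) := by
    rw [← Cardinal.eq]
    simp only [Cardinal.mk_prod, Cardinal.lift_id]
    exact Cardinal.mul_eq_self (Cardinal.aleph0_le_mk Idx)
  obtain ⟨p⟩ := h2
  have h3 : ∀ t : S, ∃ δ : Idx, ∀ a ∈ supp t, a < p (j t, δ) := by
    intro t
    obtain ⟨b, hb⟩ := Idx.exists_gt_of_countable (supp t) (hsupp t)
    by_contra hcon
    push Not at hcon
    have h4 : ∀ δ : Idx, p (j t, δ) ∈ Set.Iic b := by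
      intro δ
      obtain ⟨a, ha, hab⟩ := hcon δ
      exact hab.trans (hb a ha).le
    have h5 : Function.Injective (fun δ : Idx => (⟨p (j t, δ), h4 δ⟩ : Set.Iic b)) := by
      intro δ δ' h
      have h6 : p (j t, δ) = p (j t, δ') := congrArg Subtype.val h
      have h7 := p.injective h6
      exact (Prod.mk.inj h7).2
    have h8 : Countable (Set.Iic b) := (Idx.countable_Iic b).to_subtype
    have h9 : Countable Idx := h5.countable
    exact not_countable h9
  choose δ hδ using h3
  refine ⟨fun t => p (j t, δ t), ?_, hδ⟩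
  intro t t' h
  have h6 := p.injective h
  exact j.injective (Prod.mk.inj h6).1

/-- the number of sequences of rational functionals with weights is `ℵ₁` under CH -/
theorem Idx.mk_seq_le (hCH : Cardinal.mk ℝ = Cardinal.aleph 1) :
    Cardinal.mk (ℕ → (Idx →₀ ℚ) × ℕ) ≤ Cardinal.aleph 1 := by
  have hc : Cardinal.continuum.{0} = Cardinal.aleph 1 := by
    rw [← Cardinal.mk_real, hCH]
  have h1 : Cardinal.mk (Idx →₀ ℚ) ≤ Cardinal.continuum := by
    rw [Cardinal.mk_finsupp_of_infinite, Idx.mk_eq]
    refine max_le ?_ ?_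
    · exact Cardinal.aleph_one_le_continuum
    · simpa using Cardinal.aleph0_le_continuum
  have h2 : Cardinal.mk ((Idx →₀ ℚ) × ℕ) ≤ Cardinal.continuum := by
    simp only [Cardinal.mk_prod, Cardinal.lift_id, Cardinal.mk_nat]
    calc Cardinal.mk (Idx →₀ ℚ) * Cardinal.aleph0
        ≤ Cardinal.continuum * Cardinal.continuum :=
          mul_le_mul' h1 Cardinal.aleph0_le_continuum
      _ = Cardinal.continuum := Cardinal.continuum_mul_self
  calc Cardinal.mk (ℕ → (Idx →₀ ℚ) × ℕ) = Cardinal.mk ((Idx →₀ ℚ) × ℕ) ^ Cardinal.aleph0 := by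
        simp
    _ ≤ Cardinal.continuum ^ Cardinal.aleph0 := Cardinal.power_le_power_right h2
    _ = Cardinal.continuum := Cardinal.continuum_power_aleph0
    _ = Cardinal.aleph 1 := hc

/-- Registration of the sequences `(b_l, j_l)` under CH. -/
theorem Idx.exists_reg_seq (hCH : Cardinal.mk ℝ = Cardinal.aleph 1) :
    ∃ reg : (ℕ → (Idx →₀ ℚ) × ℕ) → Idx, Function.Injective reg ∧
      ∀ t, ∀ l, ∀ a ∈ (t l).1.support, a < reg t := by
  obtain ⟨reg, h1, h2⟩ := Idx.exists_reg (Idx.mk_seq_le hCH)
    (fun t => ⋃ l, ((t l).1.support : Set Idx))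
    (fun t => Set.countable_iUnion fun l => ((t l).1.support.finite_toSet).countable)
  exact ⟨reg, h1, fun t l a ha => h2 t a (Set.mem_iUnion.2 ⟨l, ha⟩)⟩

/-- the coding on `ω₁` -/
theorem Idx.exists_coding : ∃ _ : Coding Idx, True := by
  obtain ⟨x, hx⟩ := Idx.exists_labels
  obtain ⟨c, _⟩ := Coding.exists Idx.countable_Iic x hx
  exact ⟨c, trivial⟩

end Crest.Agent.R114
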