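import Crest.Agent.R114.Defs
import Crest.Agent.R114.Reg

/-! # Row 114, S0152: the index set under the continuum hypothesis. -/

set_option autoImplicit false

open Set Filter

namespace Crest.Agent.R114

/-- properties of the index set `ω₁` under CH -/
structure GoodIndex (I : Type) [LinearOrder I] : Prop where
  wf : WellFoundedLT I
  ne : Nonempty I
  ctbl : ∀ a : I, (Iic a).Countable
  bdd : ∀ S : Set I, S.Countable → ∃ a, ∀ s ∈ S, s < a
  lab : ∃ x : I → ℕ → Bool, Function.Injective x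
  reg : ∀ (T : Set (ℕ → (I →₀ ℚ) × ℕ)) (bd : T → I),
    ∃ r : T → I, Function.Injective r ∧ ∀ t, bd t < r t

theorem Idx.goodIndex (hCH : Cardinal.mk ℝ = Cardinal.aleph 1) : GoodIndex Idx where
  wf := inferInstance
  ne := inferInstance
  ctbl := Idx.countable_Iic
  bdd := Idx.exists_gt_of_countable
  lab := Idx.exists_labels
  reg := by
    intro T bd
    obtain ⟨r, hr, hr2⟩ := Idx.exists_reg (S := T)
      ((Cardinal.mk_set_le T).trans (Idx.mk_seq_le hCH)) (fun t => Iic (bd t))
      (fun t => Idx.countable_Iic _)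
    exact ⟨r, hr, fun t => hr2 t _ (mem_Iic.mpr le_rfl)⟩

theorem exists_goodIndex (hCH : Cardinal.mk ℝ = Cardinal.aleph 1) :
    ∃ (I : Type) (_ : LinearOrder I), GoodIndex I :=
  ⟨Idx, inferInstance, Idx.goodIndex hCH⟩

/-- registration of the infinite special sequences -/
structure Reg {I : Type} [LinearOrder I] (c : Coding I) where
  reg : {t : ℕ → (I →₀ ℚ) × ℕ // IsSpecialSeq c t} → I
  inj : Function.Injective reg
  lt : ∀ t l, ∀ a ∈ (t.1 l).1.support, a < reg t

theorem exists_reg {I : Type} [LinearOrder I] (hI : GoodIndex I) (c : Coding I) :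
    Nonempty (Reg c) := by
  classical
  have h1 : ∀ t : {t : ℕ → (I →₀ ℚ) × ℕ // IsSpecialSeq c t}, ∃ a : I,
      ∀ s ∈ ⋃ l, ((t.1 l).1.support : Set I), s < a := fun t =>
    hI.bdd _ (Set.countable_iUnion fun l => ((t.1 l).1.support.finite_toSet).countable)
  choose bd hbd using h1
  obtain ⟨r, hr1, hr2⟩ := hI.reg {t | IsSpecialSeq c t} bd
  exact ⟨⟨r, hr1, fun t l a ha => (hbd t a (Set.mem_iUnion.2 ⟨l, ha⟩)).trans (hr2 t)⟩⟩

end Crest.Agent.R114
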