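import Crest.Agent.R114.GSeqC

/-! # Row 114, S0152 (S7): the rapidly increasing sequence. -/

set_option autoImplicit false

open Set Filter

namespace Crest.Agent.R114

variable {I : Type} [LinearOrder I] {c : Coding I} {𝕜 : Type} [RCLike 𝕜]

namespace GSeq

/-- the normalized sum of the `y k`, `k ∈ A` -/
noncomputable def Gv (c : Coding I) (y : ℕ → I →₀ 𝕜) (A : Finset ℕ) : I →₀ 𝕜 :=
  ((nrm c (∑ k ∈ A, y k) : ℝ) : 𝕜)⁻¹ • ∑ k ∈ A, y k

omit [LinearOrder I] in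
lemma tailSpan_anti (u : ℕ → I →₀ 𝕜) {a b : ℕ} (h : a ≤ b) : tailSpan u b ≤ tailSpan u a :=
  Submodule.span_mono (Set.image_mono (Ici_subset_Ici.2 h))

lemma norm_act_Gv (y : ℕ → I →₀ 𝕜) {A : Finset ℕ} {κ : ℝ} (hκ : 0 < κ) (hA : A.Nonempty)
    (hn : κ * A.card ≤ nrm c (∑ k ∈ A, y k)) (b : I →₀ ℚ) {M : ℝ}
    (h : ∑ k ∈ A, ‖act b (y k)‖ ≤ M * A.card) : ‖act b (Gv c y A)‖ ≤ M / κ := by
  have hc : (0 : ℝ) < A.card := by exact_mod_cast hA.card_pos
  have hpos : 0 < nrm c (∑ k ∈ A, y k) := lt_of_lt_of_le (by positivity) hn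
  unfold Gv
  rw [act_smul, norm_mul, norm_inv, RCLike.norm_ofReal, abs_of_pos hpos, act_sum]
  have h1 : ‖∑ k ∈ A, act b (y k)‖ ≤ M * A.card := (norm_sum_le _ _).trans h
  have hM : 0 ≤ M * A.card := (norm_nonneg _).trans h1
  rw [inv_mul_le_iff₀ hpos]
  calc ‖∑ k ∈ A, act b (y k)‖ ≤ M * A.card := h1
    _ = κ * A.card * (M / κ) := by field_simp
    _ ≤ nrm c (∑ k ∈ A, y k) * (M / κ) := by
      refine mul_le_mul_of_nonneg_right hn ?_
      have : 0 ≤ M := nonneg_of_mul_nonneg_left hM hc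
      positivity

lemma nrm_Gv (y : ℕ → I →₀ 𝕜) {A : Finset ℕ} {κ : ℝ} (hκ : 0 < κ) (hA : A.Nonempty)
    (hn : κ * A.card ≤ nrm c (∑ k ∈ A, y k)) : nrm c (Gv c y A) = 1 := by
  have hc : (0 : ℝ) < A.card := by exact_mod_cast hA.card_pos
  have hpos : 0 < nrm c (∑ k ∈ A, y k) := lt_of_lt_of_le (by positivity) hn
  unfold Gv
  rw [nrm_smul, norm_inv, RCLike.norm_ofReal, abs_of_pos hpos, inv_mul_cancel₀ hpos.ne']

lemma mq_pos (j : ℕ) : (0 : ℝ) < mq j := by unfold mq; positivity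

lemma lt_mq (j : ℕ) : j < mq j := by
  unfold mq
  calc j < j + 1 := Nat.lt_succ_self j
    _ < 16 ^ (j + 1) := Nat.lt_pow_self (by norm_num)

/-- one step -/
theorem step {u y : ℕ → I →₀ 𝕜} {w : ℕ → ℕ} (hy : YData c u y w) {κ : ℝ} (hκ : 0 < κ)
    (hG : GoodSets c y w κ) :
    ∃ w0 : ℕ, ∀ p W K : ℕ, w0 + p ≤ W → ∃ (A : Finset ℕ) (W' : ℕ),
      A.Nonempty ∧ (∀ k ∈ A, K ≤ k ∧ p ≤ k) ∧ W < W' ∧ nrm c (Gv c y A) = 1 ∧
      (∀ i b, i ≤ W → IsW (NB c) i b → ‖act b (Gv c y A)‖ ≤ (4 / κ) / mq i) ∧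
      (∀ (L : SList I) (E : Set I) (J : Set ℕ), IsSpecial c (NB c) L → E.OrdConnected →
        J.OrdConnected → J ⊆ Ioc W W' →
        ‖act (piece L E J) (Gv c y A)‖ * (W + 1) ≤ (1 / 2 : ℝ) ^ p) ∧
      2 * l1 (Gv c y A) ≤ (1 / 2 : ℝ) ^ p * mq (W' + 1) := by
  obtain ⟨w0, hw0⟩ : ∃ w0 : ℕ, 1 / κ < (4 : ℝ) ^ w0 := pow_unbounded_of_one_lt _ (by norm_num)
  refine ⟨w0, fun p W K hW => ?_⟩
  have hW1 : (0 : ℝ) < (W : ℝ) + 1 := by positivity
  set θ : ℝ := κ * (1 / 2) ^ p / (4 * (W + 1)) with hθ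
  have hθ0 : 0 < θ := by positivity
  obtain ⟨K0, hK0⟩ : ∃ K0 : ℕ, (1 / 2 : ℝ) ^ K0 < θ :=
    exists_pow_lt_of_lt_one hθ0 (by norm_num)
  obtain ⟨A, hA, hAK, hn, hwin⟩ := hG θ hθ0 (max (max K p) (max W K0))
  have hAk : ∀ k ∈ A, K ≤ k ∧ p ≤ k ∧ W ≤ k ∧ K0 ≤ k := by
    intro k hk
    have := hAK k hk
    simp only [max_le_iff] at this
    exact ⟨this.1.1, this.1.2, this.2.1, this.2.2⟩
  have hwk : ∀ k ∈ A, W ≤ w k := fun k hk => (hAk k hk).2.2.1.trans (hy.w_mono.id_le k)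
  -- the choice of `W'`
  obtain ⟨W', hWW', hl1⟩ : ∃ W' : ℕ, W < W' ∧
      2 * l1 (Gv c y A) ≤ (1 / 2 : ℝ) ^ p * mq (W' + 1) := by
    obtain ⟨n, hn⟩ := exists_nat_gt (2 * l1 (Gv c y A) / (1 / 2 : ℝ) ^ p)
    refine ⟨max (W + 1) n, lt_of_lt_of_le (Nat.lt_succ_self W) (le_max_left _ _), ?_⟩
    have h1 : (n : ℝ) ≤ mq (max (W + 1) n + 1) := by
      have : n ≤ mq (max (W + 1) n + 1) :=
        ((le_max_right (W + 1) n).trans (Nat.le_succ _)).trans (lt_mq _).le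
      exact_mod_cast this
    have h2 := (hn.trans_le h1).le
    rw [div_le_iff₀ (by positivity)] at h2
    linarith
  refine ⟨A, W', hA, fun k hk => ⟨(hAk k hk).1, (hAk k hk).2.1⟩, hWW', nrm_Gv y hκ hA hn, ?_,
    ?_, hl1⟩
  · intro i b hi hb
    have h1 : ∑ k ∈ A, ‖act b (y k)‖ ≤ (4 / mq i) * A.card := by
      calc ∑ k ∈ A, ‖act b (y k)‖ ≤ ∑ _k ∈ A, (4 / mq i : ℝ) :=
            Finset.sum_le_sum fun k hk => hy.small k i b (hi.trans (hwk k hk)) hb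
        _ = _ := by rw [Finset.sum_const, nsmul_eq_mul, mul_comm]
    refine (norm_act_Gv y hκ hA hn b h1).trans (le_of_eq ?_)
    rw [div_right_comm]
  · intro L E J hL hE hJ hJW
    have key : ∑ k ∈ A, ‖act (piece L E J) (y k)‖ ≤
        (8 / mq (W + 1) + θ + (1 / 2 : ℝ) ^ K0) * A.card := by
      have h1 : ∀ k ∈ A, ‖act (piece L E J) (y k)‖ ≤ (8 / mq (W + 1) : ℝ) +
          ‖act (piece L E (J ∩ Ioc (w k) (w (k + 1)))) (y k)‖ + (1 / 2 : ℝ) ^ K0 := by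
        intro k hk
        rw [piece_split L E J (hy.w_mono (Nat.lt_succ_self k)).le, act_add_left, act_add_left]
        refine (norm_add₃_le).trans (add_le_add (add_le_add ?_ le_rfl) ?_)
        · refine act_piece_small (a := w k) hL hE ?_ (fun i b hi hb => hy.small k i b hi hb)
          intro i hi
          exact ⟨(hJW hi.1).1, hi.2⟩
        · have h2 := act_piece_large (J := J ∩ Ioi (w (k + 1))) hL hE inter_subset_right (y k)
          refine h2.trans ?_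
          have h3 := hy.large k
          have h4 : (2 : ℝ) / mq (w (k + 1) + 1) * l1 (y k) ≤ (1 / 2 : ℝ) ^ k := by
            rw [div_mul_eq_mul_div, div_le_iff₀ (mq_pos _)]
            exact h3
          exact h4.trans (pow_le_pow_of_le_one (by norm_num) (by norm_num) (hAk k hk).2.2.2)
      calc ∑ k ∈ A, ‖act (piece L E J) (y k)‖ ≤ ∑ k ∈ A, ((8 / mq (W + 1) : ℝ) +
          ‖act (piece L E (J ∩ Ioc (w k) (w (k + 1)))) (y k)‖ + (1 / 2 : ℝ) ^ K0) :=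
            Finset.sum_le_sum h1
        _ = (8 / mq (W + 1) : ℝ) * A.card +
            ∑ k ∈ A, ‖act (piece L E (J ∩ Ioc (w k) (w (k + 1)))) (y k)‖ +
            (1 / 2 : ℝ) ^ K0 * A.card := by
          rw [Finset.sum_add_distrib, Finset.sum_add_distrib, Finset.sum_const,
            Finset.sum_const, nsmul_eq_mul, nsmul_eq_mul, mul_comm, mul_comm (A.card : ℝ)]
        _ ≤ (8 / mq (W + 1) : ℝ) * A.card + θ * A.card + (1 / 2 : ℝ) ^ K0 * A.card := by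
          have := hwin L E J hL hE hJ
          linarith
        _ = _ := by ring
    have h5 := norm_act_Gv y hκ hA hn _ key
    have h6 : (8 / mq (W + 1) : ℝ) ≤ θ := by
      rw [div_le_iff₀ (mq_pos _), hθ, div_mul_eq_mul_div, le_div_iff₀ (by positivity)]
      have e1 : (mq (W + 1) : ℝ) = 256 * 16 ^ W := by
        unfold mq; push_cast; ring
      have e2 : ((W : ℝ) + 1) ≤ 2 ^ W := by
        have : W + 1 ≤ 2 ^ W := Nat.lt_two_pow_self
        exact_mod_cast this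
      have e3 : (1 / 2 : ℝ) ^ p * 2 ^ W ≥ 2 ^ w0 := by
        have : (2 : ℝ) ^ (w0 + p) ≤ 2 ^ W := pow_le_pow_right₀ (by norm_num) hW
        calc (2 : ℝ) ^ w0 = (1 / 2 : ℝ) ^ p * 2 ^ (w0 + p) := by
              rw [pow_add, mul_comm ((2 : ℝ) ^ w0), ← mul_assoc, ← mul_pow]; norm_num
          _ ≤ _ := mul_le_mul_of_nonneg_left this (by positivity)
      have e4 : (1 : ℝ) ≤ κ * 4 ^ w0 := by
        rw [div_lt_iff₀ hκ] at hw0; linarith
      have e5 : (16 : ℝ) ^ W = 2 ^ W * (2 ^ W * 4 ^ W) := by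
        rw [← mul_pow, ← mul_pow]; norm_num
      have e6 : (4 : ℝ) ^ w0 ≤ 4 ^ W := pow_le_pow_right₀ (by norm_num) (by omega)
      have e7 : (1 : ℝ) ≤ 2 ^ w0 := one_le_pow₀ (by norm_num)
      rw [e1, e5]
      have e8 : κ * (1 / 2) ^ p * (256 * (2 ^ W * (2 ^ W * 4 ^ W))) =
          256 * (κ * 4 ^ W) * ((1 / 2) ^ p * 2 ^ W) * 2 ^ W := by ring
      rw [e8]
      have e9 : (1 : ℝ) ≤ κ * 4 ^ W := e4.trans (mul_le_mul_of_nonneg_left e6 hκ.le)
      have e10 : (1 : ℝ) ≤ (κ * 4 ^ W) * ((1 / 2) ^ p * 2 ^ W) :=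
        one_le_mul_of_one_le_of_one_le e9 (e7.trans e3)
      have e11 : (0 : ℝ) < 2 ^ W := by positivity
      nlinarith
    have h7 : (8 / mq (W + 1) + θ + (1 / 2 : ℝ) ^ K0) / κ ≤ 3 * θ / κ := by
      refine div_le_div_of_nonneg_right ?_ hκ.le
      linarith
    calc ‖act (piece L E J) (Gv c y A)‖ * (W + 1) ≤ 3 * θ / κ * (W + 1) :=
          mul_le_mul_of_nonneg_right (h5.trans h7) hW1.le
      _ = 3 / 4 * (1 / 2 : ℝ) ^ p := by
        rw [hθ]; field_simp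
      _ ≤ _ := by
        have : (0 : ℝ) < (1 / 2) ^ p := by positivity
        linarith

end GSeq

theorem exists_GData {u y : ℕ → I →₀ 𝕜} {w : ℕ → ℕ} (hu : IsBlockSeq u) (hy : YData c u y w)
    (hNK : NK c u) : ∃ (C : ℝ) (G : ℕ → I →₀ 𝕜) (w' : ℕ → ℕ), 1 ≤ C ∧ GData c u C G w' := by
  obtain ⟨κ, hκ, hG⟩ := exists_goodSets hu hy hNK
  obtain ⟨w0', hstep'⟩ := GSeq.step hy hκ hG
  obtain ⟨w0, hw0⟩ : ∃ w0 : ℕ, w0 = w0' + 2 := ⟨_, rfl⟩
  have hstep := fun (p W K : ℕ) (h : w0 + p ≤ W) => hstep' (p + 2) W K (by omega)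
  choose! A W' h using hstep
  let st : ℕ → ℕ × ℕ := fun p => Nat.rec (w0, 0)
    (fun p s => (W' p s.1 s.2, (A p s.1 s.2).sup id + 1)) p
  have st0 : st 0 = (w0, 0) := rfl
  have stS : ∀ p, st (p + 1) = (W' p (st p).1 (st p).2, (A p (st p).1 (st p).2).sup id + 1) :=
    fun p => rfl
  have hW : ∀ p, w0 + p ≤ (st p).1 := by
    intro p
    induction p with
    | zero => simp [st0]
    | succ p ih =>
      have := (h p (st p).1 (st p).2 ih).2.2.1
      rw [stS]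
      simp only
      omega
  have hp := fun p => h p (st p).1 (st p).2 (hW p)
  have hmono : StrictMono fun p => (st p).1 := strictMono_nat_of_lt_succ fun p => by
    rw [stS]; exact (hp p).2.2.1
  have hltK : ∀ p, ∀ k ∈ A p (st p).1 (st p).2, k < (st (p + 1)).2 := by
    intro p k hk
    rw [stS]
    exact Nat.lt_succ_of_le (Finset.le_sup (f := id) hk)
  have hKmono : Monotone fun p => (st p).2 := monotone_nat_of_le_succ fun p => by
    obtain ⟨k, hk⟩ := (hp p).1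
    exact ((hp p).2.1 k hk).1.trans (hltK p k hk).le
  let G : ℕ → I →₀ 𝕜 := fun p => GSeq.Gv c y (A p (st p).1 (st p).2)
  have hsupp : ∀ p, ∀ a ∈ (G p).support, ∃ k ∈ A p (st p).1 (st p).2, a ∈ (y k).support := by
    classical
    intro p a ha
    have h1 := Finsupp.support_smul ha
    have h2 := Finsupp.support_finsetSum h1
    rw [Finset.mem_biUnion] at h2
    exact h2
  refine ⟨max 1 (4 / κ), G, fun p => (st p).1, le_max_left _ _, hmono, ⟨?_, ?_⟩, ?_, ?_, ?_, ?_, ?_⟩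
  · intro p h0
    have := (hp p).2.2.2.1
    rw [show GSeq.Gv c y (A p (st p).1 (st p).2) = G p from rfl, h0] at this
    rw [(nrm_eq_zero_iff (c := c) (0 : I →₀ 𝕜)).2 rfl] at this
    exact zero_ne_one this
  · intro p p' hpp a ha b hb
    obtain ⟨k, hk, hak⟩ := hsupp p a ha
    obtain ⟨k', hk', hbk⟩ := hsupp p' b hb
    have h1 : k < (st (p + 1)).2 := hltK p k hk
    have h2 : (st (p + 1)).2 ≤ (st p').2 := hKmono hpp
    have h3 : (st p').2 ≤ k' := ((hp p').2.1 k' hk').1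
    exact hy.block.slt k k' (by omega) a hak b hbk
  · intro p
    refine Submodule.smul_mem _ _ (Submodule.sum_mem _ fun k hk => ?_)
    exact GSeq.tailSpan_anti u ((Nat.le_add_right p 2).trans ((hp p).2.1 k hk).2) (hy.mem k)
  · intro p
    exact (hp p).2.2.2.1
  · intro p i b hi hb
    refine ((hp p).2.2.2.2.1 i b hi hb).trans ?_
    exact div_le_div_of_nonneg_right (le_max_right _ _) (GSeq.mq_pos i).le
  · intro p L E J hL hE hJ hJW
    refine (hp p).2.2.2.2.2.1 L E J hL hE hJ ?_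
    have : (st (p + 1)).1 = W' p (st p).1 (st p).2 := by rw [stS]
    simpa [this] using hJW
  · intro p
    have := (hp p).2.2.2.2.2.2
    rw [stS]
    exact this

end Crest.Agent.R114
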