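import Mathlib

/-!
S8: abstract upper estimate for sums of a rapidly increasing sequence `(G_p)`. The norming
functionals `b` enter only through the sequences `s p = b (G p)`.
-/

set_option autoImplicit false

namespace Crest.Agent.R114.MRis

open Finset

variable {𝕜 : Type*} [RCLike 𝕜]

/-- the sequence `t` is, off at most `N` cut points, of the form `(1/m) s_{idx p} p` with at most
`N` sequences `s_a` of the class `SS` -/
def TypeA (SS : Set (ℕ → 𝕜)) (C : ℝ) (m : ℝ) (N : ℕ) (t : ℕ → 𝕜) : Prop :=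
  (∀ p, ‖t p‖ ≤ C) ∧ ∃ (D : Finset ℕ) (S : ℕ → (ℕ → 𝕜)) (idx : ℕ → ℕ),
    D.card ≤ N ∧ (∀ a, a < N → S a ∈ SS) ∧
      ∀ p, p ∉ D → (idx p < N ∧ ‖t p - ((m⁻¹ : ℝ) : 𝕜) * S (idx p) p‖ ≤ 0) ∨ t p = 0

/-- structure of the class `SS` relative to the level `j` -/
def Struct (SS : Set (ℕ → 𝕜)) (C ρ : ℝ) (δ : ℕ → ℝ) (m : ℕ → ℝ) (n : ℕ → ℕ) (j : ℕ) : Prop :=
  ∀ s ∈ SS, ∃ (T : ℕ → ℕ → 𝕜) (r : ℕ → 𝕜),
    (∀ p, s p = ∑ i ∈ range j, T i p + r p) ∧
    (∀ i, i < j → TypeA SS C (m i) (n i) (T i)) ∧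
    (∀ p, ‖r p‖ ≤ C) ∧
    ∃ p0 : ℕ, ∀ p, p ≠ p0 → ‖r p‖ ≤ ρ + δ p

noncomputable def al (C ρ : ℝ) : ℕ → ℝ
  | 0 => C
  | d + 1 => al C ρ d / 15 + ρ

noncomputable def be (C : ℝ) (D : ℕ) : ℕ → ℝ
  | 0 => 0
  | d + 1 => D * (be C D d + C) + C + 1

lemma al_nonneg {C ρ : ℝ} (hC : 0 ≤ C) (hρ : 0 ≤ ρ) (d : ℕ) : 0 ≤ al C ρ d := by
  induction d with
  | zero => exact hC
  | succ d ih => unfold al; positivity

lemma be_nonneg {C : ℝ} (hC : 0 ≤ C) (D d : ℕ) : 0 ≤ be C D d := by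
  induction d with
  | zero => exact le_rfl
  | succ d ih => unfold be; positivity

lemma typeA_bound {SS : Set (ℕ → 𝕜)} {C m α β : ℝ} {N : ℕ} {t : ℕ → 𝕜}
    (ht : TypeA SS C m N t) (hm : 0 < m) (hm1 : 1 ≤ m) (hC : 0 ≤ C) (hβ : 0 ≤ β)
    (hα : 0 ≤ α)
    (ih : ∀ s ∈ SS, ∀ A : Finset ℕ, ‖∑ p ∈ A, s p‖ ≤ α * A.card + β) (A : Finset ℕ) :
    ‖∑ p ∈ A, t p‖ ≤ α / m * A.card + N * (β + C) := by
  classical
  obtain ⟨htC, D, S, idx, hD, hS, ht⟩ := ht
  -- the good set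
  let Gd : Finset ℕ := A.filter fun p => p ∉ D ∧ idx p < N ∧ t p = ((m⁻¹ : ℝ) : 𝕜) * S (idx p) p
  have hsplit : ∑ p ∈ A, t p = ∑ p ∈ Gd, t p + ∑ p ∈ A \ Gd, t p := by
    rw [add_comm, Finset.sum_sdiff (Finset.filter_subset _ _)]
  have hbad : ‖∑ p ∈ A \ Gd, t p‖ ≤ N * C := by
    calc ‖∑ p ∈ A \ Gd, t p‖ ≤ ∑ p ∈ A \ Gd, ‖t p‖ := norm_sum_le _ _
      _ ≤ ∑ p ∈ A \ Gd, (if p ∈ D then C else 0) := by
        refine Finset.sum_le_sum fun p hp => ?_
        rw [Finset.mem_sdiff] at hp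
        split_ifs with hpD
        · exact htC p
        · rcases ht p hpD with h | h
          · exfalso
            apply hp.2
            rw [Finset.mem_filter]
            exact ⟨hp.1, hpD, h.1, sub_eq_zero.mp (norm_le_zero_iff.mp h.2)⟩
          · rw [h, norm_zero]
      _ = ∑ p ∈ (A \ Gd).filter (fun p => p ∈ D), C := by rw [Finset.sum_filter]
      _ = ((A \ Gd).filter (fun p => p ∈ D)).card * C := by rw [Finset.sum_const, nsmul_eq_mul]
      _ ≤ N * C := by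
        gcongr
        refine (Finset.card_le_card ?_).trans hD
        intro p hp
        exact (Finset.mem_filter.mp hp).2
  have hgood : ‖∑ p ∈ Gd, t p‖ ≤ α / m * A.card + N * β := by
    have h1 : ∑ p ∈ Gd, t p = ∑ a ∈ range N, ∑ p ∈ Gd.filter (fun p => idx p = a), t p := by
      rw [Finset.sum_fiberwise_of_maps_to]
      intro p hp
      rw [Finset.mem_range]
      exact (Finset.mem_filter.mp hp).2.2.1
    have h2 : ∀ a ∈ range N, ‖∑ p ∈ Gd.filter (fun p => idx p = a), t p‖ ≤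
        m⁻¹ * (α * (Gd.filter (fun p => idx p = a)).card + β) := by
      intro a ha
      have e1 : ∑ p ∈ Gd.filter (fun p => idx p = a), t p =
          ((m⁻¹ : ℝ) : 𝕜) * ∑ p ∈ Gd.filter (fun p => idx p = a), S a p := by
        rw [Finset.mul_sum]
        refine Finset.sum_congr rfl fun p hp => ?_
        rw [Finset.mem_filter] at hp
        obtain ⟨hp1, hp2⟩ := hp
        have := (Finset.mem_filter.mp hp1).2.2.2
        rw [this, hp2]
      rw [e1, norm_mul, RCLike.norm_ofReal, abs_of_pos (inv_pos.mpr hm)]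
      exact mul_le_mul_of_nonneg_left (ih _ (hS a (Finset.mem_range.mp ha)) _)
        (inv_pos.mpr hm).le
    have h3 : (∑ a ∈ range N, ((Gd.filter (fun p => idx p = a)).card : ℝ)) ≤ A.card := by
      have : ∑ a ∈ range N, (Gd.filter (fun p => idx p = a)).card = Gd.card := by
        rw [← Finset.card_eq_sum_card_fiberwise]
        intro p hp
        rw [Finset.mem_coe] at hp
        rw [Finset.mem_coe, Finset.mem_range]
        exact (Finset.mem_filter.mp hp).2.2.1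
      have h4 : Gd.card ≤ A.card := Finset.card_le_card (Finset.filter_subset _ _)
      rw [← this] at h4
      exact_mod_cast h4
    calc ‖∑ p ∈ Gd, t p‖
        ≤ ∑ a ∈ range N, ‖∑ p ∈ Gd.filter (fun p => idx p = a), t p‖ := by
          rw [h1]; exact norm_sum_le _ _
      _ ≤ ∑ a ∈ range N, m⁻¹ * (α * (Gd.filter (fun p => idx p = a)).card + β) :=
          Finset.sum_le_sum h2
      _ = m⁻¹ * (α * ∑ a ∈ range N, ((Gd.filter (fun p => idx p = a)).card : ℝ) + N * β) := by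
          rw [← Finset.mul_sum, Finset.sum_add_distrib, Finset.mul_sum, Finset.sum_const,
            Finset.card_range, nsmul_eq_mul]
      _ ≤ m⁻¹ * (α * A.card + N * β) := by gcongr
      _ = α / m * A.card + m⁻¹ * (N * β) := by rw [div_eq_mul_inv]; ring
      _ ≤ α / m * A.card + 1 * (N * β) := by
          gcongr
          exact inv_le_one_of_one_le₀ hm1
      _ = α / m * A.card + N * β := by rw [one_mul]
  calc ‖∑ p ∈ A, t p‖ ≤ ‖∑ p ∈ Gd, t p‖ + ‖∑ p ∈ A \ Gd, t p‖ := by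
        rw [hsplit]; exact norm_add_le _ _
    _ ≤ (α / m * A.card + N * β) + N * C := add_le_add hgood hbad
    _ = α / m * A.card + N * (β + C) := by ring

theorem iterate {SS : Set (ℕ → 𝕜)} {C ρ : ℝ} {δ : ℕ → ℝ} {m : ℕ → ℝ} {n : ℕ → ℕ} {j : ℕ}
    (hC : 0 ≤ C) (hρ : 0 ≤ ρ) (hδ0 : ∀ p, 0 ≤ δ p) (hδ : ∀ A : Finset ℕ, ∑ p ∈ A, δ p ≤ 1)
    (hm1 : ∀ i, 1 ≤ m i) (hm : ∑ i ∈ range j, (m i)⁻¹ ≤ 1 / 15)
    (hbd : ∀ s ∈ SS, ∀ p, ‖s p‖ ≤ C) (hst : Struct SS C ρ δ m n j) (d : ℕ) :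
    ∀ s ∈ SS, ∀ A : Finset ℕ,
      ‖∑ p ∈ A, s p‖ ≤ al C ρ d * A.card + be C (∑ i ∈ range j, n i) d := by
  classical
  induction d with
  | zero =>
    intro s hs A
    calc ‖∑ p ∈ A, s p‖ ≤ ∑ p ∈ A, ‖s p‖ := norm_sum_le _ _
      _ ≤ ∑ p ∈ A, C := Finset.sum_le_sum fun p _ => hbd s hs p
      _ = al C ρ 0 * A.card + be C (∑ i ∈ range j, n i) 0 := by
        rw [Finset.sum_const, nsmul_eq_mul]; simp [al, be, mul_comm]
  | succ d ih =>
    intro s hs A
    obtain ⟨T, r, hsum, hT, hrC, p0, hr⟩ := hst s hs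
    set α := al C ρ d with hα
    set β := be C (∑ i ∈ range j, n i) d with hβ
    have hα0 : 0 ≤ α := al_nonneg hC hρ d
    have hβ0 : 0 ≤ β := be_nonneg hC _ d
    have h1 : ‖∑ p ∈ A, r p‖ ≤ ρ * A.card + 1 + C := by
      calc ‖∑ p ∈ A, r p‖ ≤ ∑ p ∈ A, ‖r p‖ := norm_sum_le _ _
        _ ≤ ∑ p ∈ A, ((ρ + δ p) + (if p = p0 then C else 0)) := by
          refine Finset.sum_le_sum fun p _ => ?_
          split_ifs with hp
          · have := hrC p
            have := hδ0 p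
            linarith
          · have := hr p hp
            linarith
        _ = ρ * A.card + ∑ p ∈ A, δ p + ∑ p ∈ A, (if p = p0 then C else 0) := by
          rw [Finset.sum_add_distrib, Finset.sum_add_distrib, Finset.sum_const, nsmul_eq_mul]
          ring
        _ ≤ ρ * A.card + 1 + C := by
          refine add_le_add (add_le_add le_rfl (hδ A)) ?_
          rw [Finset.sum_ite_eq']
          split_ifs
          · exact le_rfl
          · exact hC
    have h2 : ∀ i ∈ range j, ‖∑ p ∈ A, T i p‖ ≤ α / m i * A.card + n i * (β + C) := by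
      intro i hi
      exact typeA_bound (hT i (Finset.mem_range.mp hi)) (lt_of_lt_of_le one_pos (hm1 i)) (hm1 i)
        hC hβ0 hα0 ih A
    calc ‖∑ p ∈ A, s p‖ = ‖∑ i ∈ range j, ∑ p ∈ A, T i p + ∑ p ∈ A, r p‖ := by
          rw [Finset.sum_comm, ← Finset.sum_add_distrib]
          congr 1
          exact Finset.sum_congr rfl fun p _ => hsum p
      _ ≤ ∑ i ∈ range j, ‖∑ p ∈ A, T i p‖ + ‖∑ p ∈ A, r p‖ :=
          (norm_add_le _ _).trans (add_le_add (norm_sum_le _ _) le_rfl)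
      _ ≤ ∑ i ∈ range j, (α / m i * A.card + n i * (β + C)) + (ρ * A.card + 1 + C) :=
          add_le_add (Finset.sum_le_sum h2) h1
      _ = α * A.card * (∑ i ∈ range j, (m i)⁻¹) + (∑ i ∈ range j, (n i : ℝ)) * (β + C) +
          (ρ * A.card + 1 + C) := by
          have e1 : ∑ i ∈ range j, α / m i * (A.card : ℝ) =
              α * A.card * (∑ i ∈ range j, (m i)⁻¹) := by
            rw [Finset.mul_sum]
            refine Finset.sum_congr rfl fun i _ => ?_
            rw [div_eq_mul_inv]; ring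
          rw [Finset.sum_add_distrib, e1, ← Finset.sum_mul]
      _ ≤ α * A.card * (1 / 15) + (∑ i ∈ range j, (n i : ℝ)) * (β + C) +
          (ρ * A.card + 1 + C) := by gcongr
      _ = al C ρ (d + 1) * A.card + be C (∑ i ∈ range j, n i) (d + 1) := by
          simp only [al, be, ← hα, ← hβ]
          push_cast
          ring

lemma al_le {C ρ : ℝ} (hρ : 0 ≤ ρ) (d : ℕ) : al C ρ d ≤ C / 15 ^ d + 2 * ρ := by
  induction d with
  | zero => simp only [al, pow_zero, div_one]; linarith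
  | succ d ih =>
    simp only [al, pow_succ]
    have : C / (15 ^ d * 15) = C / 15 ^ d / 15 := by rw [div_div]
    rw [this]
    linarith

lemma be_le {C : ℝ} (hC : 0 ≤ C) (D d : ℕ) : be C D d ≤ (2 * C + 1) * (2 * (D + 1)) ^ d := by
  induction d with
  | zero => simp only [be, pow_zero, mul_one]; linarith
  | succ d ih =>
    simp only [be, pow_succ]
    have h1 : (1 : ℝ) ≤ (2 * (D + 1)) ^ d := one_le_pow₀ (by
      have : (0 : ℝ) ≤ D := Nat.cast_nonneg D
      linarith)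
    have hD : (0 : ℝ) ≤ D := Nat.cast_nonneg D
    set X : ℝ := (2 * ((D : ℝ) + 1)) ^ d with hX
    have h2 : (D : ℝ) * (be C D d + C) ≤ D * ((2 * C + 1) * X + C) := by gcongr
    nlinarith [mul_nonneg hC (by linarith : (0 : ℝ) ≤ X - 1),
      mul_nonneg hD (by linarith : (0 : ℝ) ≤ X - 1),
      mul_nonneg (mul_nonneg hD hC) (by linarith : (0 : ℝ) ≤ X - 1), mul_nonneg hD hC]

/-- **S8.** -/
theorem ris_upper {SS : Set (ℕ → 𝕜)} {C : ℝ} {δ : ℕ → ℝ} {m : ℕ → ℝ} {n : ℕ → ℕ} {j : ℕ}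
    (hC : 1 ≤ C) (hδ0 : ∀ p, 0 ≤ δ p) (hδ : ∀ A : Finset ℕ, ∑ p ∈ A, δ p ≤ 1)
    (hm : ∀ i, m i = 16 ^ (i + 1))
    (hn : m j * (2 * ((∑ i ∈ range j, n i : ℕ) + 1)) ^ (2 * j + 2) ≤ n j)
    (hbd : ∀ s ∈ SS, ∀ p, ‖s p‖ ≤ C) (hst : Struct SS C (2 * C / m j) δ m n j)
    (s : ℕ → 𝕜) (hs : s ∈ SS) (A : Finset ℕ) (hA : A.card ≤ n j) :
    ‖∑ p ∈ A, s p‖ ≤ 8 * C * (n j / m j) := by
  have hm1 : ∀ i, 1 ≤ m i := fun i => by rw [hm]; exact one_le_pow₀ (by norm_num)
  have hmj : 0 < m j := lt_of_lt_of_le one_pos (hm1 j)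
  have hρ : 0 ≤ 2 * C / m j := by positivity
  have hsum : ∑ i ∈ range j, (m i)⁻¹ ≤ 1 / 15 := by
    have : ∀ J, ∑ i ∈ range J, (m i)⁻¹ = 1 / 15 * (1 - 1 / 16 ^ J) := by
      intro J
      induction J with
      | zero => simp
      | succ J ih =>
        rw [Finset.sum_range_succ, ih, hm]
        have : (16 : ℝ) ^ J ≠ 0 := by positivity
        rw [pow_succ]
        field_simp
        ring
    rw [this]
    have : (0 : ℝ) < 1 / 16 ^ j := by positivity
    nlinarith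
  have h := iterate (by linarith) hρ hδ0 hδ hm1 hsum hbd hst (2 * j + 2) s hs A
  have h1 := al_le (C := C) hρ (2 * j + 2)
  have h2 := be_le (C := C) (by linarith) (∑ i ∈ range j, n i) (2 * j + 2)
  have h3 : C / 15 ^ (2 * j + 2) ≤ C / m j := by
    rw [hm]
    gcongr
    calc (16 : ℝ) ^ (j + 1) ≤ 225 ^ (j + 1) := by gcongr; norm_num
      _ = 15 ^ (2 * j + 2) := by
        rw [show 2 * j + 2 = 2 * (j + 1) by ring, pow_mul]; norm_num
  have hAc : (A.card : ℝ) ≤ n j := by exact_mod_cast hA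
  have h4 : al C (2 * C / m j) (2 * j + 2) ≤ 5 * C / m j := by
    have : 2 * (2 * C / m j) = 4 * C / m j := by ring
    have e : 5 * C / m j = C / m j + 4 * C / m j := by ring
    linarith
  have h5 : (2 * ((∑ i ∈ range j, n i : ℕ) + 1 : ℝ)) ^ (2 * j + 2) ≤ n j / m j := by
    rw [le_div_iff₀ hmj, mul_comm]
    exact hn
  have hnj : (0 : ℝ) ≤ n j := Nat.cast_nonneg _
  calc ‖∑ p ∈ A, s p‖
      ≤ al C (2 * C / m j) (2 * j + 2) * A.card + be C (∑ i ∈ range j, n i) (2 * j + 2) := h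
    _ ≤ 5 * C / m j * n j + (2 * C + 1) * (n j / m j) := by
        refine add_le_add (mul_le_mul h4 hAc (Nat.cast_nonneg _) (by positivity)) ?_
        refine h2.trans (mul_le_mul_of_nonneg_left h5 (by linarith))
    _ = (7 * C + 1) * (n j / m j) := by ring
    _ ≤ 8 * C * (n j / m j) := by
        refine mul_le_mul_of_nonneg_right (by linarith) (by positivity)

end Crest.Agent.R114.MRis
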