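import Crest.Agent.R114.Incid
import Crest.Agent.R114.MRis

/-! # Row 114, S0152 (S8): upper estimate for the rapidly increasing sequence. -/

set_option autoImplicit false

open Set Filter

namespace Crest.Agent.R114

variable {I : Type} [LinearOrder I] {c : Coding I} {𝕜 : Type} [RCLike 𝕜]

namespace Ris

open MRis

lemma IsW_smul {i : ℕ} {b : I →₀ ℚ} (hb : IsW (NB c) i b) {q : ℚ} (hq : |q| ≤ 1) :
    IsW (NB c) i (q • b) := by
  obtain ⟨l, h1, h2, h3, rfl⟩ := hb
  refine ⟨l.map (q • ·), by simpa using h1, ?_, ?_, ?_⟩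
  · intro x hx
    obtain ⟨y, hy, rfl⟩ := List.mem_map.1 hx
    exact (h2 y hy).smul hq
  · rw [List.pairwise_map]
    refine h3.imp ?_
    intro x y hxy a ha b hb
    exact hxy a (Finsupp.support_smul ha) b (Finsupp.support_smul hb)
  · rw [smul_comm, List.smul_sum]

lemma exists_common {b : I →₀ ℚ} {f : I →₀ 𝕜} (h : act b f ≠ 0) :
    ∃ a ∈ b.support, a ∈ f.support := by
  by_contra hcon
  push Not at hcon
  exact h (act_eq_zero_of_disjoint hcon)

/-- the class of sequences -/
def SSc (c : Coding I) (G : ℕ → I →₀ 𝕜) (K : ℕ) : Set (ℕ → 𝕜) :=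
  {s | ∃ b, NB c b ∧ s = fun p => act b (G (p + K))}

lemma norm_le_of_NB {u G : ℕ → I →₀ 𝕜} {w : ℕ → ℕ} {C : ℝ} (hC : 1 ≤ C) (hG : GData c u C G w)
    {b : I →₀ ℚ} (hb : NB c b) (p : ℕ) : ‖act b (G p)‖ ≤ C :=
  (norm_act_le hb _).trans (by rw [hG.nrm_eq]; exact hC)

lemma typeA_of_isW {u G : ℕ → I →₀ 𝕜} {w : ℕ → ℕ} {C : ℝ} (hC : 1 ≤ C) (hG : GData c u C G w)
    (K : ℕ) {i : ℕ} {b : I →₀ ℚ} (hb : IsW (NB c) i b) :
    TypeA (SSc c G K) C (mq i) (nq i) (fun p => act b (G (p + K))) := by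
  classical
  have hbNB : NB c b := (NB.closedFam c).wt i b hb
  refine ⟨fun p => norm_le_of_NB hC hG hbNB _, ?_⟩
  obtain ⟨l, h1, h2, h3, rfl⟩ := hb
  have hpw : ∀ (e a : Fin l.length), e < a → SuccF l[e] l[a] := by
    intro e a hea
    exact List.pairwise_iff_getElem.1 h3 e a e.2 a.2 hea
  -- the bad set
  let Dset : Set ℕ := {p | ∃ a a' : Fin l.length, a < a' ∧ act l[a] (G (p + K)) ≠ 0 ∧
    act l[a'] (G (p + K)) ≠ 0}
  have hkey : ∀ p p' : ℕ, p < p' → ∀ (a' e : Fin l.length), act l[a'] (G (p + K)) ≠ 0 →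
      act l[e] (G (p' + K)) ≠ 0 → a' ≤ e := by
    intro p p' hpp a' e ha' he
    by_contra hlt
    push Not at hlt
    obtain ⟨x, hx1, hx2⟩ := exists_common ha'
    obtain ⟨y, hy1, hy2⟩ := exists_common he
    have hxy := hG.block.slt (p + K) (p' + K) (by omega) x hx2 y hy2
    have hyx := hpw e a' hlt y hy1 x hx1
    exact lt_irrefl _ (hxy.trans hyx)
  let first : ℕ → ℕ := fun p => if h : p ∈ Dset then (h.choose : Fin l.length) else 0
  have hfirst : ∀ p (h : p ∈ Dset), ∃ a a' : Fin l.length, first p = a ∧ a < a' ∧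
      act l[a] (G (p + K)) ≠ 0 ∧ act l[a'] (G (p + K)) ≠ 0 := by
    intro p h
    obtain ⟨a', ha'⟩ := h.choose_spec
    exact ⟨h.choose, a', dif_pos h, ha'⟩
  have hinj : Set.InjOn first Dset := by
    have hlt : ∀ p ∈ Dset, ∀ p' ∈ Dset, p < p' → first p < first p' := by
      intro p hp p' hp' hpp
      obtain ⟨a, a', e1, e2, e3, e4⟩ := hfirst p hp
      obtain ⟨a₂, a₂', f1, f2, f3, f4⟩ := hfirst p' hp'
      have := hkey p p' hpp a' a₂ e4 f3
      rw [e1, f1]
      exact_mod_cast lt_of_lt_of_le e2 this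
    intro p hp p' hp' he
    rcases lt_trichotomy p p' with h | h | h
    · exact absurd he (hlt p hp p' hp' h).ne
    · exact h
    · exact absurd he.symm (hlt p' hp' p hp h).ne
  have hmaps : Set.MapsTo first Dset (Finset.range l.length : Set ℕ) := by
    intro p hp
    obtain ⟨a, a', e1, -⟩ := hfirst p hp
    rw [e1]
    simp
  have hfin : Dset.Finite := Set.Finite.of_injOn hmaps hinj (Finset.finite_toSet _)
  have hcard : hfin.toFinset.card ≤ nq i := by
    refine le_trans ?_ h1
    rw [← Finset.card_range l.length]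
    refine Finset.card_le_card_of_injOn first ?_ ?_
    · intro p hp
      exact hmaps (by simpa using hp)
    · intro p hp p' hp' he
      exact hinj (by simpa using hp) (by simpa using hp') he
  let idx : ℕ → ℕ := fun p => if h : ∃ a : Fin l.length, act l[a] (G (p + K)) ≠ 0 then
    (h.choose : Fin l.length) else 0
  refine ⟨hfin.toFinset, fun a => if h : a < l.length then fun p => act l[a] (G (p + K)) else
    fun p => act 0 (G (p + K)), idx, hcard, ?_, ?_⟩
  · intro a _
    dsimp only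
    split_ifs with h
    · exact ⟨l[a], h2 _ (List.getElem_mem h), rfl⟩
    · exact ⟨0, NB.zero c, rfl⟩
  · intro p hp
    have hp' : p ∉ Dset := by simpa using hp
    by_cases h : ∃ a : Fin l.length, act l[a] (G (p + K)) ≠ 0
    · left
      have hidx : idx p = (h.choose : Fin l.length) := dif_pos h
      have hne := h.choose_spec
      set a₀ : Fin l.length := h.choose with ha₀
      refine ⟨by rw [hidx]; exact a₀.2.trans_le h1, ?_⟩
      have hz : ∀ a : Fin l.length, a ≠ a₀ → act l[a] (G (p + K)) = 0 := by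
        intro a ha
        by_contra hane
        apply hp'
        rcases lt_or_gt_of_ne ha with h' | h'
        · exact ⟨a, a₀, h', hane, hne⟩
        · exact ⟨a₀, a, h', hne, hane⟩
      have hsum : act l.sum (G (p + K)) = act l[a₀] (G (p + K)) := by
        rw [act_list_sum_left, ← Fin.sum_univ_fun_getElem l (fun b => act b (G (p + K)))]
        exact Finset.sum_eq_single a₀ (fun a _ ha => hz a ha) (by simp)
      beta_reduce
      rw [hidx, dif_pos a₀.2, act_smul_left, hsum]
      have : (((((mq i : ℚ))⁻¹ : ℚ)) : 𝕜) = ((((mq i : ℕ) : ℝ)⁻¹ : ℝ) : 𝕜) := by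
        push_cast
        rfl
      rw [this]
      simp
    · right
      push Not at h
      beta_reduce
      have hz : ∑ a : Fin l.length, act l[a.1] (G (p + K)) = 0 :=
        Finset.sum_eq_zero fun a _ => h a
      rw [act_smul_left, act_list_sum_left,
        ← Fin.sum_univ_fun_getElem l (fun b => act b (G (p + K))), hz, mul_zero]

/-- weak form of `GData.window` -/
lemma window_weak {u G : ℕ → I →₀ 𝕜} {w : ℕ → ℕ} {C : ℝ} (hG : GData c u C G w) (p : ℕ)
    (L : SList I) (E : Set I) (J : Set ℕ) (hL : IsSpecial c (NB c) L)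
    (hE : E.OrdConnected) (hJ : J.OrdConnected) (hJw : J ⊆ Ioc (w p) (w (p + 1))) :
    ‖act (piece L E J) (G p)‖ * (w p + 1) ≤ (1 / 2 : ℝ) ^ p :=
  (hG.window p L E J hL hE hJ hJw).trans
    (pow_le_pow_of_le_one (by norm_num) (by norm_num) (Nat.le_add_right p 2))

/-- weak form of `GData.large` -/
lemma large_weak {u G : ℕ → I →₀ 𝕜} {w : ℕ → ℕ} {C : ℝ} (hG : GData c u C G w) (p : ℕ) :
    2 * l1 (G p) ≤ (1 / 2 : ℝ) ^ p * mq (w (p + 1) + 1) :=
  (hG.large p).trans (mul_le_mul_of_nonneg_right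
    (pow_le_pow_of_le_one (by norm_num) (by norm_num) (Nat.le_add_right p 2)) (by positivity))

/-- the case of a weighted functional of large index -/
lemma rest_of_isW {u G : ℕ → I →₀ 𝕜} {w : ℕ → ℕ} {C : ℝ} (hC : 1 ≤ C) (hG : GData c u C G w)
    {j i : ℕ} (hij : j ≤ i) {b : I →₀ ℚ} (hb : IsW (NB c) i b) (P : ℕ)
    (hP : ¬ (w P < i ∧ i ≤ w (P + 1))) :
    ‖act b (G P)‖ ≤ 2 * C / mq j + 2 * (1 / 2 : ℝ) ^ P := by
  have hmono : ∀ {a b : ℕ}, a ≤ b → (mq a : ℝ) ≤ mq b := by
    intro a b hab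
    unfold mq
    push_cast
    exact pow_le_pow_right₀ (by norm_num) (by omega)
  have hpos : ∀ a, (0 : ℝ) < mq a := by intro a; unfold mq; positivity
  have hhalf : (0 : ℝ) < (1 / 2 : ℝ) ^ P := by positivity
  rcases le_or_gt i (w P) with h | h
  · have h1 := hG.small P i b h hb
    have h2 : C / mq i ≤ 2 * C / mq j := by
      rw [div_le_div_iff₀ (hpos i) (hpos j)]
      have := hmono hij
      nlinarith [hpos i, hpos j]
    linarith
  · have h' : w (P + 1) + 1 ≤ i := by
      by_contra hcon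
      exact hP ⟨h, by omega⟩
    have h1 := large_weak hG P
    have h2 : ‖act b (G P)‖ ≤ (mq i : ℝ)⁻¹ * l1 (G P) := by
      refine norm_act_le_l1 (G P) fun a => ?_
      have := hb.abs_le a
      have h3 : (|b a| : ℝ) ≤ ((((mq i : ℚ))⁻¹ : ℚ) : ℝ) := by exact_mod_cast this
      refine h3.trans (le_of_eq ?_)
      push_cast
      rfl
    have h3 : (mq i : ℝ)⁻¹ * l1 (G P) ≤ 2 * (1 / 2 : ℝ) ^ P := by
      rw [inv_mul_le_iff₀ (hpos i)]
      have h4 := hmono h'
      have h5 := l1_nonneg (G P)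
      nlinarith [hpos i, mul_le_mul_of_nonneg_left h4 hhalf.le]
    have h4 : (0 : ℝ) ≤ 2 * C / mq j := by
      have := hpos j
      positivity
    linarith

lemma IsW_zero (c : Coding I) (i : ℕ) : IsW (NB c) i (0 : I →₀ ℚ) :=
  ⟨[], by simp, by simp, by simp, by simp⟩

/-- flattening of a `Ψ`-functional -/
lemma psi_struct {n : ℕ} {ε : Fin n → ℚ} {L : Fin n → SList I} {E : Fin n → Set I}
    {J : Fin n → Set ℕ} (hε : ∀ u, |ε u| ≤ 1) (hL : ∀ u, IsSpecial c (NB c) (L u))
    (hE : ∀ u, (E u).OrdConnected)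
    (hn : ∀ u, ∀ p ∈ L u, p.2 ∈ J u → n ≤ p.2)
    (hd : ∀ u v, u ≠ v → ∀ p ∈ L u, ∀ q ∈ L v, p.2 ∈ J u → q.2 ∈ J v → p.2 ≠ q.2) :
    ∃ (U : Finset ℕ) (y : ℕ → I →₀ ℚ), (∀ i ∈ U, IsW (NB c) i (y i)) ∧ (∀ i ∈ U, n ≤ i) ∧
      ∀ (J' : Set ℕ) [DecidablePred (· ∈ J')], ∑ i ∈ U.filter (· ∈ J'), y i =
        ∑ u, ε u • piece (L u) (E u) (J u ∩ J') := by
  classical
  obtain ⟨T, x, hT, hdis, hpc⟩ := psi_flatten hL hd
  let y : ℕ → I →₀ ℚ := fun i => ∑ v, if i ∈ T v then ε v • Crest.Agent.R114.cut (E v) (x v i)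
    else 0
  refine ⟨Finset.univ.biUnion T, y, ?_, ?_, ?_⟩
  · intro i hi
    obtain ⟨v, -, hv⟩ := Finset.mem_biUnion.1 hi
    have hy : y i = ε v • Crest.Agent.R114.cut (E v) (x v i) := by
      have h1 : ∀ w, w ≠ v → i ∉ T w := fun w hw hiw =>
        (Finset.disjoint_left.1 (hdis w v hw) hiw) hv
      simp only [y]
      rw [Finset.sum_eq_single v (fun w _ hw => if_neg (h1 w hw)) (by simp), if_pos hv]
    rw [hy]
    exact IsW_smul (((hL v).wt _ (hT v i hv).1).cut (hE v)) (hε v)
  · intro i hi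
    obtain ⟨v, -, hv⟩ := Finset.mem_biUnion.1 hi
    exact hn v _ (hT v i hv).1 (hT v i hv).2
  · intro J' _
    have h1 : ∀ v, piece (L v) (E v) (J v ∩ J') = ∑ i ∈ (T v).filter (· ∈ J'),
        Crest.Agent.R114.cut (E v) (x v i) := by
      intro v
      rw [hpc v (E v) (J v ∩ J') inter_subset_left]
      refine Finset.sum_congr ?_ fun _ _ => rfl
      ext i
      simp only [Finset.mem_filter, mem_inter_iff]
      constructor
      · rintro ⟨h1, h2, h3⟩; exact ⟨h1, h3⟩
      · rintro ⟨h1, h2⟩; exact ⟨h1, (hT v i h1).2, h2⟩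
    simp only [h1, Finset.smul_sum]
    simp only [y]
    rw [Finset.sum_comm]
    refine Finset.sum_congr rfl fun v _ => ?_
    rw [← Finset.sum_filter]
    refine Finset.sum_congr ?_ fun _ _ => rfl
    ext i
    simp only [Finset.mem_filter, Finset.mem_biUnion, Finset.mem_univ, true_and]
    constructor
    · rintro ⟨⟨-, h2⟩, h3⟩; exact ⟨h3, h2⟩
    · rintro ⟨h1, h2⟩; exact ⟨⟨⟨v, h1⟩, h2⟩, h1⟩

lemma abs_le_real {i : ℕ} {b : I →₀ ℚ} (hb : IsW (NB c) i b) (a : I) :
    |b a| ≤ ((mq i : ℚ))⁻¹ := hb.abs_le a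

/-- decomposition of the norming functionals relative to the level `j` -/
lemma struct_aux {u G : ℕ → I →₀ 𝕜} {w : ℕ → ℕ} {C : ℝ} (hC : 1 ≤ C) (hG : GData c u C G w)
    (j : ℕ) {b : I →₀ ℚ} (hb : NB c b) :
    ∃ (y : ℕ → I →₀ ℚ) (b' : I →₀ ℚ) (P0 : ℕ), (∀ i, IsW (NB c) i (y i)) ∧ NB c b' ∧
      (∀ f : I →₀ 𝕜, act b f = ∑ i ∈ Finset.range j, act (y i) f + act b' f) ∧
      ∀ P, P ≠ P0 → ‖act b' (G P)‖ ≤ 2 * C / mq j + 2 * (1 / 2 : ℝ) ^ P := by
  classical
  have hpos : ∀ a, (0 : ℝ) < mq a := by intro a; unfold mq; positivity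
  have hρ : (0 : ℝ) ≤ 2 * C / mq j := by
    have := hpos j
    positivity
  rcases hb.cases with ⟨a, q, hq, rfl⟩ | ⟨i, hi⟩ | hpsi
  · -- unit
    have hP0 : ∃ P0, ∀ P, P ≠ P0 → G P a = 0 := by
      by_cases h : ∃ P, G P a ≠ 0
      · obtain ⟨P, hP⟩ := h
        refine ⟨P, fun P' hP' => ?_⟩
        by_contra hne
        rcases lt_or_gt_of_ne hP' with h | h
        · exact lt_irrefl a (hG.block.slt P' P h a (Finsupp.mem_support_iff.2 hne) a
            (Finsupp.mem_support_iff.2 hP))
        · exact lt_irrefl a (hG.block.slt P P' h a (Finsupp.mem_support_iff.2 hP) a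
            (Finsupp.mem_support_iff.2 hne))
      · push Not at h
        exact ⟨0, fun P _ => h P⟩
    obtain ⟨P0, hP0⟩ := hP0
    refine ⟨fun _ => 0, Finsupp.single a q, P0, fun i => IsW_zero c i, hb, ?_, ?_⟩
    · intro f
      simp [act_zero_left]
    · intro P hP
      rw [act_single_left, hP0 P hP, mul_zero, norm_zero]
      positivity
  · rcases lt_or_ge i j with hij | hij
    · refine ⟨fun i' => if i' = i then b else 0, 0, 0, ?_, NB.zero c, ?_, ?_⟩
      · intro i'
        dsimp only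
        split_ifs with h
        · rw [h]; exact hi
        · exact IsW_zero c i'
      · intro f
        rw [act_zero_left, add_zero, Finset.sum_eq_single i]
        · beta_reduce
          rw [if_pos rfl]
        · intro i' _ h
          beta_reduce
          rw [if_neg h, act_zero_left]
        · intro h
          exact absurd (Finset.mem_range.2 hij) h
      · intro P _
        rw [act_zero_left, norm_zero]
        positivity
    · have hP0 : ∃ P0, ∀ P, P ≠ P0 → ¬ (w P < i ∧ i ≤ w (P + 1)) := by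
        by_cases h : ∃ P, w P < i ∧ i ≤ w (P + 1)
        · obtain ⟨P, hP1, hP2⟩ := h
          refine ⟨P, fun P' hP' ⟨h1, h2⟩ => hP' ?_⟩
          have h3 : P' < P + 1 := hG.w_mono.lt_iff_lt.1 (h1.trans_le hP2)
          have h4 : P < P' + 1 := hG.w_mono.lt_iff_lt.1 (hP1.trans_le h2)
          omega
        · push Not at h
          exact ⟨0, fun P _ ⟨h1, h2⟩ => absurd h2 (by have := h P h1; omega)⟩
      obtain ⟨P0, hP0⟩ := hP0
      refine ⟨fun _ => 0, b, P0, fun i => IsW_zero c i, hb, ?_, ?_⟩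
      · intro f
        simp [act_zero_left]
      · intro P hP
        exact rest_of_isW hC hG hij hi P (hP0 P hP)
  · obtain ⟨n, ε, L, E, J, hε, hL, hE, hJ, hn, hd, rfl⟩ := hpsi
    obtain ⟨U, y, hy, hUn, hyJ⟩ := psi_struct (c := c) hε hL hE hn hd
    have htot : ∑ i ∈ U, y i = ∑ u, ε u • piece (L u) (E u) (J u) := by
      have := hyJ univ
      simpa using this
    have hj : ∑ i ∈ U.filter (· ∈ Ici j), y i =
        ∑ u, ε u • piece (L u) (E u) (J u ∩ Ici j) := hyJ (Ici j)
    have hNB' : NB c (∑ i ∈ U.filter (· ∈ Ici j), y i) := by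
      rw [hj]
      refine (NB.closedFam c).psi _ ⟨n, ε, L, E, fun u => J u ∩ Ici j, hε, hL, hE,
        fun u => (hJ u).inter ordConnected_Ici, fun u p hp hpJ => hn u p hp hpJ.1,
        fun u v huv p hp q hq h1 h2 => hd u v huv p hp q hq h1.1 h2.1, rfl⟩
    have hP0 : ∃ P0, ∀ P, P ≠ P0 → ¬ (w P < n ∧ n ≤ w (P + 1)) := by
      by_cases h : ∃ P, w P < n ∧ n ≤ w (P + 1)
      · obtain ⟨P, hP1, hP2⟩ := h
        refine ⟨P, fun P' hP' ⟨h1, h2⟩ => hP' ?_⟩
        have h3 : P' < P + 1 := hG.w_mono.lt_iff_lt.1 (h1.trans_le hP2)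
        have h4 : P < P' + 1 := hG.w_mono.lt_iff_lt.1 (hP1.trans_le h2)
        omega
      · push Not at h
        exact ⟨0, fun P _ ⟨h1, h2⟩ => absurd h2 (by have := h P h1; omega)⟩
    obtain ⟨P0, hP0⟩ := hP0
    refine ⟨fun i => if i ∈ U then y i else 0, ∑ i ∈ U.filter (· ∈ Ici j), y i, P0, ?_, hNB',
      ?_, ?_⟩
    · intro i
      dsimp only
      split_ifs with h
      · exact hy i h
      · exact IsW_zero c i
    · intro f
      rw [← htot, act_sum_left, act_sum_left]
      rw [← Finset.sum_filter_add_sum_filter_not U (· < j)]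
      congr 1
      · rw [Finset.sum_filter]
        have : ∀ i ∈ Finset.range j, act (if i ∈ U then y i else 0) f =
            if i ∈ U then act (y i) f else 0 := by
          intro i _
          split_ifs
          · rfl
          · exact act_zero_left f
        rw [Finset.sum_congr rfl this, ← Finset.sum_filter, ← Finset.sum_filter]
        refine Finset.sum_congr ?_ fun _ _ => rfl
        ext i
        simp only [Finset.mem_filter, Finset.mem_range]
        tauto
      · refine Finset.sum_congr ?_ fun _ _ => rfl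
        ext i
        simp only [Finset.mem_filter, mem_Ici, not_lt]
    · intro P hP
      have hbad := hP0 P hP
      have hhalf : (0 : ℝ) < (1 / 2 : ℝ) ^ P := by positivity
      rw [act_sum_left]
      -- small indices
      have hS1 : ‖∑ i ∈ U.filter (fun i => j ≤ i ∧ i ≤ w P), act (y i) (G P)‖ ≤
          2 * C / mq j := by
        refine (norm_sum_le _ _).trans ?_
        have h1 : ∀ i ∈ U.filter (fun i => j ≤ i ∧ i ≤ w P), ‖act (y i) (G P)‖ ≤
            C * ((mq i : ℝ))⁻¹ := by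
          intro i hi
          rw [Finset.mem_filter] at hi
          have := hG.small P i (y i) hi.2.2 (hy i hi.1)
          rwa [div_eq_mul_inv] at this
        refine (Finset.sum_le_sum h1).trans ?_
        rw [← Finset.mul_sum]
        have h2 := sum_inv_mq_le j (U.filter (fun i => j ≤ i ∧ i ≤ w P)) (by
          intro i hi
          rw [Finset.mem_filter] at hi
          exact hi.2.1)
        have h3 : C * ∑ i ∈ U.filter (fun i => j ≤ i ∧ i ≤ w P), ((mq i : ℝ))⁻¹ ≤
            C * (2 * ((mq j : ℝ))⁻¹) := mul_le_mul_of_nonneg_left h2 (by linarith)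
        refine h3.trans (le_of_eq ?_)
        rw [div_eq_mul_inv]; ring
      -- window
      have hS2 : ‖∑ i ∈ U.filter (fun i => j ≤ i ∧ i ∈ Ioc (w P) (w (P + 1))),
          act (y i) (G P)‖ ≤ (1 / 2 : ℝ) ^ P := by
        rcases lt_or_ge (w P) n with hnw | hnw
        · have hn2 : w (P + 1) < n := by
            by_contra hcon
            exact hbad ⟨hnw, by omega⟩
          rw [Finset.sum_eq_zero, norm_zero]
          · exact hhalf.le
          · intro i hi
            rw [Finset.mem_filter] at hi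
            have h1 := hUn i hi.1
            have h2 := hi.2.2.2
            omega
        · have h1 : ∑ i ∈ U.filter (fun i => j ≤ i ∧ i ∈ Ioc (w P) (w (P + 1))),
              act (y i) (G P) = ∑ u, (ε u : 𝕜) *
                act (piece (L u) (E u) (J u ∩ (Ici j ∩ Ioc (w P) (w (P + 1))))) (G P) := by
            rw [← act_sum_left]
            have h2 := hyJ (Ici j ∩ Ioc (w P) (w (P + 1)))
            have h3 : U.filter (fun i => j ≤ i ∧ i ∈ Ioc (w P) (w (P + 1))) =
                U.filter (· ∈ Ici j ∩ Ioc (w P) (w (P + 1))) := by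
              ext i
              simp only [Finset.mem_filter, mem_inter_iff, mem_Ici]
            rw [h3, h2, act_sum_left]
            exact Finset.sum_congr rfl fun u _ => act_smul_left _ _ _
          rw [h1]
          refine (norm_sum_le _ _).trans ?_
          have h2 : ∀ v ∈ (Finset.univ : Finset (Fin n)), ‖(ε v : 𝕜) *
              act (piece (L v) (E v) (J v ∩ (Ici j ∩ Ioc (w P) (w (P + 1))))) (G P)‖ ≤
              (1 / 2 : ℝ) ^ P / (w P + 1) := by
            intro v _
            rw [norm_mul]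
            have h3 : ‖(ε v : 𝕜)‖ ≤ 1 := by
              have : ((ε v : ℚ) : 𝕜) = (((ε v : ℚ) : ℝ) : 𝕜) := by norm_cast
              rw [this, RCLike.norm_ofReal]
              exact_mod_cast hε v
            have h4 := window_weak hG P (L v) (E v) (J v ∩ (Ici j ∩ Ioc (w P) (w (P + 1)))) (hL v)
              (hE v) ((hJ v).inter (ordConnected_Ici.inter ordConnected_Ioc))
              (inter_subset_right.trans inter_subset_right)
            rw [le_div_iff₀ (by positivity)]
            calc ‖(ε v : 𝕜)‖ * ‖act (piece (L v) (E v) (J v ∩ (Ici j ∩ Ioc (w P) (w (P + 1)))))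
                  (G P)‖ * (w P + 1)
                ≤ 1 * ‖act (piece (L v) (E v) (J v ∩ (Ici j ∩ Ioc (w P) (w (P + 1)))))
                  (G P)‖ * (w P + 1) := by gcongr
              _ ≤ (1 / 2 : ℝ) ^ P := by rw [one_mul]; exact h4
          refine (Finset.sum_le_sum h2).trans ?_
          rw [Finset.sum_const, Finset.card_univ, Fintype.card_fin, nsmul_eq_mul]
          have h5 : (n : ℝ) ≤ w P + 1 := by
            have : (n : ℝ) ≤ w P := by exact_mod_cast hnw
            linarith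
          have h6 : (0 : ℝ) < w P + 1 := by positivity
          rw [mul_div_assoc', div_le_iff₀ h6]
          nlinarith
      -- large indices
      have hS3 : ‖∑ i ∈ U.filter (fun i => j ≤ i ∧ w (P + 1) + 1 ≤ i), act (y i) (G P)‖ ≤
          (1 / 2 : ℝ) ^ P := by
        refine (norm_sum_le _ _).trans ?_
        have h1 := act_large (𝕜 := 𝕜) (w (P + 1) + 1)
          (U.filter (fun i => j ≤ i ∧ w (P + 1) + 1 ≤ i)) (by
            intro i hi
            rw [Finset.mem_filter] at hi
            exact hi.2.2) y (by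
            intro i hi a
            rw [Finset.mem_filter] at hi
            exact (hy i hi.1).abs_le a) (G P)
        refine h1.trans ?_
        have h2 := large_weak hG P
        have h3 := hpos (w (P + 1) + 1)
        rw [div_mul_eq_mul_div, div_le_iff₀ h3]
        exact h2
      have hsplit : ∑ i ∈ U.filter (· ∈ Ici j), act (y i) (G P) =
          ∑ i ∈ U.filter (fun i => j ≤ i ∧ i ≤ w P), act (y i) (G P) +
          (∑ i ∈ U.filter (fun i => j ≤ i ∧ i ∈ Ioc (w P) (w (P + 1))), act (y i) (G P) +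
          ∑ i ∈ U.filter (fun i => j ≤ i ∧ w (P + 1) + 1 ≤ i), act (y i) (G P)) := by
        have hlt : w P < w (P + 1) := hG.w_mono (Nat.lt_succ_self P)
        rw [← Finset.sum_union, ← Finset.sum_union]
        · refine Finset.sum_congr ?_ fun _ _ => rfl
          ext i
          simp only [Finset.mem_filter, Finset.mem_union, mem_Ici, mem_Ioc]
          constructor
          · rintro ⟨h1, h2⟩
            by_cases h3 : i ≤ w P
            · exact Or.inl ⟨h1, h2, h3⟩
            · by_cases h4 : i ≤ w (P + 1)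
              · exact Or.inr (Or.inl ⟨h1, h2, by omega, h4⟩)
              · exact Or.inr (Or.inr ⟨h1, h2, by omega⟩)
          · rintro (⟨h1, h2, -⟩ | ⟨h1, h2, -⟩ | ⟨h1, h2, -⟩) <;> exact ⟨h1, h2⟩
        · rw [Finset.disjoint_left]
          intro i h1 h2
          simp only [Finset.mem_filter, Finset.mem_union, mem_Ioc] at h1 h2
          omega
        · rw [Finset.disjoint_left]
          intro i h1 h2
          simp only [Finset.mem_filter, mem_Ioc] at h1 h2
          omega
      rw [hsplit]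
      refine (norm_add_le _ _).trans ?_
      have := norm_add_le
        (∑ i ∈ U.filter (fun i => j ≤ i ∧ i ∈ Ioc (w P) (w (P + 1))), act (y i) (G P))
        (∑ i ∈ U.filter (fun i => j ≤ i ∧ w (P + 1) + 1 ≤ i), act (y i) (G P))
      linarith

/-- the final estimate of `MRis.ris_upper` with the constant `7 C + 1` -/
theorem ris_upper_strong {SS : Set (ℕ → 𝕜)} {C : ℝ} {δ : ℕ → ℝ} {m : ℕ → ℝ} {n : ℕ → ℕ} {j : ℕ}
    (hC : 1 ≤ C) (hδ0 : ∀ p, 0 ≤ δ p) (hδ : ∀ A : Finset ℕ, ∑ p ∈ A, δ p ≤ 1)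
    (hm : ∀ i, m i = 16 ^ (i + 1))
    (hn : m j * (2 * ((∑ i ∈ Finset.range j, n i : ℕ) + 1)) ^ (2 * j + 2) ≤ n j)
    (hbd : ∀ s ∈ SS, ∀ p, ‖s p‖ ≤ C) (hst : Struct SS C (2 * C / m j) δ m n j)
    (s : ℕ → 𝕜) (hs : s ∈ SS) (A : Finset ℕ) (hA : A.card ≤ n j) :
    ‖∑ p ∈ A, s p‖ ≤ (7 * C + 1) * (n j / m j) := by
  have hm1 : ∀ i, 1 ≤ m i := fun i => by rw [hm]; exact one_le_pow₀ (by norm_num)
  have hmj : 0 < m j := lt_of_lt_of_le one_pos (hm1 j)
  have hρ : 0 ≤ 2 * C / m j := by positivity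
  have hsum : ∑ i ∈ Finset.range j, (m i)⁻¹ ≤ 1 / 15 := by
    have : ∀ J, ∑ i ∈ Finset.range J, (m i)⁻¹ = 1 / 15 * (1 - 1 / 16 ^ J) := by
      intro J
      induction J with
      | zero => simp
      | succ J ih =>
        rw [Finset.sum_range_succ, ih, hm]
        have : (16 : ℝ) ^ J ≠ 0 := by positivity
        rw [pow_succ]
        field_simp
        ring
    rw [this]
    have : (0 : ℝ) < 1 / 16 ^ j := by positivity
    nlinarith
  have h := iterate (by linarith) hρ hδ0 hδ hm1 hsum hbd hst (2 * j + 2) s hs A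
  have h1 := al_le (C := C) hρ (2 * j + 2)
  have h2 := be_le (C := C) (by linarith) (∑ i ∈ Finset.range j, n i) (2 * j + 2)
  have h3 : C / 15 ^ (2 * j + 2) ≤ C / m j := by
    rw [hm]
    gcongr
    calc (16 : ℝ) ^ (j + 1) ≤ 225 ^ (j + 1) := by gcongr; norm_num
      _ = 15 ^ (2 * j + 2) := by
        rw [show 2 * j + 2 = 2 * (j + 1) by ring, pow_mul]; norm_num
  have hAc : (A.card : ℝ) ≤ n j := by exact_mod_cast hA
  have h4 : al C (2 * C / m j) (2 * j + 2) ≤ 5 * C / m j := by
    have : 2 * (2 * C / m j) = 4 * C / m j := by ring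
    have e : 5 * C / m j = C / m j + 4 * C / m j := by ring
    linarith
  have h5 : (2 * ((∑ i ∈ Finset.range j, n i : ℕ) + 1 : ℝ)) ^ (2 * j + 2) ≤ n j / m j := by
    rw [le_div_iff₀ hmj, mul_comm]
    exact hn
  have hnj : (0 : ℝ) ≤ n j := Nat.cast_nonneg _
  calc ‖∑ p ∈ A, s p‖
      ≤ al C (2 * C / m j) (2 * j + 2) * A.card +
        be C (∑ i ∈ Finset.range j, n i) (2 * j + 2) := h
    _ ≤ 5 * C / m j * n j + (2 * C + 1) * (n j / m j) := by
        refine add_le_add (mul_le_mul h4 hAc (Nat.cast_nonneg _) (by positivity)) ?_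
        refine h2.trans (mul_le_mul_of_nonneg_left h5 (by linarith))
    _ = (7 * C + 1) * (n j / m j) := by ring

lemma sum_delta_le (K : ℕ) (hK : 3 ≤ K) (A : Finset ℕ) :
    ∑ p ∈ A, 2 * (1 / 2 : ℝ) ^ (p + K) ≤ 1 := by
  have h1 : ∑ p ∈ A, 2 * (1 / 2 : ℝ) ^ (p + K) ≤ ∑ p ∈ A, (1 / 2) * (1 / 2 : ℝ) ^ p := by
    refine Finset.sum_le_sum fun p _ => ?_
    rw [pow_add]
    have h2 : (1 / 2 : ℝ) ^ K ≤ (1 / 2 : ℝ) ^ 3 :=
      pow_le_pow_of_le_one (by norm_num) (by norm_num) hK
    have h3 : (0 : ℝ) < (1 / 2 : ℝ) ^ p := by positivity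
    nlinarith
  refine h1.trans ?_
  rw [← Finset.mul_sum]
  have h2 : ∑ p ∈ A, (1 / 2 : ℝ) ^ p ≤ 2 := by
    have hs := summable_geometric_two
    have := hs.sum_le_tsum A (fun p _ => by positivity)
    rwa [tsum_geometric_two] at this
  linarith

end Ris

open Ris MRis in
theorem ris_norm {u G : ℕ → I →₀ 𝕜} {w : ℕ → ℕ} {C : ℝ} (hC : 2 ≤ C) (hG : GData c u C G w)
    (j : ℕ) (A : Finset ℕ) (hA : ∀ p ∈ A, j ≤ p) (hcard : A.card ≤ nq j) :
    nrm c (∑ p ∈ A, G p) ≤ 8 * C * (nq j / mq j) := by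
  classical
  have hC1 : 1 ≤ C := by linarith
  have hpos : ∀ a, (0 : ℝ) < mq a := by intro a; unfold mq; positivity
  set K := j + 3 with hK
  have hmq : ∀ i, (fun i => (mq i : ℝ)) i = 16 ^ (i + 1) := by
    intro i; simp [mq]
  have hbd : ∀ s ∈ SSc c G K, ∀ p, ‖s p‖ ≤ C := by
    rintro s ⟨b, hb, rfl⟩ p
    exact norm_le_of_NB hC1 hG hb _
  have hst : Struct (SSc c G K) C (2 * C / (fun i => (mq i : ℝ)) j)
      (fun p => 2 * (1 / 2 : ℝ) ^ (p + K)) (fun i => (mq i : ℝ)) nq j := by
    rintro s ⟨b, hb, rfl⟩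
    obtain ⟨y, b', P0, hy, hb', hsum, hrest⟩ := struct_aux hC1 hG j hb
    refine ⟨fun i p => act (y i) (G (p + K)), fun p => act b' (G (p + K)), ?_, ?_, ?_, P0 - K, ?_⟩
    · intro p
      exact hsum _
    · intro i _
      exact typeA_of_isW hC1 hG K (hy i)
    · intro p
      exact norm_le_of_NB hC1 hG hb' _
    · intro p hp
      exact hrest (p + K) (by omega)
  have hgr := nq_growth j
  refine nrm_le fun b hb => ?_
  rw [act_sum, ← Finset.sum_filter_add_sum_filter_not A (· < K)]
  refine (norm_add_le _ _).trans ?_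
  have h1 : ‖∑ p ∈ A.filter (· < K), act b (G p)‖ ≤ 3 := by
    refine (norm_sum_le _ _).trans ?_
    have h2 : ∀ p ∈ A.filter (· < K), ‖act b (G p)‖ ≤ 1 := fun p _ =>
      (norm_act_le hb _).trans (hG.nrm_eq p).le
    refine (Finset.sum_le_sum h2).trans ?_
    rw [Finset.sum_const, nsmul_eq_mul, mul_one]
    have h3 : (A.filter (· < K)).card ≤ 3 := by
      have : A.filter (· < K) ⊆ Finset.Ico j (j + 3) := by
        intro p hp
        rw [Finset.mem_filter] at hp
        rw [Finset.mem_Ico]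
        exact ⟨hA p hp.1, hp.2⟩
      refine (Finset.card_le_card this).trans ?_
      simp
    exact_mod_cast h3
  have h2 : ‖∑ p ∈ A.filter (fun p => ¬ p < K), act b (G p)‖ ≤
      (7 * C + 1) * (nq j / mq j) := by
    have himg : ∑ p ∈ A.filter (fun p => ¬ p < K), act b (G p) =
        ∑ p ∈ (A.filter (fun p => ¬ p < K)).image (· - K), act b (G (p + K)) := by
      rw [Finset.sum_image]
      · refine Finset.sum_congr rfl fun p hp => ?_
        rw [Finset.mem_filter] at hp
        have : p - K + K = p := by omega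
        rw [this]
      · intro p hp p' hp' he
        have h3 : p ∈ A.filter (fun p => ¬ p < K) := hp
        have h4 : p' ∈ A.filter (fun p => ¬ p < K) := hp'
        rw [Finset.mem_filter] at h3 h4
        dsimp only at he
        omega
    rw [himg]
    have := ris_upper_strong (SS := SSc c G K) (C := C)
      (δ := fun p => 2 * (1 / 2 : ℝ) ^ (p + K)) (m := fun i => (mq i : ℝ)) (n := nq) (j := j)
      hC1 (fun p => by positivity) (sum_delta_le K (by omega)) hmq hgr hbd hst
      (fun p => act b (G (p + K))) ⟨b, hb, rfl⟩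
      ((A.filter (fun p => ¬ p < K)).image (· - K))
      (Finset.card_image_le.trans ((Finset.card_le_card (Finset.filter_subset _ _)).trans hcard))
    exact this
  have h3 : (3 : ℝ) ≤ nq j / mq j := by
    rw [le_div_iff₀ (hpos j)]
    have h4 : 3 * mq j ≤ nq j := by
      rw [nq_eq, mul_comm]
      refine Nat.mul_le_mul_left _ ?_
      calc 3 ≤ 10 ^ 1 := by norm_num
        _ ≤ 10 ^ (4 * j + 6) := Nat.pow_le_pow_right (by norm_num) (by omega)
        _ ≤ ((j + 2) * nprev j + 10) ^ (4 * j + 6) := Nat.pow_le_pow_left (by omega) _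
    exact_mod_cast h4
  nlinarith

end Crest.Agent.R114
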