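import Crest.Agent.R114.YSeq
import Crest.Agent.R114.GSeq
import Crest.Agent.R114.RisNorm

/-! # Row 114, S0152 (S9): the main lemma. -/

set_option autoImplicit false

open Set Filter

namespace Crest.Agent.R114

variable {I : Type} [LinearOrder I] {c : Coding I} {𝕜 : Type} [RCLike 𝕜]

/-- order-connected hull of a finite set -/
def hullF (s : Finset I) : Set I := {a | (∃ x ∈ s, x ≤ a) ∧ ∃ y ∈ s, a ≤ y}

lemma hullF_ordConnected (s : Finset I) : (hullF s).OrdConnected := by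
  refine ⟨fun a ha b hb z hz => ⟨?_, ?_⟩⟩
  · obtain ⟨x, hx, hxa⟩ := ha.1
    exact ⟨x, hx, hxa.trans hz.1⟩
  · obtain ⟨y, hy, hby⟩ := hb.2
    exact ⟨y, hy, hz.2.trans hby⟩

lemma subset_hullF (s : Finset I) : (s : Set I) ⊆ hullF s :=
  fun a ha => ⟨⟨a, ha, le_rfl⟩, ⟨a, ha, le_rfl⟩⟩

lemma hullF_lt {s t : Finset I} (h : SLt s t) {a b : I} (ha : a ∈ hullF s) (hb : b ∈ hullF t) :
    a < b := by
  obtain ⟨y, hy, hay⟩ := ha.2
  obtain ⟨x, hx, hxb⟩ := hb.1
  exact (hay.trans_lt (h y hy x hx)).trans_le hxb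

omit [LinearOrder I] in
lemma tailSpan_anti (u : ℕ → I →₀ 𝕜) {N M : ℕ} (h : N ≤ M) : tailSpan u M ≤ tailSpan u N :=
  Submodule.span_mono (image_mono (Ici_subset_Ici.2 h))

lemma IsBlockSeq.hull_disj {G : ℕ → I →₀ 𝕜} (hG : IsBlockSeq G) {p q : ℕ} (h : p ≠ q) {a : I}
    (ha : a ∈ hullF (G p).support) (hb : a ∈ hullF (G q).support) : False := by
  rcases lt_or_gt_of_ne h with h | h
  · exact lt_irrefl a (hullF_lt (hG.slt p q h) ha hb)
  · exact lt_irrefl a (hullF_lt (hG.slt q p h) hb ha)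

lemma actSeq_smul (t : ℕ → (I →₀ ℚ) × ℕ) (z : 𝕜) (f : I →₀ 𝕜) :
    actSeq t (z • f) = z * actSeq t f := by
  unfold actSeq
  rw [← smul_eq_mul, smul_finsum]
  exact finsum_congr fun l => by rw [act_smul, smul_eq_mul]

/-- one step of the construction -/
theorem ml_step {u G : ℕ → I →₀ 𝕜} {w : ℕ → ℕ} {C : ℝ} (hC : 2 ≤ C) (hG : GData c u C G w)
    (L : SList I) (P : ℕ) :
    ∃ (b : I →₀ ℚ) (Q P' : ℕ) (φ : I →₀ 𝕜), P ≤ Q ∧ Q ≤ P' ∧ IsW (NB c) (c.τ L) b ∧
      (∀ a ∈ b.support, ∃ p, Q ≤ p ∧ p < P' ∧ a ∈ hullF (G p).support) ∧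
      (∀ a ∈ φ.support, ∃ p, Q ≤ p ∧ p < P' ∧ a ∈ hullF (G p).support) ∧
      φ ∈ tailSpan u L.length ∧ nrm c φ ≤ 8 * C ∧ 1 / 4 ≤ ‖act b φ‖ := by
  classical
  set j := c.τ L with hj
  set Q : ℕ := max P (max j L.length) with hQ
  have hPQ : P ≤ Q := le_max_left _ _
  have hjQ : j ≤ Q := (le_max_left _ _).trans (le_max_right _ _)
  have hlQ : L.length ≤ Q := (le_max_right _ _).trans (le_max_right _ _)
  set n := nq j with hn
  have hn0 : 0 < n := by
    have := one_le_nprev (j + 1)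
    exact this
  have hm0 : (0 : ℝ) < mq j := by unfold mq; positivity
  -- the functionals
  have hex : ∀ p, ∃ b, NB c b ∧ (1 / 2 : ℝ) < ‖act b (G p)‖ := fun p =>
    exists_act_gt (by rw [hG.nrm_eq]; norm_num)
  choose b₀ hb₀ hb₀' using hex
  set β : ℕ → I →₀ ℚ := fun p => cut (hullF (G p).support) (b₀ p) with hβ
  have hβNB : ∀ p, NB c (β p) := fun p => (hb₀ p).cut (hullF_ordConnected _)
  have hβact : ∀ p, act (β p) (G p) = act (b₀ p) (G p) := fun p => by
    rw [hβ]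
    refine act_eq_cut _ _ _ fun a _ ha => subset_hullF _ ha
  have hβsupp : ∀ p, ∀ a ∈ (β p).support, a ∈ hullF (G p).support := fun p a ha =>
    (cut_support _ _ a ha).1
  have hβ0 : ∀ p q, p ≠ q → act (β p) (G q) = 0 := fun p q hpq =>
    act_eq_zero_of_disjoint fun a ha ha' =>
      hG.block.hull_disj hpq (hβsupp p a ha) (subset_hullF _ ha')
  obtain ⟨ε, hε, hsum⟩ := exists_signs_sum (Finset.Ico Q (Q + n)) (fun p => act (β p) (G p))
  set S : I →₀ ℚ := ∑ p ∈ Finset.Ico Q (Q + n), ε p • β p with hS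
  set V : I →₀ 𝕜 := ∑ p ∈ Finset.Ico Q (Q + n), G p with hV
  have hSV : act S V = ∑ p ∈ Finset.Ico Q (Q + n), (ε p : 𝕜) * act (β p) (G p) := by
    rw [hS, act_sum_left]
    refine Finset.sum_congr rfl fun p hp => ?_
    rw [act_smul_left, hV, act_sum, Finset.sum_eq_single_of_mem p hp]
    intro q _ hq
    exact hβ0 p q hq.symm
  have hεabs : ∀ p, |ε p| ≤ 1 := fun p => by
    rcases hε p with h | h <;> rw [h] <;> norm_num
  have hsuppS : ∀ p, ∀ a ∈ (ε p • β p).support, a ∈ hullF (G p).support := fun p a ha =>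
    hβsupp p a (Finsupp.support_smul ha)
  refine ⟨((mq j : ℚ))⁻¹ • S, Q, Q + n, ((mq j : 𝕜) / (n : 𝕜)) • V, hPQ, Nat.le_add_right _ _,
    ?_, ?_, ?_, ?_, ?_, ?_⟩
  · -- weighted
    refine ⟨(List.range n).map (fun i => ε (Q + i) • β (Q + i)), by simp [hn], ?_, ?_, ?_⟩
    · intro x hx
      obtain ⟨i, _, rfl⟩ := List.mem_map.1 hx
      exact (hβNB _).smul (hεabs _)
    · rw [List.pairwise_map]
      refine List.pairwise_lt_range.imp fun {i i'} h => ?_
      intro a ha a' ha'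
      exact hullF_lt (hG.block.slt _ _ (by omega)) (hsuppS _ a ha) (hsuppS _ a' ha')
    · congr 1
      rw [hS, Finset.sum_Ico_eq_sum_range, Nat.add_sub_cancel_left]
      rfl
  · intro a ha
    have h1 := Finsupp.support_smul ha
    rw [hS] at h1
    obtain ⟨p, hp, h2⟩ : ∃ p ∈ Finset.Ico Q (Q + n), a ∈ (ε p • β p).support := by
      have := Finsupp.support_finsetSum h1
      simpa using this
    rw [Finset.mem_Ico] at hp
    exact ⟨p, hp.1, hp.2, hsuppS p a h2⟩
  · intro a ha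
    have h1 := Finsupp.support_smul ha
    rw [hV] at h1
    obtain ⟨p, hp, h2⟩ : ∃ p ∈ Finset.Ico Q (Q + n), a ∈ (G p).support := by
      have := Finsupp.support_finsetSum h1
      simpa using this
    rw [Finset.mem_Ico] at hp
    exact ⟨p, hp.1, hp.2, subset_hullF _ h2⟩
  · refine Submodule.smul_mem _ _ (Submodule.sum_mem _ fun p hp => ?_)
    exact tailSpan_anti u (hlQ.trans (Finset.mem_Ico.1 hp).1) (hG.mem p)
  · have h1 := ris_norm hC hG j (Finset.Ico Q (Q + n)) (fun p hp =>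
      hjQ.trans (Finset.mem_Ico.1 hp).1) (by simp [hn])
    rw [nrm_smul, norm_div, RCLike.norm_natCast, RCLike.norm_natCast]
    calc (mq j : ℝ) / n * nrm c V ≤ (mq j : ℝ) / n * (8 * C * (nq j / mq j)) := by
          gcongr
      _ = 8 * C := by
          have : (n : ℝ) ≠ 0 := by exact_mod_cast hn0.ne'
          rw [← hn]; field_simp
  · rw [act_smul, act_smul_left, hSV, norm_mul, norm_mul, norm_div, RCLike.norm_natCast,
      RCLike.norm_natCast]
    have h2 : (n : ℝ) / 4 ≤ ‖∑ p ∈ Finset.Ico Q (Q + n), (ε p : 𝕜) * act (β p) (G p)‖ := by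
      refine le_trans ?_ hsum
      have h3 : (n : ℝ) * (1 / 2) ≤ ∑ p ∈ Finset.Ico Q (Q + n), ‖act (β p) (G p)‖ := by
        calc (n : ℝ) * (1 / 2) = ∑ p ∈ Finset.Ico Q (Q + n), (1 / 2 : ℝ) := by simp
          _ ≤ _ := Finset.sum_le_sum fun p _ => by rw [hβact]; exact (hb₀' p).le
      linarith
    have h4 : ‖(((mq j : ℚ)⁻¹ : ℚ) : 𝕜)‖ = (mq j : ℝ)⁻¹ := by
      push_cast
      rw [norm_inv, RCLike.norm_natCast]
    rw [h4]
    have h5 : (0 : ℝ) < n := by exact_mod_cast hn0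
    calc (1 / 4 : ℝ) = (mq j : ℝ) / n * ((mq j : ℝ)⁻¹ * (n / 4)) := by field_simp
      _ ≤ _ := by gcongr

/-- from a rapidly increasing sequence to an infinite special sequence acting on bounded
vectors -/
theorem special_of_GData {u G : ℕ → I →₀ 𝕜} {w : ℕ → ℕ} {C : ℝ} (hC : 2 ≤ C)
    (hG : GData c u C G w) :
    ∃ t, IsSpecialSeq c t ∧ ∃ C' : ℝ, ∀ N, ∃ v ∈ tailSpan u N, nrm c v ≤ C' ∧
      1 / 4 ≤ ‖actSeq t v‖ := by
  classical
  choose b Q P' φ hPQ hQP' hW hbs hφs hφm hφn hact using ml_step hC hG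
  let St : ℕ → SList I × ℕ := fun n => Nat.rec ([], 0)
    (fun _ s => (s.1 ++ [(b s.1 s.2, c.τ s.1)], P' s.1 s.2)) n
  have hSt : ∀ n, St (n + 1) =
      ((St n).1 ++ [(b (St n).1 (St n).2, c.τ (St n).1)], P' (St n).1 (St n).2) := fun n => rfl
  let t : ℕ → (I →₀ ℚ) × ℕ := fun n => (b (St n).1 (St n).2, c.τ (St n).1)
  have hpre : ∀ n, pre t n = (St n).1 := by
    intro n
    induction n with
    | zero => simp [pre, St]
    | succ n ih =>
      rw [hSt]
      show pre t (n + 1) = (St n).1 ++ [t n]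
      rw [← ih]
      apply List.ext_getElem
      · simp
      · intro i h1 h2
        rw [getElem_pre, List.getElem_append]
        split_ifs with h
        · rw [getElem_pre]
        · have : i = n := by simp at h h1; omega
          subst this; simp
  have hlen : ∀ n, (St n).1.length = n := fun n => by rw [← hpre, length_pre]
  -- positions
  have hQs : ∀ n, P' (St n).1 (St n).2 ≤ Q (St (n + 1)).1 (St (n + 1)).2 := fun n => by
    have := hPQ (St (n + 1)).1 (St (n + 1)).2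
    rwa [hSt] at this ⊢
  have hQmono : ∀ m n, m < n → P' (St m).1 (St m).2 ≤ Q (St n).1 (St n).2 := by
    intro m n hmn
    induction n, hmn using Nat.le_induction with
    | base => exact hQs m
    | succ n hn ih => exact (ih.trans (hQP' _ _)).trans (hQs n)
  have hsucc : ∀ m n, m < n → ∀ a a' p p', (Q (St m).1 (St m).2 ≤ p ∧ p < P' (St m).1 (St m).2 ∧
      a ∈ hullF (G p).support) → (Q (St n).1 (St n).2 ≤ p' ∧ p' < P' (St n).1 (St n).2 ∧
      a' ∈ hullF (G p').support) → a < a' := by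
    rintro m n hmn a a' p p' ⟨_, h2, h3⟩ ⟨h4, _, h6⟩
    have := hQmono m n hmn
    exact hullF_lt (hG.block.slt p p' (by omega)) h3 h6
  have hact0 : ∀ m n, m ≠ n → act (t m).1 (φ (St n).1 (St n).2) = 0 := by
    intro m n hmn
    refine act_eq_zero_of_disjoint fun a ha ha' => ?_
    obtain ⟨p, hp⟩ := hbs _ _ a ha
    obtain ⟨p', hp'⟩ := hφs _ _ a ha'
    rcases lt_or_gt_of_ne hmn with h | h
    · exact lt_irrefl a (hsucc m n h a a p p' hp hp')
    · exact lt_irrefl a (hsucc n m h a a p' p hp' hp)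
  have hne : ∀ n, (t n).1 ≠ 0 := by
    intro n h0
    have h1 := hact (St n).1 (St n).2
    have h2 : b (St n).1 (St n).2 = 0 := h0
    rw [h2, act_zero_left, norm_zero] at h1
    norm_num at h1
  refine ⟨t, fun n => ⟨⟨?_, ?_, ?_⟩, ?_, ?_⟩, 8 * C, fun N => ?_⟩
  · intro l h
    rw [getElem_pre]; exact hne l
  · intro l l' h h'
    rw [getElem_pre, getElem_pre]
    intro a ha a' ha'
    obtain ⟨p, hp⟩ := hbs _ _ a ha
    obtain ⟨p', hp'⟩ := hbs _ _ a' ha'
    exact hsucc l l' h a a' p p' hp hp'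
  · intro l h _
    rw [getElem_pre, take_pre t (by simp at h; omega), hpre]
  · intro h
    rw [getElem_pre]
    rfl
  · intro p hp
    obtain ⟨l, hl, rfl⟩ := List.getElem_of_mem hp
    rw [getElem_pre]
    exact hW _ _
  · refine ⟨φ (St N).1 (St N).2, ?_, hφn _ _, ?_⟩
    · have := hφm (St N).1 (St N).2
      rwa [hlen] at this
    · have : actSeq t (φ (St N).1 (St N).2) = act (t N).1 (φ (St N).1 (St N).2) := by
        unfold actSeq
        exact finsum_eq_single _ N fun m hm => hact0 m N hm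
      rw [this]
      exact hact _ _

theorem main_lemma (c : Coding I) (u : ℕ → I →₀ 𝕜) (hu : IsBlockSeq u) :
    ∃ t, IsSpecialSeq c t ∧ ∃ δ : ℝ, 0 < δ ∧ ∃ C : ℝ, ∀ N, ∃ v ∈ tailSpan u N, nrm c v ≤ C ∧
      δ ≤ ‖actSeq t v‖ := by
  by_contra hcon
  push Not at hcon
  have hNK : NK c u := by
    intro t ht ε hε
    obtain ⟨N, hN⟩ := hcon t ht ε hε 1
    refine ⟨N, fun v hv => ?_⟩
    rcases eq_or_ne (nrm c v) 0 with h0 | h0
    · have hv0 : v = 0 := (nrm_eq_zero_iff v).1 h0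
      subst hv0
      have : actSeq t (0 : I →₀ 𝕜) = 0 := by
        have := actSeq_smul t (0 : 𝕜) (0 : I →₀ 𝕜)
        simpa using this
      rw [this, norm_zero, h0, mul_zero]
    · have hpos : 0 < nrm c v := lt_of_le_of_ne (nrm_nonneg v) h0.symm
      have h1 := hN (((nrm c v : ℝ) : 𝕜)⁻¹ • v) (Submodule.smul_mem _ _ hv) (by
        rw [nrm_smul, norm_inv, RCLike.norm_ofReal, abs_of_pos hpos, inv_mul_cancel₀ h0])
      rw [actSeq_smul, norm_mul, norm_inv, RCLike.norm_ofReal, abs_of_pos hpos,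
        inv_mul_lt_iff₀ hpos] at h1
      linarith
  obtain ⟨y, w, hy⟩ := exists_YData c u hu
  obtain ⟨C, G, w', hC, hG⟩ := exists_GData hu hy hNK
  have hG' : GData c u (max C 2) G w' :=
    { hG with small := fun p i b hi hb => (hG.small p i b hi hb).trans (by
        have : C ≤ max C 2 := le_max_left _ _
        gcongr) }
  obtain ⟨t, ht, C', hC'⟩ := special_of_GData (le_max_right _ _) hG'
  obtain ⟨N, hN⟩ := hNK t ht (1 / (8 * (|C'| + 1))) (by positivity)
  obtain ⟨v, hv, hv1, hv2⟩ := hC' N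
  have h1 := hN v hv
  have h2 : 1 / (8 * (|C'| + 1)) * nrm c v ≤ 1 / 8 := by
    have h3 : nrm c v ≤ |C'| + 1 := by linarith [le_abs_self C']
    calc 1 / (8 * (|C'| + 1)) * nrm c v ≤ 1 / (8 * (|C'| + 1)) * (|C'| + 1) := by gcongr
      _ = 1 / 8 := by field_simp
  linarith

end Crest.Agent.R114
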