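import Crest.Agent.R114.Norm

/-! # Row 114, S0152: the completion `VV`, restrictions and functionals on it. -/

set_option autoImplicit false

open Set Filter Topology

namespace Crest.Agent.R114

variable {I : Type} [LinearOrder I] {c : Coding I} {𝕜 : Type} [RCLike 𝕜]

/-- the completion of `C00 c 𝕜` -/
abbrev VV (c : Coding I) (𝕜 : Type) [RCLike 𝕜] : Type := UniformSpace.Completion (C00 c 𝕜)

/-- the dense embedding -/
noncomputable def emb (c : Coding I) (𝕜 : Type) [RCLike 𝕜] : C00 c 𝕜 →L[𝕜] VV c 𝕜 :=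
  UniformSpace.Completion.toComplL

/-- embedding of a finitely supported function -/
noncomputable def vec (c : Coding I) (f : I →₀ 𝕜) : VV c 𝕜 := emb c 𝕜 (C00.of c f)

private lemma emb_denseRange : DenseRange (emb c 𝕜) := by
  unfold emb
  rw [UniformSpace.Completion.coe_toComplL]
  exact UniformSpace.Completion.denseRange_coe

private lemma emb_isUniformInducing : IsUniformInducing (emb c 𝕜) := by
  unfold emb
  rw [UniformSpace.Completion.coe_toComplL]
  exact UniformSpace.Completion.isUniformInducing_coe _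

private lemma closed_property {p : VV c 𝕜 → Prop} (hp : IsClosed {v | p v})
    (h : ∀ f : I →₀ 𝕜, p (vec c f)) (v : VV c 𝕜) : p v :=
  isClosed_property (emb_denseRange (c := c) (𝕜 := 𝕜)) hp (fun f => h f) v

lemma norm_vec (f : I →₀ 𝕜) : ‖vec c f‖ = nrm c f :=
  UniformSpace.Completion.norm_coe (C00.of c f)

lemma vec_add (f g : I →₀ 𝕜) : vec c (f + g) = vec c f + vec c g :=
  map_add (emb c 𝕜) (C00.of c f) (C00.of c g)

lemma vec_smul (z : 𝕜) (f : I →₀ 𝕜) : vec c (z • f) = z • vec c f :=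
  map_smul (emb c 𝕜) z (C00.of c f)

lemma vec_sum {ι : Type*} (s : Finset ι) (f : ι → I →₀ 𝕜) :
    vec c (∑ i ∈ s, f i) = ∑ i ∈ s, vec c (f i) := by
  classical
  have h0 : vec c (0 : I →₀ 𝕜) = 0 := map_zero (emb c 𝕜)
  induction s using Finset.induction_on with
  | empty => simpa using h0
  | insert i s hi ih => rw [Finset.sum_insert hi, Finset.sum_insert hi, vec_add, ih]

lemma exists_vec_near (v : VV c 𝕜) {ε : ℝ} (hε : 0 < ε) : ∃ f : I →₀ 𝕜, ‖v - vec c f‖ < ε := by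
  obtain ⟨f, hf⟩ := (emb_denseRange (c := c) (𝕜 := 𝕜)).exists_dist_lt v hε
  exact ⟨f, by rw [← dist_eq_norm]; exact hf⟩

/-- two continuous linear maps agreeing on all `vec c f` agree -/
lemma ext_vec {F : Type*} [NormedAddCommGroup F] [NormedSpace 𝕜 F] {A B : VV c 𝕜 →L[𝕜] F}
    (h : ∀ f : I →₀ 𝕜, A (vec c f) = B (vec c f)) : A = B := by
  ext v
  refine closed_property (p := fun v => A v = B v) (isClosed_eq A.continuous B.continuous) h v

/-- restriction to an order-connected set -/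
noncomputable def RV (c : Coding I) (𝕜 : Type) [RCLike 𝕜] {E : Set I} (hE : E.OrdConnected) :
    VV c 𝕜 →L[𝕜] VV c 𝕜 :=
  ContinuousLinearMap.extend ((emb c 𝕜).comp (cutL c 𝕜 hE)) (emb c 𝕜)

lemma RV_vec {E : Set I} (hE : E.OrdConnected) (f : I →₀ 𝕜) :
    RV c 𝕜 hE (vec c f) = vec c (cut E f) :=
  ContinuousLinearMap.extend_eq ((emb c 𝕜).comp (cutL c 𝕜 hE)) emb_denseRange
    emb_isUniformInducing (C00.of c f)

lemma norm_RV_le {E : Set I} (hE : E.OrdConnected) (v : VV c 𝕜) : ‖RV c 𝕜 hE v‖ ≤ ‖v‖ := by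
  refine closed_property (p := fun v => ‖RV c 𝕜 hE v‖ ≤ ‖v‖)
    (isClosed_le (RV c 𝕜 hE).continuous.norm continuous_norm) (fun f => ?_) v
  rw [RV_vec, norm_vec, norm_vec]
  exact nrm_cut_le f hE

lemma RV_RV {E F : Set I} (hE : E.OrdConnected) (hF : F.OrdConnected) (v : VV c 𝕜) :
    RV c 𝕜 hE (RV c 𝕜 hF v) = RV c 𝕜 (hE.inter hF) v := by
  have h : (RV c 𝕜 hE).comp (RV c 𝕜 hF) = RV c 𝕜 (hE.inter hF) := by
    refine ext_vec fun f => ?_
    rw [ContinuousLinearMap.comp_apply, RV_vec, RV_vec, RV_vec, cut_cut]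
  rw [← h]; rfl

/-- extension of functionals to the completion -/
noncomputable def extD (φ : StrongDual 𝕜 (C00 c 𝕜)) : StrongDual 𝕜 (VV c 𝕜) :=
  ContinuousLinearMap.extend φ (emb c 𝕜)

lemma extD_vec (φ : StrongDual 𝕜 (C00 c 𝕜)) (f : I →₀ 𝕜) :
    extD φ (vec c f) = φ (C00.of c f) :=
  ContinuousLinearMap.extend_eq φ emb_denseRange emb_isUniformInducing (C00.of c f)

lemma norm_extD_le (φ : StrongDual 𝕜 (C00 c 𝕜)) : ‖extD φ‖ ≤ ‖φ‖ := by
  refine ContinuousLinearMap.opNorm_le_bound _ (norm_nonneg _) fun v => ?_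
  refine closed_property (p := fun v => ‖extD φ v‖ ≤ ‖φ‖ * ‖v‖)
    (isClosed_le (extD φ).continuous.norm (continuous_const.mul continuous_norm)) (fun f => ?_) v
  rw [extD_vec, norm_vec]
  exact φ.le_opNorm (C00.of c f)

/-- rational functionals on the completion -/
noncomputable def actV (c : Coding I) (𝕜 : Type) [RCLike 𝕜] (b : I →₀ ℚ) :
    StrongDual 𝕜 (VV c 𝕜) := extD (actL c 𝕜 b)

lemma actV_vec (b : I →₀ ℚ) (f : I →₀ 𝕜) : actV c 𝕜 b (vec c f) = act b f := extD_vec _ f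

lemma norm_actV_le {b : I →₀ ℚ} (hb : NB c b) : ‖actV c 𝕜 b‖ ≤ 1 := (norm_extD_le _).trans (norm_actL_le hb)

lemma actV_add (b b' : I →₀ ℚ) : actV c 𝕜 (b + b') = actV c 𝕜 b + actV c 𝕜 b' := by
  refine ext_vec fun f => ?_
  rw [add_apply, actV_vec, actV_vec, actV_vec, act_add_left]

lemma actV_smul (q : ℚ) (b : I →₀ ℚ) : actV c 𝕜 (q • b) = (q : 𝕜) • actV c 𝕜 b := by
  refine ext_vec fun f => ?_
  rw [smul_apply, actV_vec, actV_vec, act_smul_left, smul_eq_mul]

/-- a rational functional is the combination of the coordinates -/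
lemma actV_eq_sum (b : I →₀ ℚ) :
    actV c 𝕜 b = ∑ ξ ∈ b.support, ((b ξ : ℚ) : 𝕜) • actV c 𝕜 (Finsupp.single ξ 1) := by
  refine ext_vec fun f => ?_
  rw [sum_apply, actV_vec]
  conv_lhs => rw [← Finsupp.sum_single b]
  rw [Finsupp.sum, act_sum_left]
  refine Finset.sum_congr rfl fun ξ _ => ?_
  rw [smul_apply, actV_vec, act_single_left, act_single_left, smul_eq_mul]
  simp

/-- the norm of the completion is computed by the norming set -/
lemma norm_le_of_actV {v : VV c 𝕜} {C : ℝ} (h : ∀ b, NB c b → ‖actV c 𝕜 b v‖ ≤ C) : ‖v‖ ≤ C := by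
  refine le_of_forall_pos_le_add fun ε hε => ?_
  obtain ⟨f, hf⟩ := exists_vec_near v (half_pos hε)
  have h1 : nrm c f ≤ C + ε / 2 := by
    refine nrm_le fun b hb => ?_
    rw [← actV_vec (c := c)]
    have h2 : actV c 𝕜 b (vec c f) = actV c 𝕜 b v - actV c 𝕜 b (v - vec c f) := by
      rw [map_sub]; ring
    rw [h2]
    refine (norm_sub_le _ _).trans (add_le_add (h b hb) ?_)
    refine ((actV c 𝕜 b).le_opNorm _).trans ?_
    calc ‖actV c 𝕜 b‖ * ‖v - vec c f‖ ≤ 1 * (ε / 2) :=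
          mul_le_mul (norm_actV_le hb) hf.le (norm_nonneg _) zero_le_one
      _ = ε / 2 := one_mul _
  calc ‖v‖ = ‖(v - vec c f) + vec c f‖ := by rw [sub_add_cancel]
    _ ≤ ‖v - vec c f‖ + ‖vec c f‖ := norm_add_le _ _
    _ ≤ ε / 2 + (C + ε / 2) := by
      rw [norm_vec]
      exact add_le_add hf.le h1
    _ = C + ε := by ring

/-- lower estimate for successive order-connected parts of a vector -/
theorem lower_estimate_V (j N : ℕ) (hN : N ≤ nq j) (v : VV c 𝕜) (E : ℕ → Set I)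
    (hE : ∀ i, (E i).OrdConnected)
    (hs : ∀ i i', i < i' → i' < N → ∀ a ∈ E i, ∀ b ∈ E i', a < b) :
    ∑ i ∈ Finset.range N, ‖RV c 𝕜 (hE i) v‖ ≤ 2 * mq j * ‖v‖ := by
  refine closed_property
    (p := fun v => ∑ i ∈ Finset.range N, ‖RV c 𝕜 (hE i) v‖ ≤ 2 * mq j * ‖v‖)
    (isClosed_le (continuous_finsetSum _ fun i _ => (RV c 𝕜 (hE i)).continuous.norm)
      (continuous_const.mul continuous_norm)) (fun f => ?_) v
  simp only [RV_vec, norm_vec]
  exact lower_estimate_cut j N hN f E hE hs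

/-- every vector is carried by a countable set, hence its coordinates off it vanish -/
lemma exists_countable_carrier (v : VV c 𝕜) : ∃ S : Set I, S.Countable ∧
    ∀ (E : Set I) (hE : E.OrdConnected), S ⊆ E → RV c 𝕜 hE v = v := by
  have h : ∀ n : ℕ, ∃ f : I →₀ 𝕜, ‖v - vec c f‖ < 1 / ((n : ℝ) + 1) := fun n =>
    exists_vec_near v (by positivity)
  choose f hf using h
  refine ⟨⋃ n, ↑(f n).support, countable_iUnion fun n => (f n).support.countable_toSet, ?_⟩
  intro E hE hS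
  have h1 : Tendsto (fun n => vec c (f n)) atTop (𝓝 v) := by
    rw [tendsto_iff_norm_sub_tendsto_zero]
    refine squeeze_zero (fun _ => norm_nonneg _) (fun n => ?_)
      tendsto_one_div_add_atTop_nhds_zero_nat
    rw [norm_sub_rev]; exact (hf n).le
  have h2 : Tendsto (fun n => RV c 𝕜 hE (vec c (f n))) atTop (𝓝 (RV c 𝕜 hE v)) :=
    ((RV c 𝕜 hE).continuous.tendsto v).comp h1
  have h3 : ∀ n, RV c 𝕜 hE (vec c (f n)) = vec c (f n) := fun n => by
    rw [RV_vec, cut_of_subset ((subset_iUnion (fun n => (↑(f n).support : Set I)) n).trans hS)]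
  simp only [h3] at h2
  exact tendsto_nhds_unique h2 h1

/-- splitting off one point -/
lemma RV_Iic_eq (a : I) (v : VV c 𝕜) :
    RV c 𝕜 (E := Iic a) ordConnected_Iic v = RV c 𝕜 (E := Iio a) ordConnected_Iio v +
      (actV c 𝕜 (Finsupp.single a 1) v) • vec c (Finsupp.single a 1) := by
  classical
  refine closed_property (p := fun v => RV c 𝕜 (E := Iic a) ordConnected_Iic v =
      RV c 𝕜 (E := Iio a) ordConnected_Iio v +
      (actV c 𝕜 (Finsupp.single a 1) v) • vec c (Finsupp.single a 1))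
    (isClosed_eq (RV c 𝕜 _).continuous ((RV c 𝕜 _).continuous.add
      ((actV c 𝕜 _).continuous.smul continuous_const))) (fun f => ?_) v
  rw [RV_vec, RV_vec, actV_vec, ← vec_smul, ← vec_add]
  congr 1
  ext x
  rw [Finsupp.add_apply, cut_apply, cut_apply, Finsupp.smul_apply, act_single_left,
    Finsupp.single_apply]
  rcases lt_trichotomy x a with h | h | h
  · rw [if_pos (show x ∈ Iic a from h.le), if_pos (show x ∈ Iio a from h), if_neg h.ne']
    simp
  · subst h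
    simp
  · rw [if_neg (show ¬ x ∈ Iic a from not_le.2 h), if_neg (show ¬ x ∈ Iio a from h.le.not_gt),
      if_neg h.ne]
    simp

/-! ### tails of infinite special sequences -/

/-- the action of the tail `l ≥ K` of a sequence on a vector -/
noncomputable def tailFun (t : ℕ → (I →₀ ℚ) × ℕ) (K : ℕ) (f : I →₀ 𝕜) : 𝕜 :=
  ∑ᶠ l : ℕ, if K ≤ l then act (t l).1 f else 0

private lemma coded {t : ℕ → (I →₀ ℚ) × ℕ} (ht : IsSpecialSeq c t) : IsCodedSeq c t :=
  fun n => (ht n).coded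

/-- only finitely many functionals of the sequence act on a vector -/
private lemma act_finite {t : ℕ → (I →₀ ℚ) × ℕ} (ht : IsSpecialSeq c t) (f : I →₀ 𝕜) :
    ∃ n₀, ∀ l, n₀ ≤ l → act (t l).1 f = 0 := by
  classical
  have hfin : {l | act (t l).1 f ≠ 0}.Finite := by
    have h1 : ∀ l ∈ {l | act (t l).1 f ≠ 0}, ∃ a ∈ f.support, a ∈ (t l).1.support := by
      intro l hl
      by_contra hcon
      push Not at hcon
      exact hl (act_eq_zero_of_disjoint fun a ha hf => hcon a hf ha)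
    choose g hg1 hg2 using h1
    have hinj : Function.Injective
        (fun l : {l | act (t l).1 f ≠ 0} => (⟨g l.1 l.2, hg1 l.1 l.2⟩ : {a // a ∈ f.support})) := by
      rintro ⟨l, hl⟩ ⟨l', hl'⟩ heq
      have heq' : g l hl = g l' hl' := congrArg Subtype.val heq
      rcases lt_trichotomy l l' with h | h | h
      · have := (coded ht).succ h (g l hl) (hg2 l hl) (g l' hl') (hg2 l' hl')
        rw [heq'] at this; exact absurd this (lt_irrefl _)
      · exact Subtype.ext h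
      · have := (coded ht).succ h (g l' hl') (hg2 l' hl') (g l hl) (hg2 l hl)
        rw [heq'] at this; exact absurd this (lt_irrefl _)
    exact Set.finite_coe_iff.1 (Finite.of_injective _ hinj)
  obtain ⟨n₀, hn₀⟩ := hfin.bddAbove
  refine ⟨n₀ + 1, fun l hl => ?_⟩
  by_contra hne
  have := hn₀ (show l ∈ {l | act (t l).1 f ≠ 0} from hne)
  omega

private lemma tailFun_sum_aux {t : ℕ → (I →₀ ℚ) × ℕ} (ht : IsSpecialSeq c t) (K : ℕ)
    (f : I →₀ 𝕜) :
    ∃ n₀, ∀ n ≥ n₀, tailFun t K f = ∑ l ∈ Finset.Ico K n, act (t l).1 f := by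
  classical
  obtain ⟨n₀, h⟩ := act_finite ht f
  refine ⟨n₀, fun n hn => ?_⟩
  unfold tailFun
  rw [finsum_eq_sum_of_support_subset (s := Finset.Ico K n)]
  · refine Finset.sum_congr rfl fun l hl => ?_
    rw [if_pos (Finset.mem_Ico.1 hl).1]
  · intro l hl
    rw [Function.mem_support] at hl
    rw [Finset.coe_Ico, Set.mem_Ico]
    by_cases hK : K ≤ l
    · rw [if_pos hK] at hl
      refine ⟨hK, ?_⟩
      by_contra hcon
      exact hl (h l (by omega))
    · rw [if_neg hK] at hl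
      exact absurd rfl hl

omit [LinearOrder I] in
private lemma pre_succ (t : ℕ → (I →₀ ℚ) × ℕ) (n : ℕ) : pre t (n + 1) = pre t n ++ [t n] := by
  unfold pre
  rw [List.ofFn_succ', List.concat_eq_append]
  simp

private lemma piece_pre_eq {t : ℕ → (I →₀ ℚ) × ℕ} (ht : IsSpecialSeq c t) (K n : ℕ) :
    piece (pre t n) univ (Ici (t K).2) = ∑ l ∈ Finset.Ico K n, (t l).1 := by
  classical
  have hmono := (coded ht).idx_strictMono
  unfold piece
  rw [cut_univ]
  induction n with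
  | zero => simp [pre]
  | succ n ih =>
    rw [pre_succ, List.filter_append, List.map_append, List.sum_append, ih]
    by_cases hK : K ≤ n
    · rw [Finset.sum_Ico_succ_top hK]
      congr 1
      have h1 : (t n).2 ∈ Ici (t K).2 := hmono.monotone hK
      rw [List.filter_cons_of_pos (by simpa using h1)]
      simp
    · have h1 : ¬ (t n).2 ∈ Ici (t K).2 := fun h => hK (hmono.le_iff_le.1 h)
      rw [List.filter_cons_of_neg (by simpa using h1), Finset.Ico_eq_empty (by omega),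
        Finset.Ico_eq_empty (by omega)]
      simp

/-- for all large `n`, the action of the tail is the action of a piece of the initial part -/
lemma tailFun_eq {t : ℕ → (I →₀ ℚ) × ℕ} (ht : IsSpecialSeq c t) (K : ℕ) (f : I →₀ 𝕜) :
    ∃ n₀, ∀ n ≥ n₀, tailFun t K f = act (piece (pre t n) univ (Ici (t K).2)) f := by
  obtain ⟨n₀, h⟩ := tailFun_sum_aux ht K f
  refine ⟨n₀, fun n hn => ?_⟩
  rw [h n hn, piece_pre_eq ht K n, act_sum_left]

/-- finite partial sums -/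
lemma tailFun_eq_sum {t : ℕ → (I →₀ ℚ) × ℕ} (ht : IsSpecialSeq c t) (K : ℕ) (f : I →₀ 𝕜) :
    ∃ n₀, ∀ n ≥ n₀, tailFun t K f = ∑ l ∈ Finset.Ico K n, act (t l).1 f := tailFun_sum_aux ht K f

open Classical in
/-- the tail functional on the completion -/
noncomputable def tailV (c : Coding I) (𝕜 : Type) [RCLike 𝕜] (t : ℕ → (I →₀ ℚ) × ℕ) (K : ℕ) :
    StrongDual 𝕜 (VV c 𝕜) :=
  if h : ∃ φ : StrongDual 𝕜 (VV c 𝕜), ‖φ‖ ≤ 1 ∧ ∀ f : I →₀ 𝕜, φ (vec c f) = tailFun t K f then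
    h.choose else 0

private lemma tailFun_add {t : ℕ → (I →₀ ℚ) × ℕ} (ht : IsSpecialSeq c t) (K : ℕ)
    (f g : I →₀ 𝕜) : tailFun t K (f + g) = tailFun t K f + tailFun t K g := by
  obtain ⟨n₁, h₁⟩ := tailFun_eq_sum ht K f
  obtain ⟨n₂, h₂⟩ := tailFun_eq_sum ht K g
  obtain ⟨n₃, h₃⟩ := tailFun_eq_sum ht K (f + g)
  rw [h₁ (max n₁ (max n₂ n₃)) (by omega), h₂ (max n₁ (max n₂ n₃)) (by omega),
    h₃ (max n₁ (max n₂ n₃)) (by omega), ← Finset.sum_add_distrib]
  exact Finset.sum_congr rfl fun l _ => act_add _ _ _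

private lemma tailFun_smul {t : ℕ → (I →₀ ℚ) × ℕ} (ht : IsSpecialSeq c t) (K : ℕ)
    (z : 𝕜) (f : I →₀ 𝕜) : tailFun t K (z • f) = z * tailFun t K f := by
  obtain ⟨n₁, h₁⟩ := tailFun_eq_sum ht K f
  obtain ⟨n₂, h₂⟩ := tailFun_eq_sum ht K (z • f)
  rw [h₁ (max n₁ n₂) (by omega), h₂ (max n₁ n₂) (by omega), Finset.mul_sum]
  exact Finset.sum_congr rfl fun l _ => act_smul _ _ _

private lemma norm_tailFun_le {t : ℕ → (I →₀ ℚ) × ℕ} (ht : IsSpecialSeq c t) (K : ℕ)
    (f : I →₀ 𝕜) : ‖tailFun t K f‖ ≤ nrm c f := by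
  obtain ⟨n₀, h⟩ := tailFun_eq ht K f
  rw [h n₀ le_rfl]
  exact norm_act_le (NB.piece (ht n₀) ordConnected_univ ordConnected_Ici) f

private lemma exists_tail {t : ℕ → (I →₀ ℚ) × ℕ} (ht : IsSpecialSeq c t) (K : ℕ) :
    ∃ φ : StrongDual 𝕜 (VV c 𝕜), ‖φ‖ ≤ 1 ∧ ∀ f : I →₀ 𝕜, φ (vec c f) = tailFun t K f := by
  let φ₀ : C00 c 𝕜 →ₗ[𝕜] 𝕜 :=
    { toFun := fun f => tailFun (𝕜 := 𝕜) t K f
      map_add' := fun f g => tailFun_add (𝕜 := 𝕜) ht K f g
      map_smul' := fun z f => tailFun_smul (𝕜 := 𝕜) ht K z f }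
  let φ : StrongDual 𝕜 (C00 c 𝕜) := LinearMap.mkContinuous φ₀ 1 (fun f => by
    rw [one_mul]; exact norm_tailFun_le (𝕜 := 𝕜) ht K f)
  refine ⟨extD φ, (norm_extD_le φ).trans (LinearMap.mkContinuous_norm_le _ zero_le_one _),
    fun f => ?_⟩
  rw [extD_vec]
  rfl

lemma tailV_vec {t : ℕ → (I →₀ ℚ) × ℕ} (ht : IsSpecialSeq c t) (K : ℕ) (f : I →₀ 𝕜) :
    tailV c 𝕜 t K (vec c f) = tailFun t K f := by
  unfold tailV
  rw [dif_pos (exists_tail ht K)]
  exact (exists_tail ht K).choose_spec.2 f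

lemma norm_tailV_le (t : ℕ → (I →₀ ℚ) × ℕ) (K : ℕ) : ‖tailV c 𝕜 t K‖ ≤ 1 := by
  unfold tailV
  split_ifs with h
  · exact h.choose_spec.1
  · simp

/-- peeling -/
lemma tailV_eq_add {t : ℕ → (I →₀ ℚ) × ℕ} (ht : IsSpecialSeq c t) (K : ℕ) :
    tailV c 𝕜 t K = actV c 𝕜 (t K).1 + tailV c 𝕜 t (K + 1) := by
  refine ext_vec fun f => ?_
  rw [add_apply, tailV_vec ht, tailV_vec ht, actV_vec]
  obtain ⟨n₁, h₁⟩ := tailFun_eq_sum ht K f
  obtain ⟨n₂, h₂⟩ := tailFun_eq_sum ht (K + 1) f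
  rw [h₁ (max (K + 1) (max n₁ n₂)) (by omega), h₂ (max (K + 1) (max n₁ n₂)) (by omega),
    Finset.sum_eq_sum_Ico_succ_bot (by omega)]

/-- `tailV t 0` acts as `actSeq` -/
lemma tailV_zero_vec {t : ℕ → (I →₀ ℚ) × ℕ} (ht : IsSpecialSeq c t) (f : I →₀ 𝕜) :
    tailV c 𝕜 t 0 (vec c f) = actSeq t f := by
  rw [tailV_vec ht]
  unfold tailFun actSeq
  exact finsum_congr fun l => if_pos (Nat.zero_le l)

/-- tails vanish eventually on a vector with finite support -/
lemma tailV_vec_eventually {t : ℕ → (I →₀ ℚ) × ℕ} (ht : IsSpecialSeq c t) (f : I →₀ 𝕜) :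
    ∀ᶠ K in atTop, tailV c 𝕜 t K (vec c f) = 0 := by
  obtain ⟨n₀, h⟩ := act_finite ht f
  filter_upwards [eventually_ge_atTop n₀] with K hK
  rw [tailV_vec ht]
  unfold tailFun
  refine finsum_eq_zero_of_forall_eq_zero fun l => ?_
  split_ifs with hl
  · exact h l (hK.trans hl)
  · rfl

/-- tails only see the part of a vector carried by a set containing the supports -/
lemma tailV_RV {t : ℕ → (I →₀ ℚ) × ℕ} (ht : IsSpecialSeq c t) (K : ℕ) {E : Set I}
    (hE : E.OrdConnected) (h : ∀ l, ↑(t l).1.support ⊆ E) (v : VV c 𝕜) :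
    tailV c 𝕜 t K (RV c 𝕜 hE v) = tailV c 𝕜 t K v := by
  have h1 : (tailV c 𝕜 t K).comp (RV c 𝕜 hE) = tailV c 𝕜 t K := by
    refine ext_vec fun f => ?_
    rw [ContinuousLinearMap.comp_apply, RV_vec, tailV_vec ht, tailV_vec ht]
    unfold tailFun
    refine finsum_congr fun l => ?_
    rw [← act_cut, cut_of_subset (h l)]
  conv_rhs => rw [← h1]
  rfl

/-- combinations of tails with disjoint large indices -/
lemma norm_sum_tailV_le {n : ℕ} (t : Fin n → ℕ → (I →₀ ℚ) × ℕ) (ht : ∀ u, IsSpecialSeq c (t u))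
    (ε : Fin n → ℚ) (hε : ∀ u, |ε u| ≤ 1) (K : ℕ) (hn : ∀ u, n ≤ (t u K).2)
    (hd : ∀ u v, u ≠ v → ∀ l ≥ K, ∀ l' ≥ K, (t u l).2 ≠ (t v l').2) :
    ‖∑ u, (ε u : 𝕜) • tailV c 𝕜 (t u) K‖ ≤ 1 := by
  classical
  refine ContinuousLinearMap.opNorm_le_bound _ zero_le_one fun v => ?_
  rw [one_mul]
  refine closed_property (p := fun v => ‖(∑ u, (ε u : 𝕜) • tailV c 𝕜 (t u) K) v‖ ≤ ‖v‖)
    (isClosed_le (ContinuousLinearMap.continuous _).norm continuous_norm) (fun f => ?_) v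
  rw [norm_vec]
  choose n₀ h₀ using fun u => tailFun_eq (ht u) K f
  obtain ⟨N, hN⟩ : ∃ N, ∀ u, n₀ u ≤ N :=
    ⟨∑ u, n₀ u, fun u => Finset.single_le_sum (fun _ _ => Nat.zero_le _) (Finset.mem_univ u)⟩
  have h1 : (∑ u, (ε u : 𝕜) • tailV c 𝕜 (t u) K) (vec c f) =
      act (∑ u, ε u • piece (pre (t u) N) univ (Ici (t u K).2)) f := by
    rw [sum_apply, act_sum_left]
    refine Finset.sum_congr rfl fun u _ => ?_
    rw [smul_apply, tailV_vec (ht u), act_smul_left, smul_eq_mul,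
      h₀ u N (hN u)]
  rw [h1]
  refine norm_act_le ((NB.closedFam c).psi _ ⟨n, ε, fun u => pre (t u) N, fun _ => univ,
    fun u => Ici (t u K).2, hε, fun u => ht u N, fun _ => ordConnected_univ,
    fun _ => ordConnected_Ici, fun u p _ hp => (hn u).trans hp, ?_, rfl⟩) f
  have h2 : ∀ u, ∀ p ∈ pre (t u) N, p.2 ∈ Ici (t u K).2 → ∃ l ≥ K, p = t u l := by
    intro u p hp hpJ
    obtain ⟨l, hl, rfl⟩ := List.getElem_of_mem hp
    rw [getElem_pre] at hpJ ⊢
    exact ⟨l, (coded (ht u)).idx_strictMono.le_iff_le.1 hpJ, rfl⟩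
  intro u w huw p hp q hq hpJ hqJ
  obtain ⟨l, hl, rfl⟩ := h2 u p hp hpJ
  obtain ⟨l', hl', rfl⟩ := h2 w q hq hqJ
  exact hd u w huw l hl l' hl' 

end Crest.Agent.R114
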