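import Mathlib
import Crest.Agent.R114.FrameT
import Crest.Agent.R114.MainLemma
import Crest.Agent.R114.VSpace
import Crest.Agent.R114.Index

set_option autoImplicit false

/-!
# Row 114, S0152: the frame on `VV c 𝕜`, the main property (helper606)
-/

open Set Filter Topology

namespace Crest.Agent.R114

variable {I : Type} [LinearOrder I] {c : Coding I} {𝕜 : Type} [RCLike 𝕜]

lemma cut_single_mem (E : Set I) (ξ : I) (z : 𝕜) (h : ξ ∈ E) :
    cut E (Finsupp.single ξ z) = Finsupp.single ξ z := by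
  classical
  ext a
  rw [cut_apply]
  by_cases ha : a ∈ E
  · rw [if_pos ha]
  · rw [if_neg ha, Finsupp.single_apply, if_neg]
    rintro rfl; exact ha h

lemma cut_single_notMem (E : Set I) (ξ : I) (z : 𝕜) (h : ξ ∉ E) :
    cut E (Finsupp.single ξ z) = 0 := by
  classical
  ext a
  rw [cut_apply]
  by_cases ha : a ∈ E
  · rw [if_pos ha, Finsupp.single_apply, if_neg]
    · rfl
    · rintro rfl; exact h ha
  · rw [if_neg ha]; rfl

lemma vec_eq_sum (f : I →₀ 𝕜) :
    vec c f = ∑ ξ ∈ f.support, f ξ • vec c (Finsupp.single ξ (1 : 𝕜)) := by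
  conv_lhs => rw [← Finsupp.sum_single f, Finsupp.sum, vec_sum]
  refine Finset.sum_congr rfl fun ξ _ => ?_
  rw [← vec_smul, Finsupp.smul_single, smul_eq_mul, mul_one]

/-- the frame on `VV c 𝕜` -/
noncomputable def frameV (c : Coding I) (𝕜 : Type) [RCLike 𝕜] : Frame 𝕜 (VV c 𝕜) I where
  δ := fun ξ => vec c (Finsupp.single ξ (1 : 𝕜))
  R := fun γ => RV c 𝕜 (E := Iio γ) ordConnected_Iio
  e := fun ξ => actV c 𝕜 (Finsupp.single ξ 1)
  dense := by
    intro v
    rw [Metric.mem_closure_iff]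
    intro ε hε
    obtain ⟨f, hf⟩ := exists_vec_near v hε
    refine ⟨vec c f, ?_, by rwa [dist_eq_norm]⟩
    rw [vec_eq_sum]
    exact Submodule.sum_mem _ fun ξ _ => Submodule.smul_mem _ _ (Submodule.subset_span ⟨ξ, rfl⟩)
  R_norm := fun γ v => norm_RV_le _ v
  R_lt := fun γ ξ h => by rw [RV_vec, cut_single_mem (Iio γ) ξ (1 : 𝕜) h]
  R_ge := fun γ ξ h => by
    rw [RV_vec, cut_single_notMem (Iio γ) ξ (1 : 𝕜) (not_lt.mpr h)]
    exact map_zero (emb c 𝕜)
  e_self := fun ξ => by
    rw [actV_vec, act_single_left, Finsupp.single_eq_same]; simp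
  e_ne := fun ξ η h => by
    rw [actV_vec, act_single_left, Finsupp.single_apply, if_neg h.symm, mul_zero]

lemma frameV_R (γ : I) (v : VV c 𝕜) :
    (frameV c 𝕜).R γ v = RV c 𝕜 (E := Iio γ) ordConnected_Iio v := rfl

/-- a vector in the span of the basis over `E` comes from a function supported in `E` -/
lemma exists_vec_of_mem_span {E : Set I} {v : VV c 𝕜}
    (hv : v ∈ Submodule.span 𝕜 ((frameV c 𝕜).δ '' E)) :
    ∃ f : I →₀ 𝕜, ↑f.support ⊆ E ∧ vec c f = v := by
  classical
  obtain ⟨l, hl, rfl⟩ := (Finsupp.mem_span_image_iff_linearCombination 𝕜).mp hv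
  refine ⟨l, (Finsupp.mem_supported 𝕜 l).mp hl, ?_⟩
  rw [Finsupp.linearCombination_apply, vec_eq_sum]
  rfl

/-- the linear map `vec` -/
noncomputable def vecL (c : Coding I) (𝕜 : Type) [RCLike 𝕜] : (I →₀ 𝕜) →ₗ[𝕜] VV c 𝕜 where
  toFun := vec c
  map_add' := vec_add
  map_smul' := fun z f => vec_smul z f

/-- interface of the instantiation of the recursion data -/
structure TInst (r : Reg c) (d : TData 𝕜 (VV c 𝕜) I) : Prop where
  est : ∀ ξ, d.est ξ = actV c 𝕜 (Finsupp.single ξ 1)
  b : ∀ t (ht : IsSpecialSeq c t) l, d.b (r.reg ⟨t, ht⟩) l = (t l).1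
  S : ∀ t (ht : IsSpecialSeq c t) K, d.S (r.reg ⟨t, ht⟩) K = tailV c 𝕜 t K
  S_zero : ∀ ξ, (∀ t, r.reg t ≠ ξ) → ∀ K, d.S ξ K = 0

theorem TInst.compat {r : Reg c} {d : TData 𝕜 (VV c 𝕜) I} (h : TInst r d) :
    Frame.Compat (frameV c 𝕜) d where
  est := h.est
  S_R := by
    intro ξ K v
    by_cases hξ : ∃ t, r.reg t = ξ
    · obtain ⟨⟨t, ht⟩, rfl⟩ := hξ
      rw [h.S t ht K]
      refine tailV_RV ht K _ (fun l a ha => ?_) v
      exact r.lt ⟨t, ht⟩ l a ha
    · push Not at hξ
      rw [h.S_zero ξ hξ K]; rfl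

theorem mainProp {r : Reg c} [WellFoundedLT I] {d : TData 𝕜 (VV c 𝕜) I} (h : TInst r d) :
    (frameV c 𝕜).MainProp d.gen := by
  classical
  intro γ u a ha haγ hacof hune hu
  -- finitely supported representatives
  choose f hfsupp hf using fun k => exists_vec_of_mem_span (hu k)
  have hfne : ∀ k, f k ≠ 0 := by
    intro k h0
    apply hune k
    rw [← hf k, h0]
    exact map_zero (vecL c 𝕜)
  have hblock : IsBlockSeq f := by
    refine ⟨hfne, fun k k' hkk' => ?_⟩
    intro x hx y hy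
    have h1 := hfsupp k hx
    have h2 := hfsupp k' hy
    exact h1.2.trans_le ((ha (show k + 1 ≤ k' from hkk')).trans h2.1)
  obtain ⟨t, ht, δ, hδ, C, hC⟩ := main_lemma c f hblock
  -- vectors in the tail span are supported in `[a N, γ)`
  have htail : ∀ N, ∀ v ∈ tailSpan f N, ↑v.support ⊆ Ico (a N) γ := by
    intro N v hv
    induction hv using Submodule.span_induction with
    | mem x hx =>
      obtain ⟨k, hk, rfl⟩ := hx
      intro y hy
      have h1 := hfsupp k hy
      exact ⟨(ha hk).trans h1.1, h1.2.trans (haγ _)⟩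
    | zero => intro y hy; simp at hy
    | add x y _ _ hx hy =>
      intro z hz
      rcases Finset.mem_union.mp (Finsupp.support_add hz) with h1 | h1
      · exact hx h1
      · exact hy h1
    | smul b x _ hx => intro z hz; exact hx (Finsupp.support_smul hz)
  -- supports of `t` are below `γ`
  have htsupp : ∀ l, ∀ ξ ∈ (t l).1.support, ξ < γ := by
    intro l ξ hξ
    by_contra hcon
    push Not at hcon
    let F : Finset I := ((Finset.range (l + 1)).biUnion fun l' => (t l').1.support).filter (· < γ)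
    have hF : ∃ N, ∀ η ∈ F, η < a N := by
      have h1 : ∀ η ∈ F, ∃ k, η < a k := fun η hη => hacof η (Finset.mem_filter.mp hη).2
      choose! k hk using h1
      exact ⟨F.sup k, fun η hη => (hk η hη).trans_le (ha (Finset.le_sup hη))⟩
    obtain ⟨N, hN⟩ := hF
    obtain ⟨v, hv, -, hvδ⟩ := hC N
    have hvs := htail N v hv
    have h0 : actSeq t v = 0 := by
      unfold actSeq
      refine finsum_eq_zero_of_forall_eq_zero fun l' => ?_
      refine act_eq_zero_of_disjoint fun η hη hηv => ?_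
      have h2 := hvs hηv
      rcases Nat.lt_or_ge l l' with hl | hl
      · have h3 := (ht (l' + 1)).coded.succ l l' hl (by simp)
        rw [getElem_pre, getElem_pre] at h3
        exact absurd h2.2 (not_lt.mpr (hcon.trans (h3 ξ hξ η hη).le))
      · have h3 : η ∈ F := by
          refine Finset.mem_filter.mpr ⟨Finset.mem_biUnion.mpr ⟨l', ?_, hη⟩, h2.2⟩
          exact Finset.mem_range.mpr (Nat.lt_succ_of_le hl)
        exact absurd h2.1 (not_le.mpr (hN η h3))
    rw [h0, norm_zero] at hvδ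
    exact absurd hδ (not_lt.mpr hvδ)
  refine ⟨r.reg ⟨t, ht⟩, tailV c 𝕜 t 0, δ, C, hδ, ?_, ?_, ?_⟩
  · intro v
    rw [frameV_R]
    exact tailV_RV ht 0 _ (fun l x hx => htsupp l x hx) v
  · intro N
    obtain ⟨v, hv, hvC, hvδ⟩ := hC N
    refine ⟨vec c v, ?_, by rwa [norm_vec], by rwa [tailV_zero_vec ht]⟩
    have h1 : vecL c 𝕜 v ∈ Submodule.map (vecL c 𝕜) (tailSpan f N) := Submodule.mem_map_of_mem hv
    rw [tailSpan, Submodule.map_span] at h1
    refine Submodule.span_mono ?_ h1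
    rintro _ ⟨_, ⟨k, hk, rfl⟩, rfl⟩
    exact ⟨k, hk, (hf k).symm⟩
  · intro ψ hB hψ
    have h1 := h.compat.small_part (r.reg ⟨t, ht⟩) γ (fun l η hη => by
      rw [h.b t ht l] at hη; exact htsupp l η hη) ψ hB hψ
    rw [h.S t ht 0] at h1
    exact h1

end Crest.Agent.R114
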