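import Mathlib
import Crest.Agent.R114.FrameInst

set_option autoImplicit false

/-!
# Row 114, S0152: final assembly (helper606)
-/

open Set Filter Topology

namespace Crest.Agent.R114

theorem exists_space_of_inst {𝕜 : Type} [RCLike 𝕜] {I : Type} [LinearOrder I] (hI : GoodIndex I)
    {c : Coding I} {r : Reg c} [WellFoundedLT I] {d : TData 𝕜 (VV c 𝕜) I} (h : TInst r d)
    (hdual : ∀ F : Frame.Predual d.gen →L[𝕜] 𝕜, ∃ v : VV c 𝕜, ∀ β,
      F ⟨d.gen β, Frame.mem_predual _ β⟩ = d.gen β v) :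
    ∃ (X : Type) (_ : NormedAddCommGroup X) (_ : NormedSpace 𝕜 X),
      CompleteSpace X ∧ ¬ FiniteDimensional 𝕜 X ∧
      ∀ M : Submodule 𝕜 X, IsClosed (M : Set X) →
        TopologicalSpace.SeparableSpace (X ⧸ M) → FiniteDimensional 𝕜 (X ⧸ M) := by
  have hne : Nonempty I := hI.ne
  have hcof : ∀ s : ℕ → I, ∃ γ, ∀ n, s n < γ := by
    intro s
    obtain ⟨γ, hγ⟩ := hI.bdd (range s) (countable_range s)
    exact ⟨γ, fun n => hγ _ ⟨n, rfl⟩⟩
  have hcount : ∀ γ : I, (Iio γ).Countable := fun γ => (hI.ctbl γ).mono Iio_subset_Iic_self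
  have hnomax : NoMaxOrder I := ⟨fun a => by
    obtain ⟨γ, hγ⟩ := hcof (fun _ => a)
    exact ⟨γ, hγ 0⟩⟩
  have hinf : Infinite I := inferInstance
  exact (frameV c 𝕜).exists_space hcount hcof d.gen (mainProp h) hdual
    (fun v hv => h.compat.gen_inj hcof v hv)

end Crest.Agent.R114
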