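import Mathlib

set_option autoImplicit false

/-!
# ℓ₁-averages from lower estimates (row 114, S0152)
-/

namespace Crest.Agent.R114

open Filter Topology

section
variable {𝕜 : Type*} {E : Type*} [RCLike 𝕜] [NormedAddCommGroup E] [NormedSpace 𝕜 E]

/-- `z` is a sequence of blocks of `u` along the monotone cut sequence `a`. -/
def IsBlocks (𝕜 : Type*) {E : Type*} [RCLike 𝕜] [NormedAddCommGroup E] [NormedSpace 𝕜 E]
    (u : ℕ → E) (a : ℕ → ℕ) (z : ℕ → E) : Prop :=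
  Monotone a ∧ ∀ i, z i ∈ Submodule.span 𝕜 (u '' Set.Ico (a i) (a (i + 1)))

theorem span_Ico_mono (u : ℕ → E) {a b c d : ℕ} (h1 : c ≤ a) (h2 : b ≤ d) :
    Submodule.span 𝕜 (u '' Set.Ico a b) ≤ Submodule.span 𝕜 (u '' Set.Ico c d) :=
  Submodule.span_mono (Set.image_mono (Set.Ico_subset_Ico h1 h2))

theorem sum_range_mul_block {F : Type*} [AddCommMonoid F] (z : ℕ → F) (M N : ℕ) :
    ∑ i ∈ Finset.range (N * M), z i = ∑ k ∈ Finset.range N, ∑ i ∈ Finset.range M, z (k * M + i) := by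
  induction N with
  | zero => simp
  | succ N ih => rw [Nat.succ_mul, Finset.sum_range_add, ih, Finset.sum_range_succ]

/-- Existence of `ℓ₁^N`-averages with constant 2 in every block subspace. -/
theorem exists_l1_blocks (u : ℕ → E) (hu : ∀ i, u i ≠ 0) (m : ℕ → ℝ) (n : ℕ → ℕ)
    (hlow : ∀ j, ∀ (a : ℕ → ℕ) (z : ℕ → E), IsBlocks 𝕜 u a z → ∀ r ≤ n j,
      ∑ i ∈ Finset.range r, ‖z i‖ ≤ m j * ‖∑ i ∈ Finset.range r, z i‖)
    (N : ℕ) (hN : 0 < N) (hgrow : ∃ j s : ℕ, N ^ s ≤ n j ∧ m j < 2 ^ s) (L : ℕ) :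
    ∃ (a : ℕ → ℕ) (z : ℕ → E), IsBlocks 𝕜 u a z ∧ L ≤ a 0 ∧ (∀ i, ‖z i‖ ≤ 1) ∧
      (N : ℝ) / 2 < ‖∑ i ∈ Finset.range N, z i‖ := by
  classical
  by_contra hcon
  push Not at hcon
  have hNpos : (0 : ℝ) < N := by exact_mod_cast hN
  -- iterate
  have key : ∀ s : ℕ, ∀ (a : ℕ → ℕ) (z : ℕ → E), IsBlocks 𝕜 u a z → L ≤ a 0 → (∀ i, ‖z i‖ ≤ 1) →
      ‖∑ i ∈ Finset.range (N ^ s), z i‖ ≤ ((N : ℝ) / 2) ^ s := by
    intro s
    induction s with
    | zero =>
      intro a z _ _ hz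
      simpa using hz 0
    | succ s ih =>
      intro a z haz hL hz
      have hC : (0 : ℝ) < ((N : ℝ) / 2) ^ s := by positivity
      let c : 𝕜 := (((((N : ℝ) / 2) ^ s)⁻¹ : ℝ) : 𝕜)
      have hcnorm : ‖c‖ = (((N : ℝ) / 2) ^ s)⁻¹ := by
        simp only [c, RCLike.norm_ofReal]
        exact abs_of_pos (inv_pos.mpr hC)
      let w : ℕ → E := fun k => ∑ i ∈ Finset.range (N ^ s), z (k * N ^ s + i)
      have hw : ∀ k, ‖w k‖ ≤ ((N : ℝ) / 2) ^ s := by
        intro k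
        refine ih (fun i => a (k * N ^ s + i)) (fun i => z (k * N ^ s + i)) ⟨?_, ?_⟩ ?_ ?_
        · intro i i' hii'; exact haz.1 (by omega)
        · intro i; exact haz.2 (k * N ^ s + i)
        · exact hL.trans (haz.1 (Nat.zero_le _))
        · intro i; exact hz _
      have hblocks : IsBlocks 𝕜 u (fun k => a (k * N ^ s)) (fun k => c • w k) := by
        refine ⟨?_, ?_⟩
        · intro k k' hkk'; exact haz.1 (Nat.mul_le_mul_right _ hkk')
        · intro k
          refine Submodule.smul_mem _ _ (Submodule.sum_mem _ fun i hi => ?_)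
          refine span_Ico_mono u (haz.1 (Nat.le_add_right _ _)) ?_ (haz.2 (k * N ^ s + i))
          apply haz.1
          have := Finset.mem_range.mp hi
          rw [Nat.succ_mul]; omega
      have h1 := hcon (fun k => a (k * N ^ s)) (fun k => c • w k) hblocks (by simpa using hL)
        (fun k => by
          rw [norm_smul, hcnorm, inv_mul_le_iff₀ hC, mul_one]; exact hw k)
      have h2 : ∑ k ∈ Finset.range N, c • w k = c • ∑ i ∈ Finset.range (N ^ (s + 1)), z i := by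
        rw [← Finset.smul_sum, pow_succ, Nat.mul_comm, sum_range_mul_block]
      rw [h2, norm_smul, hcnorm, inv_mul_le_iff₀ hC] at h1
      calc _ ≤ ((N : ℝ) / 2) ^ s * ((N : ℝ) / 2) := h1
        _ = ((N : ℝ) / 2) ^ (s + 1) := (pow_succ _ _).symm
  obtain ⟨j, s, hs1, hs2⟩ := hgrow
  let z : ℕ → E := fun i => ((‖u (L + i)‖⁻¹ : ℝ) : 𝕜) • u (L + i)
  have hznorm : ∀ i, ‖z i‖ = 1 := by
    intro i
    have hpos : 0 < ‖u (L + i)‖ := norm_pos_iff.mpr (hu _)
    simp only [z, norm_smul, RCLike.norm_ofReal, abs_inv, abs_norm]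
    exact inv_mul_cancel₀ hpos.ne'
  have hz : IsBlocks 𝕜 u (fun i => L + i) z := by
    refine ⟨fun i i' h => by simpa using h, fun i => Submodule.smul_mem _ _ (Submodule.subset_span ?_)⟩
    exact ⟨L + i, ⟨le_rfl, by show L + i < L + (i + 1); omega⟩, rfl⟩
  have h1 := hlow j _ z hz (N ^ s) hs1
  have h2 := key s _ z hz (by simp) (fun i => (hznorm i).le)
  have h3 : ∑ i ∈ Finset.range (N ^ s), ‖z i‖ = (N : ℝ) ^ s := by
    simp [hznorm]
  rw [h3] at h1
  have hmpos : 0 < m j := by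
    by_contra hm
    push Not at hm
    have : m j * ‖∑ i ∈ Finset.range (N ^ s), z i‖ ≤ 0 :=
      mul_nonpos_of_nonpos_of_nonneg hm (norm_nonneg _)
    have : (0 : ℝ) < (N : ℝ) ^ s := by positivity
    linarith
  have h4 : (N : ℝ) ^ s ≤ m j * ((N : ℝ) / 2) ^ s := h1.trans (mul_le_mul_of_nonneg_left h2 hmpos.le)
  rw [div_pow, mul_div_assoc', le_div_iff₀ (by positivity)] at h4
  have h5 : (N : ℝ) ^ s * m j < (N : ℝ) ^ s * 2 ^ s := mul_lt_mul_of_pos_left hs2 (by positivity)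
  linarith

end

end Crest.Agent.R114
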