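import Crest.Agent.R114.MainDefs

/-! # Row 114, S0152 (S4, S5): action of weighted functionals on averages. -/

set_option autoImplicit false

open Set Filter

namespace Crest.Agent.R114

variable {I : Type} [LinearOrder I] {c : Coding I} {𝕜 : Type} [RCLike 𝕜]

open Classical in
/-- incidences between two families of successive finite sets -/
theorem incidence (d N : ℕ) (A B : ℕ → Finset I)
    (hA : ∀ i i', i < i' → i' < d → SLt (A i) (A i'))
    (hB : ∀ i i', i < i' → i' < N → SLt (B i) (B i')) :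
    ((Finset.range d ×ˢ Finset.range N).filter fun p => (A p.1 ∩ B p.2).Nonempty).card ≤ d + N := by
  have key : ∀ p p' : ℕ × ℕ, p'.1 < d → p.2 < N → (A p.1 ∩ B p.2).Nonempty →
      (A p'.1 ∩ B p'.2).Nonempty → p.1 + p.2 = p'.1 + p'.2 → ¬ p.1 < p'.1 := by
    rintro p p' h2 h3 ⟨a, ha⟩ ⟨a', ha'⟩ h lt
    rw [Finset.mem_inter] at ha ha'
    have e1 := hA _ _ lt h2 a ha.1 a' ha'.1
    have e2 := hB _ _ (by omega : p'.2 < p.2) h3 a' ha'.2 a ha.2
    exact absurd e1 (not_lt.2 e2.le)
  calc _ ≤ (Finset.range (d + N)).card := by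
        refine Finset.card_le_card_of_injOn (fun p => p.1 + p.2) ?_ ?_
        · intro p hp
          simp only [Finset.coe_filter, Finset.mem_product, Finset.mem_range, mem_ofPred_eq] at hp
          simp only [Finset.coe_range, mem_Iio]
          omega
        · intro p hp p' hp' h
          simp only [Finset.coe_filter, Finset.mem_product, Finset.mem_range, mem_ofPred_eq] at hp hp'
          simp only at h
          have h1 := key p p' hp'.1.1 hp.1.2 hp.2 hp'.2 h
          have h2 := key p' p hp.1.1 hp'.1.2 hp'.2 hp.2 h.symm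
          have h3 : p.1 = p'.1 := by omega
          exact Prod.ext h3 (by omega)
    _ = d + N := Finset.card_range _

/-- **S4**: weighted functionals on averages. -/
theorem act_average {j N : ℕ} (hN : nq j ≤ N) {b : I →₀ ℚ} (hb : IsW (NB c) j b)
    (h : ℕ → I →₀ 𝕜) (hs : ∀ i i', i < i' → i' < N → SLt (h i).support (h i').support)
    {M : ℝ} (hM : ∀ i < N, nrm c (h i) ≤ M) :
    ‖act b (∑ i ∈ Finset.range N, h i)‖ ≤ 2 * M * N / mq j := by
  classical
  obtain ⟨l, h1, h2, h3, rfl⟩ := hb
  have hN1 : 0 < N := lt_of_lt_of_le (lt_of_lt_of_le one_pos (one_le_nprev (j + 1))) hN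
  have hM0 : 0 ≤ M := (nrm_nonneg _).trans (hM 0 hN1)
  set d := l.length with hd
  have hsum : l.sum = ∑ q ∈ Finset.range d, l.getD q 0 := by
    rw [Finset.sum_range, ← Fin.sum_univ_getElem]
    refine Finset.sum_congr rfl fun q _ => ?_
    rw [List.getD_eq_getElem]
  set P := ((Finset.range d ×ˢ Finset.range N).filter
    fun p => ((l.getD p.1 0).support ∩ (h p.2).support).Nonempty) with hP
  have hcard : P.card ≤ d + N := by
    refine incidence d N (fun q => (l.getD q 0).support) (fun i => (h i).support) ?_ hs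
    intro q q' hq hq'
    have hq1 : q < l.length := hq.trans hq'
    rw [List.getD_eq_getElem _ _ hq1, List.getD_eq_getElem _ _ hq']
    exact (List.pairwise_iff_getElem.1 h3) q q' hq1 hq' hq
  have hmain : ‖act l.sum (∑ i ∈ Finset.range N, h i)‖ ≤ (d + N : ℕ) * M := by
    have e1 : act l.sum (∑ i ∈ Finset.range N, h i) =
        ∑ p ∈ Finset.range d ×ˢ Finset.range N, act (l.getD p.1 0) (h p.2) := by
      rw [hsum, act_sum_left, Finset.sum_product]
      exact Finset.sum_congr rfl fun q _ => act_sum _ _ _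
    have e2 : ∑ p ∈ Finset.range d ×ˢ Finset.range N, act (l.getD p.1 0) (h p.2) =
        ∑ p ∈ P, act (l.getD p.1 0) (h p.2) := by
      rw [hP, Finset.sum_filter]
      refine Finset.sum_congr rfl fun p _ => ?_
      split_ifs with hne
      · rfl
      · refine act_eq_zero_of_disjoint fun a ha ha' => hne ⟨a, Finset.mem_inter.2 ⟨ha, ha'⟩⟩
    rw [e1, e2]
    calc ‖∑ p ∈ P, act (l.getD p.1 0) (h p.2)‖ ≤ ∑ p ∈ P, M := by
          refine (norm_sum_le _ _).trans (Finset.sum_le_sum fun p hp => ?_)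
          simp only [hP, Finset.mem_filter, Finset.mem_product, Finset.mem_range] at hp
          refine (norm_act_le (c := c) ?_ _).trans (hM _ hp.1.2)
          rw [List.getD_eq_getElem _ _ hp.1.1]
          exact h2 _ (List.getElem_mem _)
      _ = P.card * M := by rw [Finset.sum_const, nsmul_eq_mul]
      _ ≤ (d + N : ℕ) * M := by gcongr
  have hmq : (0 : ℝ) < mq j := by unfold mq; positivity
  rw [act_smul_left, norm_mul]
  have h4 : ‖((((mq j : ℚ))⁻¹ : ℚ) : 𝕜)‖ = ((mq j : ℝ))⁻¹ := by
    have : ((((mq j : ℚ))⁻¹ : ℚ) : 𝕜) = (((mq j : ℝ)⁻¹ : ℝ) : 𝕜) := by push_cast; rfl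
    rw [this, RCLike.norm_ofReal, abs_of_nonneg (by positivity)]
  rw [h4, div_eq_inv_mul]
  refine mul_le_mul_of_nonneg_left (hmain.trans ?_) (by positivity)
  have h5 : ((d + N : ℕ) : ℝ) ≤ 2 * N := by
    have : d + N ≤ 2 * N := by omega
    exact_mod_cast this
  nlinarith

/-- **avg**: an interval part of an average is almost an average. -/
theorem average_cut (N : ℕ) (hN : 0 < N) (h : ℕ → I →₀ 𝕜)
    (hs : ∀ i i', i < i' → i' < N → SLt (h i).support (h i').support)
    {M : ℝ} (hM : ∀ i < N, nrm c (h i) ≤ M) {E : Set I} (hE : E.OrdConnected) :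
    ∃ T ⊆ Finset.range N, ∀ b, NB c b →
      ‖act (cut E b) (∑ i ∈ Finset.range N, h i) - act b (∑ i ∈ T, h i)‖ ≤ 2 * M := by
  classical
  have hM0 : 0 ≤ M := (nrm_nonneg _).trans (hM 0 hN)
  refine ⟨(Finset.range N).filter fun i => ↑(h i).support ⊆ E, Finset.filter_subset _ _, ?_⟩
  intro b hb
  set X := (Finset.range N).filter fun i => (∃ a ∈ (h i).support, a ∈ E) ∧ ¬ ↑(h i).support ⊆ E
    with hX
  have hdiff : act (cut E b) (∑ i ∈ Finset.range N, h i) -
      act b (∑ i ∈ (Finset.range N).filter fun i => ↑(h i).support ⊆ E, h i) =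
      ∑ i ∈ X, act (cut E b) (h i) := by
    rw [act_sum, act_sum, Finset.sum_filter, hX, Finset.sum_filter, ← Finset.sum_sub_distrib]
    refine Finset.sum_congr rfl fun i _ => ?_
    by_cases h1 : ↑(h i).support ⊆ E
    · rw [if_pos h1, if_neg (fun h => h.2 h1), act_cut, cut_of_subset h1, sub_self]
    · rw [if_neg h1, sub_zero]
      by_cases h2 : ∃ a ∈ (h i).support, a ∈ E
      · rw [if_pos ⟨h2, h1⟩]
      · rw [if_neg (fun h => h2 h.1)]
        refine act_eq_zero_of_disjoint fun a ha ha' => h2 ⟨a, ha', ?_⟩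
        exact (cut_support E b a ha).1
  have hcard : X.card ≤ 2 := by
    rcases X.eq_empty_or_nonempty with h0 | hne
    · rw [h0]; simp
    · have hsub : X ⊆ {X.min' hne, X.max' hne} := by
        intro i hi
        rw [Finset.mem_insert, Finset.mem_singleton]
        by_contra hcon
        rw [not_or] at hcon
        have hlt1 : X.min' hne < i := lt_of_le_of_ne (X.min'_le i hi) (Ne.symm hcon.1)
        have hlt2 : i < X.max' hne := lt_of_le_of_ne (X.le_max' i hi) hcon.2
        have hmin := X.min'_mem hne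
        have hmax := X.max'_mem hne
        have hmem : ∀ k ∈ X, k < N ∧ (∃ a ∈ (h k).support, a ∈ E) ∧ ¬ ↑(h k).support ⊆ E := by
          intro k hk
          simpa only [hX, Finset.mem_filter, Finset.mem_range] using hk
        replace hi := hmem _ hi
        replace hmin := hmem _ hmin
        replace hmax := hmem _ hmax
        obtain ⟨a1, ha1, ha1E⟩ := hmin.2.1
        obtain ⟨a3, ha3, ha3E⟩ := hmax.2.1
        refine hi.2.2 fun a ha => ?_
        refine hE.out ha1E ha3E ⟨?_, ?_⟩
        · exact (hs _ _ hlt1 hi.1 a1 ha1 a ha).le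
        · exact (hs _ _ hlt2 hmax.1 a ha a3 ha3).le
      exact (Finset.card_le_card hsub).trans Finset.card_le_two
  rw [hdiff]
  calc ‖∑ i ∈ X, act (cut E b) (h i)‖ ≤ ∑ i ∈ X, M := by
        refine (norm_sum_le _ _).trans (Finset.sum_le_sum fun i hi => ?_)
        simp only [hX, Finset.mem_filter, Finset.mem_range] at hi
        exact (norm_act_le (hb.cut hE) _).trans (hM i hi.1)
    _ = X.card * M := by rw [Finset.sum_const, nsmul_eq_mul]
    _ ≤ (2 : ℕ) * M := by gcongr
    _ = 2 * M := by norm_num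

/-- **S5**: the part of a special list with large indices acts by at most `(2/m) ‖f‖_1`;
more generally any sum of parts of elements with distinct indices `> j`. -/
theorem act_large (j : ℕ) (T : Finset ℕ) (hT : ∀ i ∈ T, j ≤ i) (b : ℕ → I →₀ ℚ)
    (hb : ∀ i ∈ T, ∀ a, |b i a| ≤ ((mq i : ℚ))⁻¹) (f : I →₀ 𝕜) :
    ∑ i ∈ T, ‖act (b i) f‖ ≤ 2 / mq j * l1 f := by
  calc ∑ i ∈ T, ‖act (b i) f‖ ≤ ∑ i ∈ T, ((mq i : ℝ))⁻¹ * l1 f := by
        refine Finset.sum_le_sum fun i hi => norm_act_le_l1 f fun a => ?_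
        have := hb i hi a
        have h2 : ((|b i a| : ℚ) : ℝ) ≤ ((((mq i : ℚ))⁻¹ : ℚ) : ℝ) := by exact_mod_cast this
        simpa using h2
    _ = (∑ i ∈ T, ((mq i : ℝ))⁻¹) * l1 f := by rw [Finset.sum_mul]
    _ ≤ 2 * ((mq j : ℝ))⁻¹ * l1 f := by
        exact mul_le_mul_of_nonneg_right (sum_inv_mq_le j T hT) (l1_nonneg f)
    _ = _ := by rw [div_eq_mul_inv]

end Crest.Agent.R114
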