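import Crest.Agent.R114.Link
import Crest.Agent.R114.Incid

/-! # Row 114, S0152 (S7): common lemmas: parts of a special list. -/

set_option autoImplicit false

open Set Filter

namespace Crest.Agent.R114

variable {I : Type} [LinearOrder I] {c : Coding I} {𝕜 : Type} [RCLike 𝕜]

/-- output of the case distinction: finite sets `A` of indices far out such that the sum of the
`y k`, `k ∈ A`, is large, and the total window action of any special list is small. -/
def GoodSets (c : Coding I) (y : ℕ → I →₀ 𝕜) (w : ℕ → ℕ) (κ : ℝ) : Prop :=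
  ∀ θ : ℝ, 0 < θ → ∀ K : ℕ, ∃ A : Finset ℕ, A.Nonempty ∧ (∀ k ∈ A, K ≤ k) ∧
    κ * A.card ≤ nrm c (∑ k ∈ A, y k) ∧
    ∀ (L : SList I) (E : Set I) (J : Set ℕ), IsSpecial c (NB c) L → E.OrdConnected →
      J.OrdConnected →
      ∑ k ∈ A, ‖act (piece L E (J ∩ Ioc (w k) (w (k + 1)))) (y k)‖ ≤ θ * A.card

/-- splitting a piece according to the index -/
theorem piece_split (L : SList I) (E : Set I) (J : Set ℕ) {a b : ℕ} (hab : a ≤ b) :
    piece L E J = piece L E (J ∩ Iic a) + piece L E (J ∩ Ioc a b) + piece L E (J ∩ Ioi b) := by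
  classical
  unfold piece
  rw [← cut_add, ← cut_add]
  congr 1
  induction L with
  | nil => simp
  | cons p L ih =>
    simp only [List.filter_cons]
    by_cases hJ : p.2 ∈ J
    · rcases le_or_gt p.2 a with h1 | h1
      · rw [if_pos (by simpa using hJ), if_pos (by simpa using ⟨hJ, h1⟩),
          if_neg (by simp only [decide_eq_true_eq, mem_inter_iff, mem_Ioc]; omega),
          if_neg (by simp only [decide_eq_true_eq, mem_inter_iff, mem_Ioi]; omega),
          List.map_cons, List.sum_cons, List.map_cons, List.sum_cons, ih]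
        abel
      · rcases le_or_gt p.2 b with h2 | h2
        · rw [if_pos (by simpa using hJ),
            if_neg (by simp only [decide_eq_true_eq, mem_inter_iff, mem_Iic]; omega),
            if_pos (by simpa using ⟨hJ, h1, h2⟩),
            if_neg (by simp only [decide_eq_true_eq, mem_inter_iff, mem_Ioi]; omega),
            List.map_cons, List.sum_cons, List.map_cons, List.sum_cons, ih]
          abel
        · rw [if_pos (by simpa using hJ),
            if_neg (by simp only [decide_eq_true_eq, mem_inter_iff, mem_Iic]; omega),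
            if_neg (by simp only [decide_eq_true_eq, mem_inter_iff, mem_Ioc]; omega),
            if_pos (by simpa using ⟨hJ, h2⟩),
            List.map_cons, List.sum_cons, List.map_cons, List.sum_cons, ih]
          abel
    · rw [if_neg (by simpa using hJ), if_neg (by simp [hJ]), if_neg (by simp [hJ]),
        if_neg (by simp [hJ]), ih]

/-- a piece of a special list as a sum over indices -/
theorem piece_as_sum {L : SList I} (hL : IsSpecial c (NB c) L) {E : Set I}
    (hE : E.OrdConnected) (J : Set ℕ) :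
    ∃ (T : Finset ℕ) (x : ℕ → I →₀ ℚ), (∀ i ∈ T, i ∈ J) ∧ (∀ i ∈ T, IsW (NB c) i (cut E (x i))) ∧
      piece L E J = ∑ i ∈ T, cut E (x i) := by
  classical
  obtain ⟨T, x, h1, h2, h3⟩ := psi_flatten (n := 1) (L := fun _ => L) (J := fun _ => J)
    (B := NB c) (c := c) (fun _ => hL) (fun u v huv => absurd (Subsingleton.elim u v) huv)
  refine ⟨T 0, x 0, fun i hi => (h1 0 i hi).2, fun i hi => (hL.wt _ (h1 0 i hi).1).cut hE, ?_⟩
  have := h3 0 E J subset_rfl
  rw [this, Finset.filter_true_of_mem]
  intro i hi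
  exact (h1 0 i hi).2

/-- small indices -/
theorem act_piece_small {L : SList I} (hL : IsSpecial c (NB c) L) {E : Set I}
    (hE : E.OrdConnected) {J : Set ℕ} {W a : ℕ} (hJ : J ⊆ Ioc W a) {f : I →₀ 𝕜}
    (hf : ∀ i b, i ≤ a → IsW (NB c) i b → ‖act b f‖ ≤ 4 / mq i) :
    ‖act (piece L E J) f‖ ≤ 8 / mq (W + 1) := by
  obtain ⟨T, x, h1, h2, h3⟩ := piece_as_sum hL hE J
  rw [h3, act_sum_left]
  refine (norm_sum_le _ _).trans ?_
  have h4 : ∀ i ∈ T, ‖act (cut E (x i)) f‖ ≤ 4 * ((mq i : ℝ))⁻¹ := by
    intro i hi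
    have := hf i (cut E (x i)) (hJ (h1 i hi)).2 (h2 i hi)
    rwa [div_eq_mul_inv] at this
  refine (Finset.sum_le_sum h4).trans ?_
  rw [← Finset.mul_sum]
  have h5 := sum_inv_mq_le (W + 1) T (fun i hi => (hJ (h1 i hi)).1)
  have h6 : (8 : ℝ) / mq (W + 1) = 4 * (2 * ((mq (W + 1) : ℝ))⁻¹) := by
    rw [div_eq_mul_inv]; ring
  rw [h6]
  exact mul_le_mul_of_nonneg_left h5 (by norm_num)

/-- large indices -/
theorem act_piece_large {L : SList I} (hL : IsSpecial c (NB c) L) {E : Set I}
    (hE : E.OrdConnected) {J : Set ℕ} {b : ℕ} (hJ : J ⊆ Ioi b) (f : I →₀ 𝕜) :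
    ‖act (piece L E J) f‖ ≤ 2 / mq (b + 1) * l1 f := by
  obtain ⟨T, x, h1, h2, h3⟩ := piece_as_sum hL hE J
  rw [h3, act_sum_left]
  refine (norm_sum_le _ _).trans ?_
  exact act_large (b + 1) T (fun i hi => hJ (h1 i hi)) (fun i => cut E (x i))
    (fun i hi a => (h2 i hi).abs_le a) f

end Crest.Agent.R114
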