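import Crest.Agent.R114.GSeqA

/-! # Row 114, S0152 (S7): the case distinction. -/

set_option autoImplicit false

open Set Filter

namespace Crest.Agent.R114

variable {I : Type} [LinearOrder I] {c : Coding I} {𝕜 : Type} [RCLike 𝕜]

/-- Case 1: windows far out on which no special list acts. -/
theorem goodSets_case1 {u y : ℕ → I →₀ 𝕜} {w : ℕ → ℕ} (hy : YData c u y w)
    (h1 : ∀ δ : ℝ, 0 < δ → ∀ N : ℕ, ∃ k, N ≤ k ∧ ∀ L, IsSpecial c (NB c) L → ¬ Acts y w δ k L) :
    GoodSets c y w 1 := by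
  intro θ hθ K
  obtain ⟨k, hk, hL⟩ := h1 θ hθ K
  refine ⟨{k}, Finset.singleton_nonempty k, ?_, ?_, ?_⟩
  · intro k' hk'
    rw [Finset.mem_singleton] at hk'
    rwa [hk']
  · rw [Finset.sum_singleton, Finset.card_singleton, hy.nrm_eq]
    norm_num
  · intro L E J hLs hE hJ
    rw [Finset.sum_singleton, Finset.card_singleton, Nat.cast_one, mul_one]
    by_contra hcon
    exact hL L hLs ⟨E, _, hE, hJ.inter ordConnected_Ioc, inter_subset_right, (not_le.1 hcon).le⟩

/-- the hull of the support of a vector -/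
private lemma exists_hull (y : ℕ → I →₀ 𝕜) (hy : IsBlockSeq y) (k : ℕ) (A : Finset ℕ)
    (hk : k ∈ A) : ∃ H : Set I, H.OrdConnected ∧ cut H (∑ k' ∈ A, y k') = y k := by
  classical
  refine ⟨{a | ∃ x ∈ (y k).support, x ≤ a} ∩ {a | ∃ z ∈ (y k).support, a ≤ z}, ?_, ?_⟩
  · refine OrdConnected.inter ?_ ?_
    · refine IsUpperSet.ordConnected ?_
      rintro a b hab ⟨x, hx, hxa⟩
      exact ⟨x, hx, hxa.trans hab⟩
    · refine IsLowerSet.ordConnected ?_
      rintro a b hab ⟨x, hx, hxa⟩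
      exact ⟨x, hx, hab.trans hxa⟩
  · rw [cut_sum, Finset.sum_eq_single k]
    · refine cut_of_subset ?_
      intro a ha
      exact ⟨⟨a, ha, le_rfl⟩, ⟨a, ha, le_rfl⟩⟩
    · intro k' _ hne
      ext a
      rw [cut_apply, Finsupp.zero_apply]
      split_ifs with ha
      · obtain ⟨⟨x, hx, hxa⟩, ⟨z, hz, haz⟩⟩ := ha
        by_contra hne0
        have ha' : a ∈ (y k').support := Finsupp.mem_support_iff.2 hne0
        rcases lt_or_gt_of_ne hne with h | h
        · exact absurd (hy.slt k' k h a ha' x hx) (not_lt.2 hxa)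
        · exact absurd (hy.slt k k' h z hz a ha') (not_lt.2 haz)
      · rfl
    · intro h
      exact absurd hk h

/-- Case 2: far out every `y k` is acted upon by a special list; use averages over the sets of
`link`. -/
theorem goodSets_case2 {u y : ℕ → I →₀ 𝕜} {w : ℕ → ℕ} (hu : IsBlockSeq u) (hy : YData c u y w)
    (hNK : NK c u) {δ : ℝ} (hδ : 0 < δ) (N : ℕ)
    (h2 : ∀ k, N ≤ k → ∃ L, IsSpecial c (NB c) L ∧ Acts y w δ k L) :
    GoodSets c y w (δ / 2) := by
  classical
  intro θ hθ K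
  obtain ⟨R, hR⟩ := exists_nat_gt (2 / θ)
  have hRpos : (0 : ℝ) < R := lt_trans (by positivity) hR
  have hR1 : 2 < θ * R := by
    rw [div_lt_iff₀ hθ] at hR
    linarith
  obtain ⟨M, hMS, hM, hlink⟩ := link hu hy hNK (θ / 2) (by positivity) (Ici (max (max K N) R))
    (Set.Ici_infinite _)
  obtain ⟨A, hAM, hAc⟩ := hM.exists_subset_card_eq R
  have hAK : ∀ k ∈ A, max (max K N) R ≤ k := fun k hk => hMS (hAM hk)
  have hAne : A.Nonempty := by
    rw [← Finset.card_pos, hAc]
    exact_mod_cast hRpos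
  have hwk : ∀ k ∈ A, R ≤ w k := fun k hk =>
    ((le_max_right _ _).trans (hAK k hk)).trans (hy.w_mono.le_apply)
  have hdisj : ∀ k k' j, j ∈ Ioc (w k) (w (k + 1)) → j ∈ Ioc (w k') (w (k' + 1)) → k = k' := by
    intro k k' j h h'
    by_contra hne
    rcases lt_or_gt_of_ne hne with hlt | hlt
    · have := hy.w_mono.monotone (show k + 1 ≤ k' from hlt)
      have h1 := h.2
      have h2 := h'.1
      omega
    · have := hy.w_mono.monotone (show k' + 1 ≤ k from hlt)
      have h1 := h'.2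
      have h2 := h.1
      omega
  refine ⟨A, hAne, fun k hk => ((le_max_left _ _).trans (le_max_left _ _)).trans (hAK k hk),
    ?_, ?_⟩
  · -- lower bound
    have h3 : ∀ k : ℕ, ∃ (L : SList I) (E : Set I) (J : Set ℕ), k ∈ A → IsSpecial c (NB c) L ∧
        E.OrdConnected ∧ J.OrdConnected ∧ J ⊆ Ioc (w k) (w (k + 1)) ∧
        δ ≤ ‖act (piece L E J) (∑ k' ∈ A, y k')‖ := by
      intro k
      by_cases hk : k ∈ A
      · obtain ⟨L, hL, E, J, hE, hJ, hJW, hact⟩ := h2 k
          (((le_max_right _ _).trans (le_max_left _ _)).trans (hAK k hk))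
        obtain ⟨H, hH, hHy⟩ := exists_hull y hy.block k A hk
        refine ⟨L, H ∩ E, J, fun _ => ⟨hL, hH.inter hE, hJ, hJW, ?_⟩⟩
        rw [← piece_cut, act_cut, hHy]
        exact hact
      · exact ⟨[], ∅, ∅, fun h => absurd h hk⟩
    choose L E J h4 using h3
    have h5 := sum_act_piece_le (c := c) A L E J (fun k hk => (h4 k hk).1)
      (fun k hk => (h4 k hk).2.1) (fun k hk => (h4 k hk).2.2.1)
      (fun k hk p _ hp => by
        have := ((h4 k hk).2.2.2.1 hp).1
        have := hwk k hk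
        omega)
      (fun k hk k' hk' hne p _ q _ hp hq heq => by
        refine hne (hdisj k k' p.2 ((h4 k hk).2.2.2.1 hp) ?_)
        rw [heq]
        exact (h4 k' hk').2.2.2.1 hq)
      (∑ k' ∈ A, y k')
    have h6 : (A.card : ℝ) * δ ≤ ∑ k ∈ A, ‖act (piece (L k) (E k) (J k)) (∑ k' ∈ A, y k')‖ := by
      rw [← nsmul_eq_mul, ← Finset.sum_const]
      exact Finset.sum_le_sum fun k hk => (h4 k hk).2.2.2.2
    linarith
  · -- upper bound
    intro L E J hL hE hJ
    set f : ℕ → ℝ := fun k => ‖act (piece L E (J ∩ Ioc (w k) (w (k + 1)))) (y k)‖ with hf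
    have hf1 : ∀ k, f k ≤ 1 := fun k =>
      (act_piece_le hL hE (hJ.inter ordConnected_Ioc)).trans (hy.nrm_eq k).le
    have hone : ∀ k ∈ A, ∀ k' ∈ A, k < k' → ¬ (θ / 2 ≤ f k ∧ θ / 2 ≤ f k') := by
      rintro k hk k' hk' hlt ⟨ha, hb⟩
      exact hlink k (hAM hk) k' (hAM hk') hlt L hL
        ⟨⟨E, _, hE, hJ.inter ordConnected_Ioc, inter_subset_right, ha⟩,
          ⟨E, _, hE, hJ.inter ordConnected_Ioc, inter_subset_right, hb⟩⟩
    have hcard : (A.filter fun k => θ / 2 ≤ f k).card ≤ 1 := by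
      rw [Finset.card_le_one]
      intro k hk k' hk'
      rw [Finset.mem_filter] at hk hk'
      by_contra hne
      rcases lt_or_gt_of_ne hne with h | h
      · exact hone k hk.1 k' hk'.1 h ⟨hk.2, hk'.2⟩
      · exact hone k' hk'.1 k hk.1 h ⟨hk'.2, hk.2⟩
    have hbound : ∀ k ∈ A, f k ≤ (if θ / 2 ≤ f k then 1 else 0) + θ / 2 := by
      intro k _
      split_ifs with h
      · have := hf1 k
        linarith
      · have := not_le.1 h
        linarith
    calc ∑ k ∈ A, f k ≤ ∑ k ∈ A, ((if θ / 2 ≤ f k then 1 else 0) + θ / 2) :=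
          Finset.sum_le_sum hbound
      _ = ((A.filter fun k => θ / 2 ≤ f k).card : ℝ) + A.card * (θ / 2) := by
          rw [Finset.sum_add_distrib, Finset.sum_const, nsmul_eq_mul, Finset.sum_boole]
      _ ≤ 1 + A.card * (θ / 2) := by
          have : ((A.filter fun k => θ / 2 ≤ f k).card : ℝ) ≤ 1 := by exact_mod_cast hcard
          linarith
      _ ≤ θ * A.card := by
          rw [hAc]
          linarith

theorem exists_goodSets {u y : ℕ → I →₀ 𝕜} {w : ℕ → ℕ} (hu : IsBlockSeq u) (hy : YData c u y w)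
    (hNK : NK c u) : ∃ κ : ℝ, 0 < κ ∧ GoodSets c y w κ := by
  by_cases h1 : ∀ δ : ℝ, 0 < δ → ∀ N : ℕ, ∃ k, N ≤ k ∧
      ∀ L, IsSpecial c (NB c) L → ¬ Acts y w δ k L
  · exact ⟨1, one_pos, goodSets_case1 hy h1⟩
  · push Not at h1
    obtain ⟨δ, hδ, N, h⟩ := h1
    exact ⟨δ / 2, by positivity, goodSets_case2 hu hy hNK hδ N h⟩

end Crest.Agent.R114
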