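import Mathlib

set_option autoImplicit false

/-!
# Separable quotients: basic criteria (row 114, S0153)
-/

namespace Crest.Agent.R114

open Filter Topology

/-- `X` has a separable infinite-dimensional quotient by a closed subspace. -/
def SepQuot (𝕜 : Type*) (X : Type*) [RCLike 𝕜] [NormedAddCommGroup X] [NormedSpace 𝕜 X] : Prop :=
  ∃ M : Submodule 𝕜 X, IsClosed (M : Set X) ∧
    TopologicalSpace.SeparableSpace (X ⧸ M) ∧ ¬ FiniteDimensional 𝕜 (X ⧸ M)

section
variable {𝕜 : Type*} {X : Type*} [RCLike 𝕜] [NormedAddCommGroup X] [NormedSpace 𝕜 X]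
variable {Y : Type*} [NormedAddCommGroup Y] [NormedSpace 𝕜 Y]

/-- If a countable family together with the closed subspace `M` spans a dense subspace then
the quotient by `M` is separable. -/
theorem separableSpace_quotient_of_dense (M : Submodule 𝕜 X) (x : ℕ → X)
    (h : Dense ((M ⊔ Submodule.span 𝕜 (Set.range x) : Submodule 𝕜 X) : Set X)) :
    TopologicalSpace.SeparableSpace (X ⧸ M) := by
  rw [← TopologicalSpace.isSeparable_univ_iff]
  have h1 : TopologicalSpace.IsSeparable
      (Submodule.span 𝕜 (Set.range (fun n => M.mkQ (x n))) : Set (X ⧸ M)) :=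
    (Set.countable_range _).isSeparable.span
  refine h1.closure.mono ?_
  have hcont : Continuous (M.mkQ : X → X ⧸ M) := M.isOpenQuotientMap_mkQ.continuous
  have hsurj : Function.Surjective (M.mkQ : X → X ⧸ M) := M.mkQ_surjective
  have h2 : Dense ((M.mkQ : X → X ⧸ M) '' ((M ⊔ Submodule.span 𝕜 (Set.range x) : Submodule 𝕜 X) : Set X)) :=
    hsurj.denseRange.dense_image hcont h
  intro z _
  refine closure_mono ?_ (h2 z)
  rintro _ ⟨y, hy, rfl⟩
  have h3 : M.mkQ y ∈ Submodule.map M.mkQ (M ⊔ Submodule.span 𝕜 (Set.range x)) :=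
    Submodule.mem_map_of_mem hy
  rw [Submodule.map_sup, Submodule.mkQ_map_self, bot_sup_eq, Submodule.map_span, ← Set.range_comp] at h3
  exact h3

/-- Quotient maps: if `T : X → Y` is a surjection between Banach spaces and `Y` has a separable
infinite-dimensional quotient then so does `X`. -/
theorem SepQuot.of_surjective [CompleteSpace X] [CompleteSpace Y] (T : X →L[𝕜] Y)
    (hT : Function.Surjective T) (h : SepQuot 𝕜 Y) : SepQuot 𝕜 X := by
  obtain ⟨M, hM, hsep, hfin⟩ := h
  have hopen : IsOpenMap T := T.isOpenMap hT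
  have hclosed : IsClosed ((M.comap T.toLinearMap : Submodule 𝕜 X) : Set X) := by
    have : ((M.comap T.toLinearMap : Submodule 𝕜 X) : Set X) = T ⁻¹' (M : Set Y) := rfl
    rw [this]; exact hM.preimage T.continuous
  refine ⟨M.comap T.toLinearMap, hclosed, ?_, ?_⟩
  · obtain ⟨s, hsc, hsd⟩ := TopologicalSpace.exists_countable_dense (Y ⧸ M)
    set N := M.comap T.toLinearMap with hN
    have hcs : ∀ z : Y ⧸ M, ∃ x : X, M.mkQ (T x) = z := by
      intro z
      obtain ⟨y, rfl⟩ := M.mkQ_surjective z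
      obtain ⟨x, rfl⟩ := hT y
      exact ⟨x, rfl⟩
    choose g hg using hcs
    refine ⟨⟨(fun z => N.mkQ (g z)) '' s, hsc.image _, ?_⟩⟩
    rw [dense_iff_inter_open]
    intro U hU hUne
    have hV : IsOpen ((N.mkQ : X → X ⧸ N) ⁻¹' U) := hU.preimage N.isOpenQuotientMap_mkQ.continuous
    obtain ⟨u, hu⟩ := hUne
    obtain ⟨v, rfl⟩ := N.mkQ_surjective u
    have hW : IsOpen ((M.mkQ : Y → Y ⧸ M) '' (T '' ((N.mkQ : X → X ⧸ N) ⁻¹' U))) :=
      M.isOpenQuotientMap_mkQ.isOpenMap _ (hopen _ hV)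
    obtain ⟨z, hz, hzs⟩ := hsd.inter_open_nonempty _ hW ⟨M.mkQ (T v), ⟨T v, ⟨v, hu, rfl⟩, rfl⟩⟩
    obtain ⟨_, ⟨x, hx, rfl⟩, hxz⟩ := hz
    refine ⟨N.mkQ (g z), ?_, ⟨z, hzs, rfl⟩⟩
    have h1 : N.mkQ (g z) = N.mkQ x := by
      rw [Submodule.mkQ_apply, Submodule.mkQ_apply, Submodule.Quotient.eq]
      show T.toLinearMap (g z - x) ∈ M
      have h2 : M.mkQ (T (g z)) = M.mkQ (T x) := (hg z).trans hxz.symm
      rw [Submodule.mkQ_apply, Submodule.mkQ_apply, Submodule.Quotient.eq] at h2
      rw [map_sub]; exact h2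
    rw [h1]; exact hx
  · intro hfd
    apply hfin
    let φ : (X ⧸ M.comap T.toLinearMap) →ₗ[𝕜] (Y ⧸ M) :=
      Submodule.mapQ _ _ T.toLinearMap le_rfl
    have hφ : Function.Surjective φ := by
      intro z
      obtain ⟨y, rfl⟩ := M.mkQ_surjective z
      obtain ⟨x, rfl⟩ := hT y
      exact ⟨(M.comap T.toLinearMap).mkQ x, rfl⟩
    exact Module.Finite.of_surjective φ hφ

/-- Separable infinite-dimensional spaces. -/
theorem SepQuot.of_separable [TopologicalSpace.SeparableSpace X] (h : ¬ FiniteDimensional 𝕜 X)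
    (_ : CompleteSpace X) : SepQuot 𝕜 X := by
  refine ⟨⊥, ?_, ?_, ?_⟩
  · exact isClosed_singleton
  · have hcont : Continuous ((⊥ : Submodule 𝕜 X).mkQ : X → X ⧸ (⊥ : Submodule 𝕜 X)) :=
      (⊥ : Submodule 𝕜 X).isOpenQuotientMap_mkQ.continuous
    have hsurj : Function.Surjective ((⊥ : Submodule 𝕜 X).mkQ : X → X ⧸ (⊥ : Submodule 𝕜 X)) :=
      (⊥ : Submodule 𝕜 X).mkQ_surjective
    exact hsurj.denseRange.separableSpace hcont
  · intro hfd
    apply h
    exact Module.Finite.equiv (Submodule.quotEquivOfEqBot (⊥ : Submodule 𝕜 X) rfl)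

/-- Main criterion: functionals `f i` and vectors `x j` with `Σ ‖x j‖ < ∞` whose matrix is a small
perturbation of the identity on `ℓ_∞`; if `{x | sup |f i x| < ∞}` is dense then there is
a separable infinite-dimensional quotient. -/
theorem SepQuot.of_matrix [CompleteSpace X] (f : ℕ → X →L[𝕜] 𝕜) (x : ℕ → X) (ε : ℕ → ℝ)
    (hε : Summable ε) (hε2 : ∑' j, ε j ≤ 1 / 2) (hx : ∀ j, ‖x j‖ ≤ ε j)
    (hf : ∀ i j, ‖f i (x j) - (if i = j then 1 else 0)‖ ≤ ε j)
    (hD : Dense {x : X | ∃ C : ℝ, ∀ i, ‖f i x‖ ≤ C}) : SepQuot 𝕜 X := by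
  classical
  -- the error matrix
  set E : ℕ → ℕ → 𝕜 := fun i j => f i (x j) - (if i = j then 1 else 0) with hE
  have hsumE : ∀ (c : ℕ → 𝕜) (C : ℝ), (∀ j, ‖c j‖ ≤ C) → ∀ i, Summable (fun j => ‖c j * E i j‖) := by
    intro c C hc i
    refine Summable.of_nonneg_of_le (fun j => norm_nonneg _) (fun j => ?_) (hε.mul_left C)
    rw [norm_mul]
    exact mul_le_mul (hc j) (hf i j) (norm_nonneg _) ((norm_nonneg _).trans (hc j))
  have hbdE : ∀ (c : ℕ → 𝕜) (C : ℝ), (∀ j, ‖c j‖ ≤ C) → ∀ i, ‖∑' j, c j * E i j‖ ≤ C / 2 := by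
    intro c C hc i
    have hC : 0 ≤ C := (norm_nonneg _).trans (hc 0)
    calc ‖∑' j, c j * E i j‖ ≤ ∑' j, ‖c j * E i j‖ := norm_tsum_le_tsum_norm (hsumE c C hc i)
      _ ≤ ∑' j, C * ε j := by
          refine Summable.tsum_le_tsum (fun j => ?_) (hsumE c C hc i) (hε.mul_left C)
          rw [norm_mul]
          exact mul_le_mul (hc j) (hf i j) (norm_nonneg _) ((norm_nonneg _).trans (hc j))
      _ = C * ∑' j, ε j := tsum_mul_left
      _ ≤ C * (1 / 2) := mul_le_mul_of_nonneg_left hε2 hC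
      _ = C / 2 := by ring
  -- summability in `X`
  have hsumX : ∀ (c : ℕ → 𝕜) (C : ℝ), (∀ j, ‖c j‖ ≤ C) → Summable (fun j => c j • x j) := by
    intro c C hc
    refine Summable.of_norm_bounded (hε.mul_left C) (fun j => ?_)
    rw [norm_smul]
    exact mul_le_mul (hc j) (hx j) (norm_nonneg _) ((norm_nonneg _).trans (hc j))
  have hfsum : ∀ (c : ℕ → 𝕜) (C : ℝ), (∀ j, ‖c j‖ ≤ C) → ∀ i,
      f i (∑' j, c j • x j) = c i + ∑' j, c j * E i j := by
    intro c C hc i
    rw [(f i).map_tsum (hsumX c C hc)]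
    have h1 : ∀ j, f i (c j • x j) = c j * (if i = j then 1 else 0) + c j * E i j := by
      intro j; simp only [map_smul, smul_eq_mul, hE]; ring
    simp_rw [h1]
    rw [Summable.tsum_add]
    · congr 1
      rw [tsum_eq_single i]
      · simp
      · intro j hj; simp [Ne.symm hj]
    · refine summable_of_ne_finset_zero (s := {i}) ?_
      intro j hj
      have : i ≠ j := fun h => hj (by simp [h])
      simp [this]
    · exact (hsumE c C hc i).of_norm
  -- the subspace
  let M : Submodule 𝕜 X := ⨅ i, LinearMap.ker (f i).toLinearMap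
  have hMmem : ∀ z : X, z ∈ M ↔ ∀ i, f i z = 0 := by
    intro z; simp [M, Submodule.mem_iInf]
  have hMclosed : IsClosed (M : Set X) := by
    have : (M : Set X) = ⋂ i, {z : X | f i z = 0} := by
      ext z; simp [hMmem]
    rw [this]
    exact isClosed_iInter (fun i => isClosed_eq (f i).continuous continuous_const)
  refine ⟨M, hMclosed, ?_, ?_⟩
  · -- separable
    apply separableSpace_quotient_of_dense M x
    have key : {z : X | ∃ C : ℝ, ∀ i, ‖f i z‖ ≤ C} ⊆
        closure ((M ⊔ Submodule.span 𝕜 (Set.range x) : Submodule 𝕜 X) : Set X) := by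
      rintro z ⟨C, hC⟩
      -- solve `c + R c = f z` by the contraction principle
      let b : BoundedContinuousFunction ℕ 𝕜 :=
        BoundedContinuousFunction.ofNormedAddCommGroupDiscrete (fun i => f i z) C hC
      let K : BoundedContinuousFunction ℕ 𝕜 → BoundedContinuousFunction ℕ 𝕜 := fun c =>
        b - BoundedContinuousFunction.ofNormedAddCommGroupDiscrete
          (fun i => ∑' j, c j * E i j) (‖c‖ / 2) (hbdE c ‖c‖ c.norm_coe_le_norm)
      have hK : ContractingWith (1 / 2 : NNReal) K := by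
        refine ⟨by rw [div_lt_one two_pos]; exact one_lt_two, LipschitzWith.of_dist_le_mul ?_⟩
        intro c c'
        rw [dist_eq_norm, dist_eq_norm]
        have : K c - K c' = BoundedContinuousFunction.ofNormedAddCommGroupDiscrete
          (fun i => ∑' j, (c' - c) j * E i j) (‖c' - c‖ / 2)
            (hbdE (c' - c) ‖c' - c‖ (c' - c).norm_coe_le_norm) := by
          ext i
          simp only [K, BoundedContinuousFunction.coe_sub, Pi.sub_apply,
            BoundedContinuousFunction.coe_ofNormedAddCommGroupDiscrete]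
          rw [sub_sub_sub_cancel_left, ← Summable.tsum_sub]
          · congr 1; ext j; ring
          · exact (hsumE c' ‖c'‖ c'.norm_coe_le_norm i).of_norm
          · exact (hsumE c ‖c‖ c.norm_coe_le_norm i).of_norm
        rw [this]
        refine (BoundedContinuousFunction.norm_ofNormedAddCommGroup_le _ (by positivity) _).trans ?_
        rw [norm_sub_rev]
        simp only [NNReal.coe_div, NNReal.coe_one, NNReal.coe_ofNat]
        linarith
      let c := ContractingWith.fixedPoint K hK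
      have hc : K c = c := hK.fixedPoint_isFixedPt
      have hci : ∀ i, f i z = c i + ∑' j, c j * E i j := by
        intro i
        have h1 : K c i = c i := by rw [hc]
        have h2 : K c i = f i z - ∑' j, c j * E i j := rfl
        rw [← h1, h2]; ring
      have hzM : z - ∑' j, c j • x j ∈ M := by
        rw [hMmem]
        intro i
        rw [map_sub, hfsum c ‖c‖ c.norm_coe_le_norm i, ← hci i, sub_self]
      have hs : Tendsto (fun s : Finset ℕ => (z - ∑' j, c j • x j) + ∑ j ∈ s, c j • x j) atTop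
          (𝓝 z) := by
        have := ((hsumX c ‖c‖ c.norm_coe_le_norm).hasSum).const_add (z - ∑' j, c j • x j)
        simpa using this
      refine mem_closure_of_tendsto hs (Eventually.of_forall fun s => ?_)
      refine Submodule.add_mem_sup hzM (Submodule.sum_mem _ fun j _ => Submodule.smul_mem _ _
        (Submodule.subset_span ⟨j, rfl⟩))
    have h2 := hD.mono key
    rwa [dense_closure] at h2
  · -- infinite dimensional
    intro hfd
    have hli : LinearIndependent 𝕜 (fun j => M.mkQ (x j)) := by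
      rw [linearIndependent_iff']
      intro s g hg
      have hmem : ∑ j ∈ s, g j • x j ∈ M := by
        have h1 : M.mkQ (∑ j ∈ s, g j • x j) = 0 := by
          rw [map_sum]; simpa [map_smul] using hg
        rwa [Submodule.mkQ_apply, Submodule.Quotient.mk_eq_zero] at h1
      rw [hMmem] at hmem
      by_contra hcon
      push Not at hcon
      obtain ⟨i0, hi0s, hi0⟩ := hcon
      obtain ⟨i, his, hi⟩ := s.exists_max_image (fun j => ‖g j‖) ⟨i0, hi0s⟩
      have hpos : 0 < ‖g i‖ := lt_of_lt_of_le (norm_pos_iff.mpr hi0) (hi i0 hi0s)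
      let c : ℕ → 𝕜 := fun j => if j ∈ s then g j else 0
      have hcb : ∀ j, ‖c j‖ ≤ ‖g i‖ := by
        intro j
        by_cases hj : j ∈ s
        · simp only [c, hj, if_true]; exact hi j hj
        · simp only [c, hj, if_false, norm_zero]; exact norm_nonneg _
      have h2 := hfsum c ‖g i‖ hcb i
      have h3 : ∑' j, c j • x j = ∑ j ∈ s, g j • x j := by
        rw [tsum_eq_sum (s := s)]
        · refine Finset.sum_congr rfl fun j hj => ?_
          simp only [c, hj, if_true]
        · intro j hj; simp only [c, hj, if_false, zero_smul]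
      rw [h3, hmem i] at h2
      have h4 : c i = - ∑' j, c j * E i j := by
        rw [eq_neg_iff_add_eq_zero]; exact h2.symm
      have h5 : ‖g i‖ ≤ ‖g i‖ / 2 := by
        have h6 : ‖c i‖ ≤ ‖g i‖ / 2 := by
          rw [h4, norm_neg]; exact hbdE c ‖g i‖ hcb i
        simpa only [c, his, if_true] using h6
      linarith
    have := hli.finite_of_isNoetherian
    exact not_finite ℕ

/-- If `f n` is an unbounded sequence of functionals converging to `0` pointwise on a dense set
then there is a separable infinite-dimensional quotient. -/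
theorem SepQuot.of_unbounded_dense [CompleteSpace X] (f : ℕ → X →L[𝕜] 𝕜)
    (hf : ¬ BddAbove (Set.range fun n => ‖f n‖))
    (hD : Dense {x : X | Tendsto (fun n => f n x) atTop (𝓝 0)}) : SepQuot 𝕜 X := by
  classical
  let ε : ℕ → ℝ := fun n => (1 / 2) ^ (n + 2)
  have hεpos : ∀ n, 0 < ε n := fun n => by positivity
  have hεanti : ∀ m n, m ≤ n → ε n ≤ ε m := by
    intro m n hmn
    exact pow_le_pow_of_le_one (by norm_num) (by norm_num) (by omega)
  let P : ℕ × ℕ × X → Prop := fun t =>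
    Tendsto (fun n => f n t.2.2) atTop (𝓝 0) ∧ f t.2.1 t.2.2 = 1 ∧ ‖t.2.2‖ ≤ ε t.1
  let r : ℕ × ℕ × X → ℕ × ℕ × X → Prop := fun t t' =>
    t.1 < t'.1 ∧ ‖f t'.2.1 t.2.2‖ ≤ ε t.1 ∧ ‖f t.2.1 t'.2.2‖ ≤ ε t'.1
  have hstep : ∀ s : Finset (ℕ × ℕ × X), (∀ t ∈ s, P t) → ∃ y, P y ∧ ∀ t ∈ s, r t y := by
    intro s hs
    -- index larger than all previous
    obtain ⟨N, hN⟩ : ∃ N : ℕ, ∀ t ∈ s, t.1 < N := by
      refine ⟨s.sup (fun t => t.1) + 1, fun t ht => ?_⟩
      exact Nat.lt_succ_of_le (Finset.le_sup (f := fun t => t.1) ht)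
    obtain ⟨K, hK⟩ : ∃ K : ℕ, ∀ t ∈ s, ∀ k ≥ K, ‖f k t.2.2‖ ≤ ε t.1 := by
      have h1 : ∀ t : ℕ × ℕ × X, ∃ K : ℕ, t ∈ s → ∀ k ≥ K, ‖f k t.2.2‖ ≤ ε t.1 := by
        intro t
        by_cases ht : t ∈ s
        · have h2 := (hs t ht).1
          rw [Metric.tendsto_atTop] at h2
          obtain ⟨K, hK⟩ := h2 (ε t.1) (hεpos _)
          refine ⟨K, fun _ k hk => ?_⟩
          have := hK k hk
          rw [dist_zero_right] at this
          exact this.le
        · exact ⟨0, fun h => absurd h ht⟩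
      choose K hK using h1
      refine ⟨s.sup K, fun t ht k hk => hK t ht k ?_⟩
      exact (Finset.le_sup ht).trans hk
    obtain ⟨C, hC1, hC⟩ : ∃ C : ℝ, 1 ≤ C ∧ ∀ t ∈ s, ‖f t.2.1‖ ≤ C := by
      refine ⟨1 + ∑ t ∈ s, ‖f t.2.1‖, ?_, fun t ht => ?_⟩
      · have : 0 ≤ ∑ t ∈ s, ‖f t.2.1‖ := Finset.sum_nonneg fun _ _ => norm_nonneg _
        linarith
      · have := Finset.single_le_sum (f := fun t : ℕ × ℕ × X => ‖f t.2.1‖)
          (fun _ _ => norm_nonneg _) ht
        linarith
    -- a large functional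
    obtain ⟨k, hkK, hk⟩ : ∃ k ≥ K, C / ε N < ‖f k‖ := by
      by_contra hcon
      push Not at hcon
      apply hf
      refine ⟨max (C / ε N) (∑ k ∈ Finset.range K, ‖f k‖), ?_⟩
      rintro _ ⟨k, rfl⟩
      by_cases hk : K ≤ k
      · exact (hcon k hk).trans (le_max_left _ _)
      · refine le_trans ?_ (le_max_right _ _)
        exact Finset.single_le_sum (f := fun k => ‖f k‖) (fun _ _ => norm_nonneg _)
          (Finset.mem_range.mpr (not_le.mp hk))
    have hCε : 0 < C / ε N := div_pos (by linarith) (hεpos _)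
    obtain ⟨x, hx1, hx2⟩ : ∃ x : X, ‖x‖ < 1 ∧ C / ε N < ‖f k x‖ :=
      (f k).exists_lt_apply_of_lt_opNorm hk
    have hopen : IsOpen {x : X | ‖x‖ < 1 ∧ C / ε N < ‖f k x‖} :=
      (isOpen_lt continuous_norm continuous_const).inter
        (isOpen_lt continuous_const (f k).continuous.norm)
    obtain ⟨y, ⟨hy1, hy2⟩, hyD⟩ := hD.inter_open_nonempty _ hopen ⟨x, hx1, hx2⟩
    have hyne : f k y ≠ 0 := by
      intro h0; rw [h0, norm_zero] at hy2; linarith
    have hypos : 0 < ‖f k y‖ := norm_pos_iff.mpr hyne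
    refine ⟨(N, k, (f k y)⁻¹ • y), ⟨?_, ?_, ?_⟩, fun t ht => ⟨hN t ht, hK t ht k hkK, ?_⟩⟩
    · have := (show Tendsto (fun n => f n y) atTop (𝓝 0) from hyD).const_mul ((f k y)⁻¹)
      simpa [map_smul] using this
    · simp only [map_smul, smul_eq_mul]
      exact inv_mul_cancel₀ hyne
    · show ‖(f k y)⁻¹ • y‖ ≤ ε N
      rw [norm_smul, norm_inv, inv_mul_le_iff₀ hypos]
      have h1 : C < ‖f k y‖ * ε N := by rwa [div_lt_iff₀ (hεpos N)] at hy2
      linarith
    · show ‖f t.2.1 ((f k y)⁻¹ • y)‖ ≤ ε N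
      rw [map_smul, norm_smul, norm_inv, inv_mul_le_iff₀ hypos]
      have h1 : C < ‖f k y‖ * ε N := by rwa [div_lt_iff₀ (hεpos N)] at hy2
      have h2 : ‖f t.2.1 y‖ ≤ C * 1 :=
        ((f t.2.1).le_opNorm y).trans (mul_le_mul (hC t ht) hy1.le (norm_nonneg _) (by linarith))
      linarith
  obtain ⟨t, htP, htr⟩ := exists_seq_of_forall_finset_exists P r hstep
  have hmono : ∀ j, j ≤ (t j).1 := by
    intro j
    induction j with
    | zero => exact Nat.zero_le _
    | succ j ih => exact Nat.succ_le_of_lt (lt_of_le_of_lt ih (htr j (j + 1) (Nat.lt_succ_self j)).1)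
  have hgeo : HasSum ε (1 / 2) := by
    have h1 := (hasSum_geometric_two).mul_left ((1 / 2 : ℝ) ^ 2)
    have h2 : (fun n : ℕ => (1 / 2 : ℝ) ^ 2 * (1 / 2) ^ n) = ε := by
      funext n; simp only [ε]; rw [← pow_add]; congr 1; omega
    rw [h2] at h1
    norm_num at h1
    convert h1 using 1
  refine SepQuot.of_matrix (fun i => f (t i).2.1) (fun j => (t j).2.2) ε hgeo.summable
    hgeo.tsum_eq.le (fun j => ?_) (fun i j => ?_) ?_
  · exact (htP j).2.2.trans (hεanti _ _ (hmono j))
  · rcases lt_trichotomy i j with hij | hij | hij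
    · rw [if_neg hij.ne, sub_zero]
      exact (htr i j hij).2.2.trans (hεanti _ _ (hmono j))
    · subst hij
      rw [if_pos rfl, (htP i).2.1, sub_self, norm_zero]
      exact (hεpos i).le
    · rw [if_neg hij.ne', sub_zero]
      exact (htr j i hij).2.1.trans (hεanti _ _ (hmono j))
  · refine hD.mono ?_
    intro z hz
    have hz' : Tendsto (fun n => f n z) atTop (𝓝 0) := hz
    obtain ⟨C, hC⟩ := hz'.norm.bddAbove_range
    exact ⟨C, fun i => hC ⟨_, rfl⟩⟩

end

end Crest.Agent.R114
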