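import Crest.Agent.R114.VDefs
import Crest.Agent.R114.SepQuot

/-!
Row 114, statement S0153, piece T6: a Banach space containing a sequence equivalent to the unit
vector basis of `ℓ¹` has `ℓ²` as a quotient (Riesz products and an ultralimit).
-/

set_option autoImplicit false

open Filter Topology

namespace Crest.Agent.R114.V

universe u

namespace T6aux

/-! ### Sums over sign patterns -/

/-- The sign attached to a Boolean. -/
def sg (b : Bool) : ℝ := if b then 1 else -1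

theorem sg_sq (b : Bool) : sg b * sg b = 1 := by cases b <;> simp [sg]

theorem sum_prod_bool {R : Type*} [CommRing R] (N : ℕ) (f : Fin N → Bool → R) :
    ∑ ω : Fin N → Bool, ∏ j, f j (ω j) = ∏ j, (f j true + f j false) := by
  classical
  have h := (Finset.prod_univ_sum (fun _ : Fin N => (Finset.univ : Finset Bool)) f).symm
  rw [Fintype.piFinset_univ] at h
  rw [h]
  refine Finset.prod_congr rfl fun j _ => ?_
  simp

/-- The Riesz product (before taking the imaginary part). -/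
noncomputable def rpc {N : ℕ} (q : Fin N → ℝ) (ω : Fin N → Bool) : ℂ :=
  ∏ j, (1 + Complex.I * q j * sg (ω j))

/-- The (imaginary part of the) Riesz product. -/
noncomputable def rp {N : ℕ} (q : Fin N → ℝ) (ω : Fin N → Bool) : ℝ := (rpc q ω).im

theorem norm_factor (t : ℝ) (b : Bool) :
    ‖(1 + Complex.I * t * sg b : ℂ)‖ ≤ Real.exp (t ^ 2 / 2) := by
  have h1 : ‖(1 + Complex.I * t * sg b : ℂ)‖ ^ 2 = 1 + t ^ 2 := by
    rw [← Complex.normSq_eq_norm_sq, Complex.normSq_apply]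
    cases b <;> simp [sg] <;> ring
  have h2 : ‖(1 + Complex.I * t * sg b : ℂ)‖ ^ 2 ≤ (Real.exp (t ^ 2 / 2)) ^ 2 := by
    rw [h1, ← Real.exp_nat_mul]
    have := Real.add_one_le_exp (t ^ 2)
    have h3 : ((2 : ℕ) : ℝ) * (t ^ 2 / 2) = t ^ 2 := by push_cast; ring
    rw [h3]; linarith
  exact (sq_le_sq₀ (norm_nonneg _) (Real.exp_pos _).le).mp h2

theorem rp_bound {N : ℕ} (q : Fin N → ℝ) (hq : ∑ j, q j ^ 2 ≤ 1) (ω : Fin N → Bool) :
    |rp q ω| ≤ 2 := by
  have h1 : |rp q ω| ≤ ‖rpc q ω‖ := Complex.abs_im_le_norm _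
  have h2 : ‖rpc q ω‖ ≤ Real.exp (1 / 2) := by
    rw [rpc, norm_prod]
    calc ∏ j, ‖(1 + Complex.I * q j * sg (ω j) : ℂ)‖ ≤ ∏ j, Real.exp (q j ^ 2 / 2) :=
          Finset.prod_le_prod (fun _ _ => norm_nonneg _) fun j _ => norm_factor _ _
      _ = Real.exp (∑ j, q j ^ 2 / 2) := (Real.exp_sum _ _).symm
      _ ≤ Real.exp (1 / 2) := by
          apply Real.exp_le_exp.mpr
          rw [← Finset.sum_div]; linarith
  have h3 : Real.exp (1 / 2) ≤ 2 := by
    have h4 : Real.exp (1 / 2) ^ 2 ≤ 2 ^ 2 := by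
      rw [← Real.exp_nat_mul]
      have := Real.exp_one_lt_d9
      norm_num
      linarith
    exact (sq_le_sq₀ (Real.exp_pos _).le (by norm_num)).mp h4
  linarith

theorem rp_mean {N : ℕ} (q : Fin N → ℝ) (k : Fin N) :
    ∑ ω : Fin N → Bool, sg (ω k) * rp q ω = 2 ^ N * q k := by
  have h1 : ∑ ω : Fin N → Bool, ((sg (ω k) : ℝ) : ℂ) * rpc q ω = 2 ^ N * (Complex.I * q k) := by
    have h2 : ∀ ω : Fin N → Bool, ((sg (ω k) : ℝ) : ℂ) * rpc q ω
        = ∏ j, ((if j = k then ((sg (ω j) : ℝ) : ℂ) else 1) * (1 + Complex.I * q j * sg (ω j))) := by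
      intro ω
      rw [Finset.prod_mul_distrib, Finset.prod_ite_eq' Finset.univ k]
      simp [rpc]
    simp_rw [h2]
    rw [sum_prod_bool N (fun j b => (if j = k then ((sg b : ℝ) : ℂ) else 1) *
      (1 + Complex.I * q j * sg b))]
    have h3 : ∀ j : Fin N, ((if j = k then ((sg true : ℝ) : ℂ) else 1) *
        (1 + Complex.I * q j * sg true) + (if j = k then ((sg false : ℝ) : ℂ) else 1) *
        (1 + Complex.I * q j * sg false)) = 2 * (if j = k then Complex.I * q j else 1) := by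
      intro j
      by_cases h : j = k
      · simp [h, sg]; ring
      · simp [h, sg]; ring
    simp_rw [h3]
    rw [Finset.prod_mul_distrib, Finset.prod_ite_eq' Finset.univ k]
    simp
  have h4 := congrArg Complex.im h1
  rw [Complex.im_sum] at h4
  have h5 : ((2 : ℂ) ^ N * (Complex.I * q k)).im = 2 ^ N * q k := by
    have : ((2 : ℂ) ^ N * (Complex.I * q k)) = (((2 : ℝ) ^ N * q k : ℝ) : ℂ) * Complex.I := by
      push_cast; ring
    rw [this, Complex.im_ofReal_mul]; simp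
  rw [h5] at h4
  rw [← h4]
  refine Finset.sum_congr rfl fun ω _ => ?_
  rw [Complex.im_ofReal_mul]; rfl

theorem sum_sg_sg {N : ℕ} (j k : Fin N) :
    ∑ ω : Fin N → Bool, sg (ω j) * sg (ω k) = if j = k then 2 ^ N else 0 := by
  by_cases h : j = k
  · subst h
    simp [sg_sq]
  · rw [if_neg h]
    have h2 : ∀ ω : Fin N → Bool, sg (ω j) * sg (ω k)
        = ∏ i, ((if i = j then sg (ω i) else 1) * (if i = k then sg (ω i) else 1)) := by
      intro ω
      rw [Finset.prod_mul_distrib, Finset.prod_ite_eq' Finset.univ j,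
        Finset.prod_ite_eq' Finset.univ k]
      simp
    simp_rw [h2]
    rw [sum_prod_bool N (fun i b => (if i = j then sg b else 1) * (if i = k then sg b else 1))]
    apply Finset.prod_eq_zero (Finset.mem_univ j)
    simp [h, sg]

/-! ### The Rademacher coefficients and Bessel's inequality -/

variable {𝕜 : Type*} [RCLike 𝕜]

/-- Rademacher coefficients. -/
noncomputable def rad {N : ℕ} (f : (Fin N → Bool) → 𝕜) (j : Fin N) : 𝕜 :=
  ((2 : ℝ) ^ N : ℝ)⁻¹ • ∑ ω : Fin N → Bool, ((sg (ω j) : ℝ) : 𝕜) * f ω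

theorem bessel {N : ℕ} (f : (Fin N → Bool) → 𝕜) (K : ℝ) (hf : ∀ ω, ‖f ω‖ ≤ K)
    (J : Finset (Fin N)) : ∑ j ∈ J, ‖rad f j‖ ^ 2 ≤ K ^ 2 := by
  classical
  set r : ℝ := Real.sqrt (2 ^ N) with hr
  have hrpos : 0 < r := Real.sqrt_pos.mpr (by positivity)
  have hr2 : r * r = 2 ^ N := Real.mul_self_sqrt (by positivity)
  let v : Fin N → EuclideanSpace 𝕜 (Fin N → Bool) := fun j =>
    WithLp.toLp 2 (fun ω => (((sg (ω j) / r : ℝ)) : 𝕜))
  let F : EuclideanSpace 𝕜 (Fin N → Bool) := WithLp.toLp 2 f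
  have hv : Orthonormal 𝕜 v := by
    rw [orthonormal_iff_ite]
    intro i j
    have h1 : inner 𝕜 (v i) (v j) = (((∑ ω : Fin N → Bool, sg (ω i) * sg (ω j)) / (r * r) : ℝ) : 𝕜) := by
      rw [PiLp.inner_apply, Finset.sum_div, RCLike.ofReal_sum]
      refine Finset.sum_congr rfl fun ω _ => ?_
      simp only [v, RCLike.inner_apply, RCLike.conj_ofReal]
      rw [← RCLike.ofReal_mul]
      congr 1
      field_simp
    rw [h1, sum_sg_sg, hr2]
    by_cases h : i = j
    · simp [h]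
    · simp [h]
  have hin : ∀ j, inner 𝕜 (v j) F = (r : 𝕜) * rad f j := by
    intro j
    rw [PiLp.inner_apply, rad, RCLike.real_smul_eq_coe_mul, Finset.mul_sum, Finset.mul_sum]
    refine Finset.sum_congr rfl fun ω _ => ?_
    simp only [v, F, RCLike.inner_apply, RCLike.conj_ofReal]
    have h2 : ((sg (ω j) / r : ℝ) : 𝕜) = (r : 𝕜) * ((((2 : ℝ) ^ N)⁻¹ : ℝ) * ((sg (ω j) : ℝ) : 𝕜)) := by
      rw [← RCLike.ofReal_mul, ← RCLike.ofReal_mul, ← hr2]
      congr 1
      field_simp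
    rw [h2]; ring
  have h3 := hv.sum_inner_products_le F (s := J)
  have h4 : ‖F‖ ^ 2 ≤ 2 ^ N * K ^ 2 := by
    rw [EuclideanSpace.norm_sq_eq]
    calc ∑ ω, ‖F ω‖ ^ 2 ≤ ∑ _ω : Fin N → Bool, K ^ 2 := by
          refine Finset.sum_le_sum fun ω _ => ?_
          exact pow_le_pow_left₀ (norm_nonneg _) (hf ω) 2
      _ = 2 ^ N * K ^ 2 := by simp
  have h5 : ∑ j ∈ J, ‖inner 𝕜 (v j) F‖ ^ 2 = 2 ^ N * ∑ j ∈ J, ‖rad f j‖ ^ 2 := by
    rw [Finset.mul_sum]
    refine Finset.sum_congr rfl fun j _ => ?_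
    rw [hin, norm_mul, mul_pow, RCLike.norm_ofReal, abs_of_pos hrpos, ← hr2]; ring
  rw [h5] at h3
  have h6 : (2 : ℝ) ^ N * ∑ j ∈ J, ‖rad f j‖ ^ 2 ≤ 2 ^ N * K ^ 2 := h3.trans h4
  exact le_of_mul_le_mul_left h6 (by positivity)

/-! ### Hahn–Banach -/

variable {X : Type u} [NormedAddCommGroup X] [NormedSpace 𝕜 X]

theorem exists_functional (x : ℕ → X) (c : ℝ) (hc : 0 < c)
    (hl : ∀ (s : Finset ℕ) (a : ℕ → 𝕜), c * ∑ i ∈ s, ‖a i‖ ≤ ‖∑ i ∈ s, a i • x i‖)
    (g : ℕ → 𝕜) (K : ℝ) (hg : ∀ i, ‖g i‖ ≤ K) :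
    ∃ L : X →L[𝕜] 𝕜, (∀ i, L (x i) = g i) ∧ ‖L‖ ≤ K / c := by
  have hK : 0 ≤ K := (norm_nonneg _).trans (hg 0)
  have hli : LinearIndependent 𝕜 x := by
    rw [linearIndependent_iff']
    intro s a ha i hi
    have h1 := hl s a
    rw [ha, norm_zero] at h1
    have h2 : ∑ i ∈ s, ‖a i‖ ≤ 0 := by
      by_contra h
      push Not at h
      have := mul_pos hc h
      linarith
    have h3 : ‖a i‖ ≤ 0 := (Finset.single_le_sum (f := fun i => ‖a i‖)
      (fun _ _ => norm_nonneg _) hi).trans h2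
    exact norm_le_zero_iff.mp h3
  let b := Module.Basis.span hli
  let φ : Submodule.span 𝕜 (Set.range x) →ₗ[𝕜] 𝕜 := b.constr 𝕜 g
  have hφb : ∀ i, φ (b i) = g i := fun i => b.constr_basis 𝕜 g i
  have hb : ∀ i, ((b i : Submodule.span 𝕜 (Set.range x)) : X) = x i := fun i => by
    rw [show b i = _ from Module.Basis.span_apply hli i]
  have hφ : ∀ z, ‖φ z‖ ≤ (K / c) * ‖z‖ := by
    intro z
    have hz : z = ∑ i ∈ (b.repr z).support, (b.repr z i) • b i := by
      conv_lhs => rw [← b.linearCombination_repr z, Finsupp.linearCombination_apply, Finsupp.sum]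
    have h1 : φ z = ∑ i ∈ (b.repr z).support, (b.repr z i) • g i := by
      conv_lhs => rw [hz]
      rw [map_sum]
      refine Finset.sum_congr rfl fun i _ => ?_
      rw [map_smul, hφb]
    have h2 : (z : X) = ∑ i ∈ (b.repr z).support, (b.repr z i) • x i := by
      conv_lhs => rw [hz]
      rw [Submodule.coe_sum]
      refine Finset.sum_congr rfl fun i _ => ?_
      rw [Submodule.coe_smul, hb]
    have h3 : c * ∑ i ∈ (b.repr z).support, ‖b.repr z i‖ ≤ ‖z‖ := by
      have := hl (b.repr z).support (fun i => b.repr z i)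
      rw [← h2] at this
      exact this
    rw [h1]
    calc ‖∑ i ∈ (b.repr z).support, (b.repr z i) • g i‖
        ≤ ∑ i ∈ (b.repr z).support, ‖b.repr z i‖ * K := by
          refine (norm_sum_le _ _).trans (Finset.sum_le_sum fun i _ => ?_)
          rw [norm_smul]
          exact mul_le_mul_of_nonneg_left (hg i) (norm_nonneg _)
      _ = (K / c) * (c * ∑ i ∈ (b.repr z).support, ‖b.repr z i‖) := by
          rw [← Finset.sum_mul]; field_simp
      _ ≤ (K / c) * ‖z‖ := mul_le_mul_of_nonneg_left h3 (by positivity)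
  let ψ : Submodule.span 𝕜 (Set.range x) →L[𝕜] 𝕜 := φ.mkContinuous (K / c) hφ
  obtain ⟨L, hL1, hL2⟩ := exists_extension_norm_eq (Submodule.span 𝕜 (Set.range x)) ψ
  refine ⟨L, fun i => ?_, ?_⟩
  · rw [← hb i, hL1]
    exact hφb i
  · rw [hL2]
    exact LinearMap.mkContinuous_norm_le _ (by positivity) _

/-! ### Ultralimits -/

/-- The limit of a sequence of scalars along a fixed nonprincipal ultrafilter. -/
noncomputable def ulim (f : ℕ → 𝕜) : 𝕜 := limUnder (hyperfilter ℕ : Filter ℕ) f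

theorem tendsto_ulim {f : ℕ → 𝕜} {C : ℝ} (hf : ∀ n, ‖f n‖ ≤ C) :
    Tendsto f (hyperfilter ℕ : Filter ℕ) (𝓝 (ulim f)) := by
  apply tendsto_nhds_limUnder
  have h1 : IsCompact (Metric.closedBall (0 : 𝕜) C) := isCompact_closedBall _ _
  obtain ⟨z, -, hz⟩ := h1.ultrafilter_le_nhds' ((hyperfilter ℕ).map f) (by
    rw [Ultrafilter.mem_map]
    filter_upwards with n
    simpa using hf n)
  exact ⟨z, hz⟩

theorem le_hyperfilter : (hyperfilter ℕ : Filter ℕ) ≤ atTop := by
  rw [← Nat.cofinite_eq_atTop]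
  exact hyperfilter_le_cofinite

theorem ulim_add {f g : ℕ → 𝕜} {C D : ℝ} (hf : ∀ n, ‖f n‖ ≤ C) (hg : ∀ n, ‖g n‖ ≤ D) :
    ulim (fun n => f n + g n) = ulim f + ulim g :=
  tendsto_nhds_unique
    (tendsto_ulim (C := C + D) fun n => (norm_add_le _ _).trans (add_le_add (hf n) (hg n)))
    ((tendsto_ulim hf).add (tendsto_ulim hg))

theorem ulim_smul {f : ℕ → 𝕜} {C : ℝ} (a : 𝕜) (hf : ∀ n, ‖f n‖ ≤ C) :
    ulim (fun n => a * f n) = a * ulim f :=
  tendsto_nhds_unique
    (tendsto_ulim (C := ‖a‖ * C) fun n => by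
      rw [norm_mul]; exact mul_le_mul_of_nonneg_left (hf n) (norm_nonneg _))
    ((tendsto_ulim hf).const_mul a)

theorem ulim_of_eventually {f : ℕ → 𝕜} {z : 𝕜} (C : ℝ) (hC : ∀ n, ‖f n‖ ≤ C)
    (hf : ∀ᶠ n in atTop, f n = z) : ulim f = z := by
  refine tendsto_nhds_unique (tendsto_ulim hC) ?_
  have h1 : Tendsto f atTop (𝓝 z) := tendsto_const_nhds.congr' (by
    filter_upwards [hf] with n hn using hn.symm)
  exact h1.mono_left le_hyperfilter

/-! ### `ℓ²` -/

/-- The sequence space `ℓ²`. -/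
abbrev L2 (𝕜 : Type*) [RCLike 𝕜] := lp (fun _ : ℕ => 𝕜) 2

instance separable_L2 : TopologicalSpace.SeparableSpace (L2 𝕜) := by
  rw [← TopologicalSpace.isSeparable_univ_iff]
  have h1 : TopologicalSpace.IsSeparable
      (Submodule.span 𝕜 (Set.range (fun n : ℕ => (lp.single 2 n (1 : 𝕜) : L2 𝕜))) : Set (L2 𝕜)) :=
    (Set.countable_range _).isSeparable.span
  refine h1.closure.mono ?_
  intro z _
  have h2 := lp.hasSum_single (p := 2) (by norm_num) z
  refine mem_closure_of_tendsto h2 (Eventually.of_forall fun s => ?_)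
  refine Submodule.sum_mem _ fun i _ => ?_
  have h3 : (lp.single 2 i (z i) : L2 𝕜) = z i • lp.single 2 i (1 : 𝕜) := by
    rw [← lp.single_smul]; simp
  rw [h3]
  exact Submodule.smul_mem _ _ (Submodule.subset_span ⟨i, rfl⟩)

theorem infinite_L2 : ¬ FiniteDimensional 𝕜 (L2 𝕜) := by
  intro hfd
  have hli : LinearIndependent 𝕜 (fun n : ℕ => (lp.single 2 n (1 : 𝕜) : L2 𝕜)) := by
    rw [linearIndependent_iff']
    intro s g hg i hi
    have h1 := congrArg (fun z : L2 𝕜 => z i) hg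
    simp only [lp.coeFn_sum, Finset.sum_apply, lp.coeFn_smul, Pi.smul_apply, lp.single_apply,
      smul_eq_mul, lp.coeFn_zero, Pi.zero_apply] at h1
    rw [Finset.sum_eq_single i] at h1
    · simpa using h1
    · intro j _ hji
      simp [Ne.symm hji]
    · intro h; exact absurd hi h
  have := hli.finite_of_isNoetherian
  exact not_finite ℕ

theorem sepQuot_L2 : SepQuot 𝕜 (L2 𝕜) :=
  SepQuot.of_separable infinite_L2 inferInstance

/-- A bounded operator with approximate preimages is surjective. -/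
theorem surjective_of_approx {Y : Type*} [NormedAddCommGroup Y] [NormedSpace 𝕜 Y] [CompleteSpace X]
    (T : X →L[𝕜] Y) (C : ℝ) (h : ∀ y : Y, ∃ x : X, ‖x‖ ≤ C * ‖y‖ ∧ ‖y - T x‖ ≤ 1 / 2 * ‖y‖) :
    Function.Surjective T := by
  intro y
  choose g hg1 hg2 using h
  let r : ℕ → Y := fun n => Nat.rec y (fun _ z => z - T (g z)) n
  have hr0 : r 0 = y := rfl
  have hrs : ∀ n, r (n + 1) = r n - T (g (r n)) := fun n => rfl
  have hr : ∀ n, ‖r n‖ ≤ (1 / 2) ^ n * ‖y‖ := by
    intro n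
    induction n with
    | zero => simp [hr0]
    | succ n ih =>
      rw [hrs, pow_succ]
      have := hg2 (r n)
      nlinarith [hg2 (r n)]
  have hsum : Summable (fun n => g (r n)) := by
    refine Summable.of_norm_bounded (g := fun n => (|C| * ‖y‖) * (1 / 2) ^ n)
      (summable_geometric_two.mul_left _) fun n => ?_
    calc ‖g (r n)‖ ≤ C * ‖r n‖ := hg1 _
      _ ≤ |C| * ‖r n‖ := mul_le_mul_of_nonneg_right (le_abs_self C) (norm_nonneg _)
      _ ≤ |C| * ((1 / 2) ^ n * ‖y‖) := mul_le_mul_of_nonneg_left (hr n) (abs_nonneg C)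
      _ = (|C| * ‖y‖) * (1 / 2) ^ n := by ring
  refine ⟨∑' n, g (r n), ?_⟩
  rw [T.map_tsum hsum]
  have h1 : ∀ n, ∑ i ∈ Finset.range n, T (g (r i)) = y - r n := by
    intro n
    induction n with
    | zero => simp [hr0]
    | succ n ih => rw [Finset.sum_range_succ, ih, hrs]; abel
  have h2 : Tendsto (fun n => ∑ i ∈ Finset.range n, T (g (r i))) atTop (𝓝 y) := by
    have h3 : Tendsto r atTop (𝓝 0) := by
      refine squeeze_zero_norm hr ?_
      have := (tendsto_pow_atTop_nhds_zero_of_lt_one (r := (1 / 2 : ℝ)) (by norm_num)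
        (by norm_num)).mul_const ‖y‖
      simpa using this
    have h4 := tendsto_const_nhds (x := y) |>.sub h3
    simp_rw [h1]
    simpa using h4
  exact tendsto_nhds_unique ((hsum.mapL T).hasSum.tendsto_sum_nat) h2

theorem sum_sq_le {M : ℕ} (q : L2 𝕜) (hq : ‖q‖ ≤ 1) : ∑ j : Fin M, ‖q j‖ ^ 2 ≤ 1 := by
  have h1 := lp.sum_rpow_le_norm_rpow (p := 2) (by simp) q (Finset.range M)
  simp only [ENNReal.toReal_ofNat, Real.rpow_ofNat] at h1
  rw [← Finset.sum_range (fun j => ‖q j‖ ^ 2)]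
  refine h1.trans ?_
  exact pow_le_one₀ (norm_nonneg _) hq

/-- The Riesz product functions with prescribed Rademacher coefficients. -/
noncomputable def G (q : L2 𝕜) (N : ℕ) (ω : Fin N → Bool) : 𝕜 :=
  ((rp (fun j : Fin N => RCLike.re (q j)) ω : ℝ) : 𝕜) +
    ((rp (fun j : Fin N => RCLike.im (q j)) ω : ℝ) : 𝕜) * RCLike.I

theorem norm_G_le (q : L2 𝕜) (hq : ‖q‖ ≤ 1) (N : ℕ) (ω : Fin N → Bool) : ‖G q N ω‖ ≤ 4 := by
  have h1 : |rp (fun j : Fin N => RCLike.re (q j)) ω| ≤ 2 := by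
    apply rp_bound
    refine le_trans (Finset.sum_le_sum fun j _ => ?_) (sum_sq_le (M := N) q hq)
    rw [← sq_abs (RCLike.re (q j))]
    exact pow_le_pow_left₀ (abs_nonneg _) (RCLike.abs_re_le_norm _) 2
  have h2 : |rp (fun j : Fin N => RCLike.im (q j)) ω| ≤ 2 := by
    apply rp_bound
    refine le_trans (Finset.sum_le_sum fun j _ => ?_) (sum_sq_le (M := N) q hq)
    rw [← sq_abs (RCLike.im (q j))]
    exact pow_le_pow_left₀ (abs_nonneg _) (RCLike.abs_im_le_norm _) 2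
  have h3 : ‖(RCLike.I : 𝕜)‖ ≤ 1 := by
    rcases RCLike.I_mul_I_ax (K := 𝕜) with h | h
    · rw [h, norm_zero]; exact zero_le_one
    · have h5 : ‖(RCLike.I : 𝕜)‖ * ‖(RCLike.I : 𝕜)‖ = 1 := by
        rw [← norm_mul, h, norm_neg, norm_one]
      nlinarith [norm_nonneg (RCLike.I : 𝕜)]
  rw [G]
  refine (norm_add_le _ _).trans ?_
  rw [norm_mul, RCLike.norm_ofReal, RCLike.norm_ofReal]
  have h4 : |rp (fun j : Fin N => RCLike.im (q j)) ω| * ‖(RCLike.I : 𝕜)‖ ≤ 2 * 1 :=
    mul_le_mul h2 h3 (norm_nonneg _) (by norm_num)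
  linarith

theorem rad_G (q : L2 𝕜) (N : ℕ) (j : Fin N) : rad (G q N) j = q j := by
  rw [rad, RCLike.real_smul_eq_coe_mul]
  have h1 : ∑ ω : Fin N → Bool, ((sg (ω j) : ℝ) : 𝕜) * G q N ω
      = ((2 ^ N * RCLike.re (q j) : ℝ) : 𝕜) + ((2 ^ N * RCLike.im (q j) : ℝ) : 𝕜) * RCLike.I := by
    rw [← rp_mean (fun j : Fin N => RCLike.re (q j)) j, ← rp_mean (fun j : Fin N => RCLike.im (q j)) j,
      RCLike.ofReal_sum, RCLike.ofReal_sum, Finset.sum_mul, ← Finset.sum_add_distrib]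
    refine Finset.sum_congr rfl fun ω _ => ?_
    rw [G, RCLike.ofReal_mul, RCLike.ofReal_mul]; ring
  rw [h1, RCLike.ofReal_mul, RCLike.ofReal_mul, mul_assoc, ← mul_add, RCLike.re_add_im, ← mul_assoc,
    ← RCLike.ofReal_mul, inv_mul_cancel₀ (by positivity), RCLike.ofReal_one, one_mul]

theorem rad_add {N : ℕ} (f g : (Fin N → Bool) → 𝕜) (j : Fin N) :
    rad (fun ω => f ω + g ω) j = rad f j + rad g j := by
  simp only [rad, mul_add, Finset.sum_add_distrib, smul_add]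

theorem rad_mul {N : ℕ} (a : 𝕜) (f : (Fin N → Bool) → 𝕜) (j : Fin N) :
    rad (fun ω => a * f ω) j = a * rad f j := by
  simp only [rad, RCLike.real_smul_eq_coe_mul, Finset.mul_sum]
  refine Finset.sum_congr rfl fun ω _ => ?_
  ring

/-- Rademacher coefficients extended by zero. -/
noncomputable def coef (N : ℕ) (f : (Fin N → Bool) → 𝕜) (j : ℕ) : 𝕜 :=
  if h : j < N then rad f ⟨j, h⟩ else 0

theorem coef_add (N : ℕ) (f g : (Fin N → Bool) → 𝕜) (j : ℕ) :
    coef N (fun ω => f ω + g ω) j = coef N f j + coef N g j := by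
  unfold coef
  split_ifs
  · exact rad_add _ _ _
  · simp

theorem coef_mul (N : ℕ) (a : 𝕜) (f : (Fin N → Bool) → 𝕜) (j : ℕ) :
    coef N (fun ω => a * f ω) j = a * coef N f j := by
  unfold coef
  split_ifs
  · exact rad_mul _ _ _
  · simp

theorem coef_bessel (N : ℕ) (f : (Fin N → Bool) → 𝕜) (K : ℝ) (hf : ∀ ω, ‖f ω‖ ≤ K)
    (J : Finset ℕ) : ∑ j ∈ J, ‖coef N f j‖ ^ 2 ≤ K ^ 2 := by
  classical
  calc ∑ j ∈ J, ‖coef N f j‖ ^ 2 ≤ ∑ j ∈ Finset.range N, ‖coef N f j‖ ^ 2 := by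
        have h1 : ∑ j ∈ J, ‖coef N f j‖ ^ 2 = ∑ j ∈ J ∩ Finset.range N, ‖coef N f j‖ ^ 2 := by
          symm
          refine Finset.sum_subset Finset.inter_subset_left fun j hj hj2 => ?_
          have h2 : ¬ j < N := fun h => hj2 (Finset.mem_inter.mpr ⟨hj, Finset.mem_range.mpr h⟩)
          simp [coef, h2]
        rw [h1]
        exact Finset.sum_le_sum_of_subset_of_nonneg Finset.inter_subset_right
          fun _ _ _ => by positivity
    _ = ∑ j : Fin N, ‖rad f j‖ ^ 2 := by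
        rw [Finset.sum_range]
        refine Finset.sum_congr rfl fun j _ => ?_
        simp [coef]
    _ ≤ K ^ 2 := bessel f K hf Finset.univ

theorem coef_bound (N : ℕ) (f : (Fin N → Bool) → 𝕜) (K : ℝ) (hK : 0 ≤ K) (hf : ∀ ω, ‖f ω‖ ≤ K)
    (j : ℕ) : ‖coef N f j‖ ≤ K := by
  have h1 := coef_bessel N f K hf {j}
  rw [Finset.sum_singleton] at h1
  exact (sq_le_sq₀ (norm_nonneg _) hK).mp h1

theorem exists_dense_seq : ∃ q : ℕ → L2 𝕜, (∀ i, ‖q i‖ ≤ 1) ∧
    ∀ y : L2 𝕜, ‖y‖ ≤ 1 → ∀ ε > 0, ∃ i, ‖y - q i‖ < ε := by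
  have : SecondCountableTopology (L2 𝕜) := UniformSpace.secondCountable_of_separable _
  have : Nonempty (Metric.closedBall (0 : L2 𝕜) 1) := ⟨⟨0, by simp⟩⟩
  refine ⟨fun n => (TopologicalSpace.denseSeq (Metric.closedBall (0 : L2 𝕜) 1) n : L2 𝕜),
    fun i => ?_, fun y hy ε hε => ?_⟩
  · exact mem_closedBall_zero_iff.mp (TopologicalSpace.denseSeq (Metric.closedBall (0 : L2 𝕜) 1) i).2
  · obtain ⟨i, hi⟩ := (TopologicalSpace.denseRange_denseSeq
      (Metric.closedBall (0 : L2 𝕜) 1)).exists_dist_lt ⟨y, by simpa using hy⟩ hε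
    refine ⟨i, ?_⟩
    rw [← dist_eq_norm]
    exact hi

end T6aux

open T6aux in
/-- **T6**: a Banach space containing `ℓ¹` has a separable infinite-dimensional quotient. -/
theorem T6 {𝕜 : Type} [RCLike 𝕜] {X : Type u} [NormedAddCommGroup X] [NormedSpace 𝕜 X]
    [CompleteSpace X] (x : ℕ → X) (c : ℝ) (hc : 0 < c) (hx : ∀ i, ‖x i‖ ≤ 1)
    (hl : ∀ (s : Finset ℕ) (a : ℕ → 𝕜), c * ∑ i ∈ s, ‖a i‖ ≤ ‖∑ i ∈ s, a i • x i‖) :
    SQ 𝕜 X := by
  classical
  obtain ⟨q, hq1, hqd⟩ := exists_dense_seq (𝕜 := 𝕜)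
  have hL := fun (N : ℕ) (ω : Fin N → Bool) =>
    exists_functional x c hc hl (fun i => G (q i) N ω) 4 (fun i => norm_G_le (q i) (hq1 i) N ω)
  choose L hL1 hL2 using hL
  set K : ℝ := 4 / c with hKdef
  have hK : 0 < K := by positivity
  have hLb : ∀ (z : X) (N : ℕ) (ω : Fin N → Bool), ‖L N ω z‖ ≤ K * ‖z‖ := fun z N ω =>
    ((L N ω).le_opNorm z).trans (mul_le_mul_of_nonneg_right (hL2 N ω) (norm_nonneg _))
  let co : X → ℕ → ℕ → 𝕜 := fun z N j => coef N (fun ω => L N ω z) j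
  have hcob : ∀ z N j, ‖co z N j‖ ≤ K * ‖z‖ := fun z N j =>
    coef_bound N _ _ (by positivity) (hLb z N) j
  have hTsum : ∀ (z : X) (J : Finset ℕ), ∑ j ∈ J, ‖ulim (fun N => co z N j)‖ ^ 2 ≤ (K * ‖z‖) ^ 2 := by
    intro z J
    have h1 : Tendsto (fun N => ∑ j ∈ J, ‖co z N j‖ ^ 2) (hyperfilter ℕ : Filter ℕ)
        (𝓝 (∑ j ∈ J, ‖ulim (fun N => co z N j)‖ ^ 2)) :=
      tendsto_finsetSum _ fun j _ => ((tendsto_ulim fun N => hcob z N j).norm).pow 2
    exact le_of_tendsto h1 (Eventually.of_forall fun N => coef_bessel N _ _ (hLb z N) J)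
  have hmem : ∀ z : X, Memℓp (fun j => ulim (fun N => co z N j)) 2 := by
    intro z
    refine memℓp_gen' (C := (K * ‖z‖) ^ 2) fun s => ?_
    simpa only [ENNReal.toReal_ofNat, Real.rpow_ofNat] using hTsum z s
  let T0 : X →ₗ[𝕜] L2 𝕜 :=
    { toFun := fun z => ⟨fun j => ulim (fun N => co z N j), hmem z⟩
      map_add' := by
        intro z w
        ext j
        change ulim (fun N => co (z + w) N j) = ulim (fun N => co z N j) + ulim (fun N => co w N j)
        rw [← ulim_add (fun N => hcob z N j) (fun N => hcob w N j)]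
        congr 1
        funext N
        simp only [co, map_add]
        exact coef_add N _ _ j
      map_smul' := by
        intro a z
        ext j
        change ulim (fun N => co (a • z) N j) = a * ulim (fun N => co z N j)
        rw [← ulim_smul a (fun N => hcob z N j)]
        congr 1
        funext N
        simp only [co, map_smul, smul_eq_mul]
        exact coef_mul N _ _ j }
  let T : X →L[𝕜] L2 𝕜 := T0.mkContinuous K fun z => by
    refine lp.norm_le_of_forall_sum_le (by simp) (by positivity) fun s => ?_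
    simp only [ENNReal.toReal_ofNat, Real.rpow_ofNat]
    exact hTsum z s
  have hTx : ∀ i, T (x i) = q i := by
    intro i
    ext j
    change ulim (fun N => co (x i) N j) = q i j
    refine ulim_of_eventually (K * ‖x i‖) (fun N => hcob (x i) N j) ?_
    filter_upwards [eventually_gt_atTop j] with N hN
    have h1 : (fun ω => L N ω (x i)) = G (q i) N := funext fun ω => hL1 N ω i
    simp only [co, h1, coef, hN, dif_pos]
    exact rad_G (q i) N ⟨j, hN⟩
  have hsurj : Function.Surjective T := by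
    refine surjective_of_approx T 1 fun y => ?_
    by_cases hy : y = 0
    · exact ⟨0, by simp [hy]⟩
    · have hy' : 0 < ‖y‖ := norm_pos_iff.mpr hy
      obtain ⟨i, hi⟩ := hqd ((‖y‖ : 𝕜)⁻¹ • y) (by
        rw [norm_smul, norm_inv, RCLike.norm_ofReal, abs_norm, inv_mul_cancel₀ hy'.ne']) (1 / 2)
        (by norm_num)
      refine ⟨(‖y‖ : 𝕜) • x i, ?_, ?_⟩
      · rw [norm_smul, RCLike.norm_ofReal, abs_norm, one_mul]
        exact mul_le_of_le_one_right (norm_nonneg _) (hx i)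
      · have h1 : y - T ((‖y‖ : 𝕜) • x i) = (‖y‖ : 𝕜) • ((‖y‖ : 𝕜)⁻¹ • y - q i) := by
          rw [map_smul, hTx, smul_sub, smul_smul, mul_inv_cancel₀, one_smul]
          exact RCLike.ofReal_ne_zero.mpr hy'.ne'
        rw [h1, norm_smul, RCLike.norm_ofReal, abs_norm, mul_comm]
        exact mul_le_mul_of_nonneg_right hi.le (norm_nonneg _)
  exact SepQuot.of_surjective T hsurj sepQuot_L2

end Crest.Agent.R114.V
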