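import Crest.Agent.R114.VDefs
import Crest.Agent.R114.SepQuot

/-!
Row 114, S0153, step T5: a sequence of functionals with the lifting property gives either a
separable quotient or a copy of `ℓ₁` in `X`.
-/

set_option autoImplicit false

open Filter Topology

namespace Crest.Agent.R114.V
namespace T5

universe u
variable {𝕜 : Type} [RCLike 𝕜] {X : Type u} [NormedAddCommGroup X] [NormedSpace 𝕜 X]

/-- norm-one combination of `g k`, `k ∈ [a,b)`. -/
def Comb (g : ℕ → X →L[𝕜] 𝕜) (a b : ℕ) (u : X →L[𝕜] 𝕜) : Prop :=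
  ∃ c : ℕ → 𝕜, ∑ k ∈ Finset.Ico a b, ‖c k‖ = 1 ∧ u = ∑ k ∈ Finset.Ico a b, c k • g k

/-- `h` is an absolutely convex block sequence of `g`. -/
def Blk (g h : ℕ → X →L[𝕜] 𝕜) : Prop :=
  ∃ m : ℕ → ℕ, StrictMono m ∧ ∀ j, Comb g (m j) (m (j + 1)) (h j)

/-- lifting property. -/
def LP (C : ℝ) (g : ℕ → X →L[𝕜] 𝕜) : Prop :=
  ∀ (F : Finset ℕ) (c : ℕ → 𝕜), (∀ k, ‖c k‖ ≤ 1) → ∃ w : X, ‖w‖ ≤ C ∧
        (∀ k ∈ F, g k w = c k) ∧ (∀ k ∉ F, g k w = 0)

/-- asymptotic bound on the unit ball. -/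
def R (g : ℕ → X →L[𝕜] 𝕜) (r : ℝ) : Prop :=
  ∀ x : X, ‖x‖ ≤ 1 → ∀ᶠ k in atTop, ‖g k x‖ ≤ r

theorem comb_single (g : ℕ → X →L[𝕜] 𝕜) (p : ℕ) : Comb g p (p + 1) (g p) :=
  ⟨fun _ => 1, by simp, by simp⟩

theorem Comb.mono {g : ℕ → X →L[𝕜] 𝕜} {a b a' b' : ℕ} {u : X →L[𝕜] 𝕜} (h : Comb g a b u)
    (ha : a' ≤ a) (hb : b ≤ b') : Comb g a' b' u := by
  obtain ⟨c, hc1, hc2⟩ := h
  have hsub : Finset.Ico a b ⊆ Finset.Ico a' b' := Finset.Ico_subset_Ico ha hb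
  refine ⟨fun k => if k ∈ Finset.Ico a b then c k else 0, ?_, ?_⟩
  · rw [← hc1]
    symm
    apply Finset.sum_subset_zero_on_sdiff hsub
    · intro k hk
      have : k ∉ Finset.Ico a b := (Finset.mem_sdiff.mp hk).2
      simp only [this, if_false, norm_zero]
    · intro k hk
      simp only [hk, if_true]
  · rw [hc2]
    apply Finset.sum_subset_zero_on_sdiff hsub
    · intro k hk
      have : k ∉ Finset.Ico a b := (Finset.mem_sdiff.mp hk).2
      show (if k ∈ Finset.Ico a b then c k else 0) • g k = 0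
      rw [if_neg this]
      exact zero_smul 𝕜 (g k)
    · intro k hk
      simp only [hk, if_true]

theorem Comb.trans {g h : ℕ → X →L[𝕜] 𝕜} {m : ℕ → ℕ} (hm : Monotone m)
    (H : ∀ j, Comb g (m j) (m (j + 1)) (h j)) {a b : ℕ} {u : X →L[𝕜] 𝕜} (hu : Comb h a b u) :
    Comb g (m a) (m b) u := by
  obtain ⟨d, hd1, hd2⟩ := hu
  choose c hc1 hc2 using H
  have hab : a ≤ b := by
    by_contra hcon
    rw [Finset.Ico_eq_empty_of_le (not_le.mp hcon).le] at hd1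
    simp at hd1
  have key : ∀ b, a ≤ b → ∃ e : ℕ → 𝕜,
      ∑ k ∈ Finset.Ico (m a) (m b), ‖e k‖ = ∑ j ∈ Finset.Ico a b, ‖d j‖ ∧
      ∑ k ∈ Finset.Ico (m a) (m b), e k • g k = ∑ j ∈ Finset.Ico a b, d j • h j := by
    intro b hb
    induction b, hb using Nat.le_induction with
    | base => exact ⟨fun _ => 0, by simp, by simp⟩
    | succ b hb ih =>
      obtain ⟨e, he1, he2⟩ := ih
      refine ⟨fun k => if k < m b then e k else d b * c b k, ?_, ?_⟩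
      · rw [← Finset.sum_Ico_consecutive _ (hm hb) (hm (Nat.le_succ b)),
          Finset.sum_Ico_succ_top hb, ← he1]
        congr 1
        · refine Finset.sum_congr rfl fun k hk => ?_
          show ‖(if k < m b then e k else d b * c b k)‖ = _
          rw [if_pos (Finset.mem_Ico.mp hk).2]
        · have h1 : ∀ k ∈ Finset.Ico (m b) (m (b + 1)),
              ‖(if k < m b then e k else d b * c b k)‖ = ‖d b‖ * ‖c b k‖ := by
            intro k hk
            rw [if_neg (not_lt.mpr (Finset.mem_Ico.mp hk).1), norm_mul]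
          rw [Finset.sum_congr rfl h1, ← Finset.mul_sum, hc1, mul_one]
      · rw [← Finset.sum_Ico_consecutive _ (hm hb) (hm (Nat.le_succ b)),
          Finset.sum_Ico_succ_top hb, ← he2]
        congr 1
        · refine Finset.sum_congr rfl fun k hk => ?_
          show (if k < m b then e k else d b * c b k) • g k = _
          rw [if_pos (Finset.mem_Ico.mp hk).2]
        · have h1 : ∀ k ∈ Finset.Ico (m b) (m (b + 1)),
              (if k < m b then e k else d b * c b k) • g k = d b • (c b k • g k) := by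
            intro k hk
            rw [if_neg (not_lt.mpr (Finset.mem_Ico.mp hk).1), mul_smul]
          rw [Finset.sum_congr rfl h1, ← Finset.smul_sum, ← hc2]
  obtain ⟨e, he1, he2⟩ := key b hab
  exact ⟨e, by rw [he1, hd1], by rw [he2, hd2]⟩

theorem Blk.refl (g : ℕ → X →L[𝕜] 𝕜) : Blk g g :=
  ⟨id, strictMono_id, fun j => comb_single g j⟩

theorem Blk.trans {g h f : ℕ → X →L[𝕜] 𝕜} (h1 : Blk g h) (h2 : Blk h f) : Blk g f := by
  obtain ⟨m, hm, H⟩ := h1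
  obtain ⟨n, hn, K⟩ := h2
  exact ⟨fun j => m (n j), hm.comp hn, fun j => Comb.trans hm.monotone H (K j)⟩

theorem Blk.subseq (g : ℕ → X →L[𝕜] 𝕜) {φ : ℕ → ℕ} (hφ : StrictMono φ) :
    Blk g (fun j => g (φ j)) :=
  ⟨φ, hφ, fun j => (comb_single g (φ j)).mono le_rfl (hφ (Nat.lt_succ_self j))⟩

theorem Comb.apply_le {g : ℕ → X →L[𝕜] 𝕜} {a b : ℕ} {u : X →L[𝕜] 𝕜} (h : Comb g a b u)
    {x : X} {r : ℝ} (hr : ∀ k, a ≤ k → ‖g k x‖ ≤ r) : ‖u x‖ ≤ r := by
  obtain ⟨c, hc1, hc2⟩ := h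
  rw [hc2]
  calc ‖(∑ k ∈ Finset.Ico a b, c k • g k) x‖ = ‖∑ k ∈ Finset.Ico a b, c k * g k x‖ := by
        simp
    _ ≤ ∑ k ∈ Finset.Ico a b, ‖c k * g k x‖ := norm_sum_le _ _
    _ ≤ ∑ k ∈ Finset.Ico a b, ‖c k‖ * r := by
        refine Finset.sum_le_sum fun k hk => ?_
        rw [norm_mul]
        exact mul_le_mul_of_nonneg_left (hr k (Finset.mem_Ico.mp hk).1) (norm_nonneg _)
    _ = r := by rw [← Finset.sum_mul, hc1, one_mul]

theorem R.mono {g : ℕ → X →L[𝕜] 𝕜} {r s : ℝ} (h : R g r) (hrs : r ≤ s) : R g s :=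
  fun x hx => (h x hx).mono fun _ hk => hk.trans hrs

theorem R.blk {g h : ℕ → X →L[𝕜] 𝕜} {r : ℝ} (hR : R g r) (hB : Blk g h) : R h r := by
  obtain ⟨m, hm, H⟩ := hB
  intro x hx
  obtain ⟨N, hN⟩ := eventually_atTop.mp (hR x hx)
  refine eventually_atTop.mpr ⟨N, fun j hj => (H j).apply_le fun k hk => hN k ?_⟩
  exact hj.trans ((hm.id_le j).trans hk)

theorem R.tail {g : ℕ → X →L[𝕜] 𝕜} {r : ℝ} (i : ℕ) (h : R (fun j => g (i + j)) r) : R g r := by
  intro x hx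
  obtain ⟨N, hN⟩ := eventually_atTop.mp (h x hx)
  refine eventually_atTop.mpr ⟨i + N, fun k hk => ?_⟩
  have h1 : ‖g (i + (k - i)) x‖ ≤ r := hN (k - i) (by omega)
  rwa [show i + (k - i) = k by omega] at h1

theorem R.tail' {g : ℕ → X →L[𝕜] 𝕜} {r : ℝ} (i : ℕ) (h : R g r) : R (fun j => g (j + i)) r := by
  intro x hx
  obtain ⟨N, hN⟩ := eventually_atTop.mp (h x hx)
  exact eventually_atTop.mpr ⟨N, fun k hk => hN (k + i) (by omega)⟩

theorem Comb.shift {g : ℕ → X →L[𝕜] 𝕜} {a b : ℕ} {u : X →L[𝕜] 𝕜} (i : ℕ)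
    (h : Comb g (a + i) (b + i) u) : Comb (fun j => g (i + j)) a b u := by
  obtain ⟨c, hc1, hc2⟩ := h
  refine ⟨fun k => c (i + k), ?_, ?_⟩
  · rw [← hc1, ← Finset.sum_Ico_add']
    exact Finset.sum_congr rfl fun k _ => by rw [add_comm]
  · rw [hc2, ← Finset.sum_Ico_add']
    exact Finset.sum_congr rfl fun k _ => by rw [add_comm]

theorem Blk.shift {g h : ℕ → X →L[𝕜] 𝕜} (i : ℕ) (hB : Blk g h) :
    Blk (fun j => g (i + j)) (fun j => h (j + i)) := by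
  obtain ⟨m, hm, H⟩ := hB
  have hge : ∀ j, i ≤ m (j + i) := fun j => (Nat.le_add_left i j).trans (hm.id_le _)
  refine ⟨fun j => m (j + i) - i, ?_, ?_⟩
  · intro j k hjk
    have h1 : m (j + i) < m (k + i) := hm (by omega)
    have := hge j
    show m (j + i) - i < m (k + i) - i
    omega
  · intro j
    apply Comb.shift i
    show Comb g (m (j + i) - i + i) (m (j + 1 + i) - i + i) (h (j + i))
    rw [Nat.sub_add_cancel (hge j), Nat.sub_add_cancel (hge (j + 1)),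
      show j + 1 + i = j + i + 1 by omega]
    exact H (j + i)

theorem Blk.norm_le {g h : ℕ → X →L[𝕜] 𝕜} {B : ℝ} (hg : ∀ k, ‖g k‖ ≤ B) (hB : Blk g h) (j : ℕ) :
    ‖h j‖ ≤ B := by
  obtain ⟨m, hm, H⟩ := hB
  have hB0 : 0 ≤ B := (norm_nonneg _).trans (hg 0)
  refine ContinuousLinearMap.opNorm_le_bound _ hB0 fun x => ?_
  exact (H j).apply_le fun k _ => ((g k).le_opNorm x).trans
    (mul_le_mul_of_nonneg_right (hg k) (norm_nonneg _))

/-- composition of boundary maps -/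
def Q (M : ℕ → ℕ → ℕ) (i : ℕ) : ℕ → ℕ → ℕ
  | 0, p => p
  | j + 1, p => Q M i j (M (i + j) p)

theorem Q_strictMono (M : ℕ → ℕ → ℕ) (hM : ∀ n, StrictMono (M n)) (i j : ℕ) :
    StrictMono (Q M i j) := by
  induction j with
  | zero => exact strictMono_id
  | succ j ih => exact ih.comp (hM (i + j))

theorem diag_blk (G : ℕ → ℕ → X →L[𝕜] 𝕜) (hG : ∀ n, Blk (G n) (G (n + 1))) (i : ℕ) :
    Blk (G i) (fun j => G (i + j) (i + j)) := by
  choose M hM H using hG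
  have key : ∀ j p, Comb (G i) (Q M i j p) (Q M i j (p + 1)) (G (i + j) p) := by
    intro j
    induction j with
    | zero => intro p; exact comb_single (G i) p
    | succ j ih =>
      intro p
      exact Comb.trans (Q_strictMono M hM i j).monotone ih (H (i + j) p)
  have hstep : ∀ j, Q M i j (i + j + 1) ≤ Q M i (j + 1) (i + (j + 1)) := by
    intro j
    show Q M i j (i + j + 1) ≤ Q M i j (M (i + j) (i + (j + 1)))
    exact (Q_strictMono M hM i j).monotone ((hM (i + j)).id_le _)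
  refine ⟨fun j => Q M i j (i + j), ?_, fun j => (key j (i + j)).mono le_rfl (hstep j)⟩
  refine strictMono_nat_of_lt_succ fun j => ?_
  exact (Q_strictMono M hM i j (Nat.lt_succ_self _)).trans_le (hstep j)

theorem exists_stable (v : ℕ → X →L[𝕜] 𝕜) (B : ℝ) (hv : ∀ k, ‖v k‖ ≤ B) :
    ∃ d : ℕ → X →L[𝕜] 𝕜, Blk v d ∧ ∀ h, Blk d h → ∀ r, 0 ≤ r → R h r → ∀ ε, 0 < ε →
      R d (r + ε) := by
  have hB0 : 0 ≤ B := (norm_nonneg _).trans (hv 0)
  let S : (ℕ → X →L[𝕜] 𝕜) → Set ℝ := fun g => {r | 0 ≤ r ∧ ∃ h, Blk g h ∧ R h r}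
  have hbdd : ∀ g, BddBelow (S g) := fun g => ⟨0, fun r hr => hr.1⟩
  have hne : ∀ g : ℕ → X →L[𝕜] 𝕜, (∀ k, ‖g k‖ ≤ B) → (S g).Nonempty := by
    intro g hg
    refine ⟨B, hB0, g, Blk.refl g, fun x hx => Eventually.of_forall fun k => ?_⟩
    calc ‖g k x‖ ≤ ‖g k‖ * ‖x‖ := (g k).le_opNorm x
      _ ≤ B * 1 := mul_le_mul (hg k) hx (norm_nonneg _) hB0
      _ = B := mul_one B
  have hstep : ∀ (n : ℕ) (g : {g : ℕ → X →L[𝕜] 𝕜 // ∀ k, ‖g k‖ ≤ B}),
      ∃ h : {g : ℕ → X →L[𝕜] 𝕜 // ∀ k, ‖g k‖ ≤ B}, Blk g.1 h.1 ∧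
        R h.1 (sInf (S g.1) + 1 / ((n : ℝ) + 1)) := by
    rintro n ⟨g, hg⟩
    obtain ⟨r, ⟨hr0, h, hh, hR⟩, hr⟩ := exists_lt_of_csInf_lt (hne g hg)
      (lt_add_of_pos_right (sInf (S g)) (Nat.one_div_pos_of_nat (n := n)))
    exact ⟨⟨h, Blk.norm_le hg hh⟩, hh, hR.mono hr.le⟩
  choose nx hnx1 hnx2 using hstep
  let G : ℕ → {g : ℕ → X →L[𝕜] 𝕜 // ∀ k, ‖g k‖ ≤ B} := fun n => Nat.rec ⟨v, hv⟩ nx n
  have hGs : ∀ n, G (n + 1) = nx n (G n) := fun n => rfl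
  have hG : ∀ n, Blk (G n).1 (G (n + 1)).1 := fun n => by rw [hGs]; exact hnx1 n (G n)
  have hGR : ∀ n, R (G (n + 1)).1 (sInf (S (G n).1) + 1 / ((n : ℝ) + 1)) := fun n => by
    rw [hGs]; exact hnx2 n (G n)
  have hd := diag_blk (fun n => (G n).1) hG
  refine ⟨fun n => (G n).1 n, ?_, ?_⟩
  · have h0 := hd 0
    simp only [Nat.zero_add] at h0
    exact h0
  · intro h hh r hr0 hR ε hε
    obtain ⟨i, hi⟩ := exists_nat_one_div_lt hε
    have h1 : Blk (G i).1 (fun j => h (j + i)) := (hd i).trans (hh.shift i)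
    have h2 : sInf (S (G i).1) ≤ r :=
      csInf_le (hbdd _) ⟨hr0, _, h1, hR.tail' i⟩
    have h3 : R (fun n => (G n).1 n) (sInf (S (G i).1) + 1 / ((i : ℝ) + 1)) :=
      R.tail (i + 1) ((hGR i).blk (hd (i + 1)))
    exact h3.mono (by linarith)

end T5
end Crest.Agent.R114.V
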