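import Crest.Agent.R114.CodeSeq

/-! Compactness of coded lists (A2): the ultrafilter limit. (helper999) -/

set_option autoImplicit false

namespace Crest.Agent.R114

open Set Filter

set_option linter.unusedSectionVars false

variable {I : Type*} [LinearOrder I]

lemma IsCoded.le_idx {c : Coding I} {L : SList I} (hL : IsCoded c L) :
    ∀ l (_ : l < L.length), l ≤ (L.getD l 0).2 := by
  intro l
  induction l with
  | zero => intro _; exact Nat.zero_le _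
  | succ l ih =>
    intro h
    have h1 := ih (by omega)
    have h2 := hL.idx_lt (Nat.lt_succ_self l) h
    rw [List.getD_eq_getElem _ _ (by omega)] at h1
    rw [List.getD_eq_getElem _ _ h]
    exact lt_of_le_of_lt h1 h2

lemma IsCoded.idx_getD_lt {c : Coding I} {L : SList I} (hL : IsCoded c L) {l l' : ℕ}
    (h : l < l') (h' : l' < L.length) : (L.getD l 0).2 < (L.getD l' 0).2 := by
  rw [List.getD_eq_getElem _ _ (h.trans h'), List.getD_eq_getElem _ _ h']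
  exact hL.idx_lt h h'

lemma IsCoded.lt_of_getD {c : Coding I} {L : SList I} (hL : IsCoded c L) {l l' : ℕ}
    (h : l < l') (h' : l' < L.length) {ξ η : I} (hξ : (L.getD l 0).1 ξ ≠ 0)
    (hη : (L.getD l' 0).1 η ≠ 0) : ξ < η := by
  rw [List.getD_eq_getElem _ _ (h.trans h')] at hξ
  rw [List.getD_eq_getElem _ _ h'] at hη
  exact hL.succ l l' h h' ξ (Finsupp.mem_support_iff.2 hξ) η (Finsupp.mem_support_iff.2 hη)

lemma mem_suppL_getD {L : SList I} {ξ : I} {l : ℕ} (h : l < L.length)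
    (hξ : (L.getD l 0).1 ξ ≠ 0) : ξ ∈ suppL L := by
  rw [List.getD_eq_getElem _ _ h] at hξ
  exact mem_suppL_iff.2 ⟨l, h, hξ⟩

lemma getD_take {L : SList I} {l n : ℕ} (h : l < n) : (L.take n).getD l 0 = L.getD l 0 := by
  rw [List.getD_eq_getElem?_getD, List.getD_eq_getElem?_getD, List.getElem?_take, if_pos h]

lemma map_snd_getD {L : SList I} (l : ℕ) : (L.map Prod.snd).getD l 0 = (L.getD l 0).2 := by
  rw [List.getD_eq_getElem?_getD, List.getD_eq_getElem?_getD, List.getElem?_map]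
  cases L[l]? <;> rfl

/-- **Compactness of coded lists.**  `P k k'` is a special list defined for `k < k'` in an
infinite set `M`, whose code is in a set `C k'` of at most `q` elements, beyond `w k'`, and which
has an element at the place `l k k'` with index in the window `(w k, w (k+1)]`, nonzero at a point
`ξ k k'` of a finite set `F k`.  Then there is an infinite special sequence `t` which agrees, for
infinitely many `k` and suitable `k'`, with `P k k'` up to the point `ξ k k'`. -/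
theorem coherent_limit (c : Coding I) (Sp : SList I → Prop)
    (hSp : ∀ L, Sp L → IsCoded c L) (hSpt : ∀ L n, Sp L → Sp (L.take n))
    (w : ℕ → ℕ) (hw : StrictMono w)
    (q : ℕ) (C : ℕ → Finset ℕ) (hq : ∀ k, (C k).card ≤ q) (hC : ∀ k, ∀ j ∈ C k, w k < j)
    (M : Set ℕ) (hM : M.Infinite) (F : ℕ → Finset I)
    (P : ℕ → ℕ → SList I) (ξ : ℕ → ℕ → I) (l : ℕ → ℕ → ℕ)
    (hP : ∀ k ∈ M, ∀ k' ∈ M, k < k' → Sp (P k k') ∧ c.τ (P k k') ∈ C k' ∧ ξ k k' ∈ F k ∧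
      l k k' < (P k k').length ∧ w k < ((P k k').getD (l k k') 0).2 ∧
      ((P k k').getD (l k k') 0).2 ≤ w (k + 1) ∧ ((P k k').getD (l k k') 0).1 (ξ k k') ≠ 0) :
    ∃ t : ℕ → (I →₀ ℚ) × ℕ, (∀ n, Sp (pre t n)) ∧ ∃ M' ⊆ M, M'.Infinite ∧ ∀ k ∈ M',
      ∃ k' ∈ M, k < k' ∧ ∀ n ≤ l k k', ((P k k').getD n 0).2 = (t n).2 ∧
        ∀ η ≤ ξ k k', ((P k k').getD n 0).1 η = (t n).1 η := by
  classical
  -- the ultrafilter
  have hne : (atTop ⊓ 𝓟 M : Filter ℕ).NeBot := by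
    rw [← Nat.cofinite_eq_atTop]
    exact cofinite_inf_principal_neBot_iff.2 hM
  obtain ⟨U, hU⟩ := Ultrafilter.exists_le (atTop ⊓ 𝓟 M : Filter ℕ)
  have hUtop : (U : Filter ℕ) ≤ atTop := hU.trans inf_le_left
  have hUM : ∀ᶠ k' in (U : Filter ℕ), k' ∈ M := hU.trans inf_le_right (mem_principal_self M)
  have hUgt : ∀ n, ∀ᶠ k' in (U : Filter ℕ), n < k' := fun n => hUtop (eventually_gt_atTop n)
  have hwge : ∀ n, n ≤ w n := fun _ => hw.le_apply
  -- the enumeration of the codes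
  set e : ℕ → ℕ → ℕ := fun k' i => (C k').toList.getD i 0 with he
  have he' : ∀ k', ∀ j ∈ C k', ∃ i : Fin q, j = e k' i := by
    intro k' j hj
    obtain ⟨i, hi, rfl⟩ := List.getElem_of_mem (Finset.mem_toList.2 hj)
    have hi' : i < q := lt_of_lt_of_le (by simpa using hi) (hq k')
    exact ⟨⟨i, hi'⟩, by rw [he]; exact (List.getD_eq_getElem _ _ hi).symm⟩
  have h1 : ∀ k ∈ M, ∃ i : Fin q, ∀ᶠ k' in (U : Filter ℕ), c.τ (P k k') = e k' i := by
    intro k hk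
    rw [← Ultrafilter.eventually_exists_iff]
    filter_upwards [hUM, hUgt k] with k' h2 h3
    exact he' k' _ (hP k hk k' h2 h3).2.1
  have h2 : ∃ i : Fin q, {k | ∃ _ : k ∈ M, ∀ᶠ k' in (U : Filter ℕ),
      c.τ (P k k') = e k' i}.Infinite := by
    by_contra hcon
    push Not at hcon
    apply hM
    refine (Set.finite_iUnion fun i : Fin q => (hcon i)).subset ?_
    intro k hk
    obtain ⟨i, hi⟩ := h1 k hk
    exact Set.mem_iUnion.2 ⟨i, hk, hi⟩
  obtain ⟨i₀, hM'⟩ := h2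
  set M' : Set ℕ := {k | ∃ _ : k ∈ M, ∀ᶠ k' in (U : Filter ℕ), c.τ (P k k') = e k' i₀} with hM'def
  set c' : ℕ → ℕ := fun k' => e k' i₀ with hc'
  have hM'M : M' ⊆ M := fun k hk => hk.1
  have hgood : ∀ k ∈ M', ∀ᶠ k' in (U : Filter ℕ), k' ∈ M ∧ k < k' ∧ c.τ (P k k') = c' k' := by
    intro k hk
    filter_upwards [hUM, hUgt k, hk.2] with k' h3 h4 h5 using ⟨h3, h4, h5⟩
  have hM'ne : M'.Nonempty := hM'.nonempty
  have hM'gt : ∀ n, ∃ k ∈ M', n < k := by
    intro n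
    obtain ⟨k, hk, hk'⟩ := hM'.exists_gt n
    exact ⟨k, hk, hk'⟩
  -- the depth of the codes tends to infinity
  have hdep : ∀ n, ∀ᶠ k' in (U : Filter ℕ), n < c.dep (c' k') := by
    intro n
    obtain ⟨N, hN⟩ := eventually_atTop.1 (c.dep_tendsto.eventually_gt_atTop n)
    obtain ⟨k, hk⟩ := hM'ne
    filter_upwards [hgood k hk, hUgt N] with k' h3 h4
    apply hN
    have h5 := hC k' _ ((hP k (hM'M hk) k' h3.1 h3.2.1).2.1)
    rw [h3.2.2] at h5
    have := hwge k'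
    omega
  -- common lists of indices
  have hidx : ∀ k₁ ∈ M', ∀ k₂ ∈ M', ∀ᶠ k' in (U : Filter ℕ),
      (P k₁ k').map Prod.snd = (P k₂ k').map Prod.snd := by
    intro k₁ h3 k₂ h4
    filter_upwards [hgood k₁ h3, hgood k₂ h4] with k' h5 h6
    exact (c.τ_eq _ _ (h5.2.2.trans h6.2.2.symm)).1
  have hidx' : ∀ k₁ ∈ M', ∀ k₂ ∈ M', ∀ᶠ k' in (U : Filter ℕ),
      (P k₁ k').length = (P k₂ k').length ∧
        ∀ n, ((P k₁ k').getD n 0).2 = ((P k₂ k').getD n 0).2 := by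
    intro k₁ h3 k₂ h4
    filter_upwards [hidx k₁ h3 k₂ h4] with k' h5
    refine ⟨by simpa using congrArg List.length h5, fun n => ?_⟩
    rw [← map_snd_getD, ← map_snd_getD, h5]
  -- growth of the places
  have hlt : ∀ k₁ ∈ M', ∀ k₂ ∈ M', k₁ < k₂ → ∀ᶠ k' in (U : Filter ℕ), l k₁ k' < l k₂ k' := by
    intro k₁ h3 k₂ h4 h12
    filter_upwards [hgood k₁ h3, hgood k₂ h4, hidx' k₁ h3 k₂ h4] with k' h5 h6 h7
    by_contra hle
    have h8 := hP k₁ (hM'M h3) k' h5.1 h5.2.1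
    have h9 := hP k₂ (hM'M h4) k' h6.1 h6.2.1
    have h10 : w (k₁ + 1) ≤ w k₂ := hw.monotone h12
    have h11 : ((P k₂ k').getD (l k₂ k') 0).2 ≤ ((P k₂ k').getD (l k₁ k') 0).2 := by
      rcases Nat.eq_or_lt_of_le (not_lt.1 hle) with h | h
      · rw [h]
      · refine ((hSp _ h9.1).idx_getD_lt h ?_).le
        rw [← h7.1]; exact h8.2.2.2.1
    have h12 := h7.2 (l k₁ k')
    have h13 := h8.2.2.2.2.2.1
    have h14 := h9.2.2.2.2.1
    omega
  -- constant data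
  have hl : ∀ k ∈ M', ∃ n, ∀ᶠ k' in (U : Filter ℕ), l k k' = n := by
    intro k hk
    have : ∀ᶠ k' in (U : Filter ℕ), ∃ n ∈ Set.Iic (w (k + 1)), l k k' = n := by
      filter_upwards [hgood k hk] with k' h3
      have h4 := hP k (hM'M hk) k' h3.1 h3.2.1
      refine ⟨_, ?_, rfl⟩
      exact ((hSp _ h4.1).le_idx _ h4.2.2.2.1).trans h4.2.2.2.2.2.1
    rw [Ultrafilter.eventually_exists_mem_iff (Set.finite_Iic _)] at this
    obtain ⟨n, -, hn⟩ := this
    exact ⟨n, hn⟩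
  choose! lk hlk using hl
  have hlk_lt : ∀ k₁ ∈ M', ∀ k₂ ∈ M', k₁ < k₂ → lk k₁ < lk k₂ := by
    intro k₁ h3 k₂ h4 h12
    obtain ⟨k', h5, h6, h7⟩ := ((hlk k₁ h3).and ((hlk k₂ h4).and (hlt k₁ h3 k₂ h4 h12))).exists
    omega
  have hlk_large : ∀ n, ∃ k ∈ M', n ≤ lk k := by
    intro n
    induction n with
    | zero => obtain ⟨k, hk⟩ := hM'ne; exact ⟨k, hk, Nat.zero_le _⟩
    | succ n ih =>
      obtain ⟨k, hk, hkn⟩ := ih
      obtain ⟨k₂, hk₂, hlt2⟩ := hM'gt k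
      have := hlk_lt k hk k₂ hk₂ hlt2
      exact ⟨k₂, hk₂, by omega⟩
  -- constant indices
  have hJ : ∀ n, ∃ j, ∀ k ∈ M', ∀ᶠ k' in (U : Filter ℕ),
      n < (P k k').length ∧ ((P k k').getD n 0).2 = j := by
    intro n
    obtain ⟨k₀, hk₀, hn⟩ := hlk_large n
    have : ∀ᶠ k' in (U : Filter ℕ), ∃ j ∈ Set.Iic (w (k₀ + 1)),
        n < (P k₀ k').length ∧ ((P k₀ k').getD n 0).2 = j := by
      filter_upwards [hgood k₀ hk₀, hlk k₀ hk₀] with k' h3 h4
      have h5 := hP k₀ (hM'M hk₀) k' h3.1 h3.2.1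
      refine ⟨_, ?_, by omega, rfl⟩
      rcases Nat.eq_or_lt_of_le hn with h | h
      · rw [h, ← h4]; exact h5.2.2.2.2.2.1
      · rw [← h4] at h
        exact ((hSp _ h5.1).idx_getD_lt h h5.2.2.2.1).le.trans h5.2.2.2.2.2.1
    rw [Ultrafilter.eventually_exists_mem_iff (Set.finite_Iic _)] at this
    obtain ⟨j, -, hj⟩ := this
    refine ⟨j, fun k hk => ?_⟩
    filter_upwards [hj, hidx' k₀ hk₀ k hk] with k' h3 h4
    exact ⟨h4.1 ▸ h3.1, by rw [← h4.2]; exact h3.2⟩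
  choose J hJ using hJ
  have hτJ : ∀ n, 0 < n → ∀ k ∈ M', ∀ᶠ k' in (U : Filter ℕ), c.τ ((P k k').take n) = J n := by
    intro n hn k hk
    filter_upwards [hgood k hk, hJ n k hk] with k' h3 h4
    have h5 := hP k (hM'M hk) k' h3.1 h3.2.1
    rw [← (hSp _ h5.1).code n h4.1 hn, ← List.getD_eq_getElem _ 0 h4.1]
    exact h4.2
  -- constant points
  have hξ : ∀ k ∈ M', ∃ x, ∀ᶠ k' in (U : Filter ℕ), ξ k k' = x := by
    intro k hk
    have : ∀ᶠ k' in (U : Filter ℕ), ∃ n ∈ (F k : Set I), ξ k k' = n := by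
      filter_upwards [hgood k hk] with k' h3
      exact ⟨_, (hP k (hM'M hk) k' h3.1 h3.2.1).2.2.1, rfl⟩
    rw [Ultrafilter.eventually_exists_mem_iff (Finset.finite_toSet _)] at this
    obtain ⟨n, -, hn⟩ := this
    exact ⟨n, hn⟩
  have hIne : Nonempty I := ⟨ξ 0 0⟩
  choose! ξk hξk using hξ
  -- summary of the good properties
  have hall : ∀ k ∈ M', ∀ᶠ k' in (U : Filter ℕ), k' ∈ M ∧ k < k' ∧ c.τ (P k k') = c' k' ∧
      IsCoded c (P k k') ∧ Sp (P k k') ∧ lk k < (P k k').length ∧ l k k' = lk k ∧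
      ξ k k' = ξk k ∧ ((P k k').getD (lk k) 0).1 (ξk k) ≠ 0 ∧
      ξk k ∈ suppL ((P k k').take (lk k + 1)) := by
    intro k hk
    filter_upwards [hgood k hk, hlk k hk, hξk k hk] with k' h3 h4 h5
    have h6 := hP k (hM'M hk) k' h3.1 h3.2.1
    rw [h4, h5] at h6
    refine ⟨h3.1, h3.2.1, h3.2.2, hSp _ h6.1, h6.1, h6.2.2.2.1, h4, h5, h6.2.2.2.2.2.2, ?_⟩
    refine mem_suppL_getD (l := lk k) (by simp; exact h6.2.2.2.1) ?_
    rw [getD_take (Nat.lt_succ_self _)]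
    exact h6.2.2.2.2.2.2
  -- constant restrictions
  have hR : ∀ k ∈ M', ∃ R : ℕ →₀ (Set.Iic (ξk k) →₀ ℚ), ∀ᶠ k' in (U : Filter ℕ),
      restr (ξk k) (P k k') = R := by
    intro k hk
    obtain ⟨k₀, h3, h4⟩ := ((hall k hk).and (hτJ (lk k + 1) (Nat.succ_pos _) k hk)).exists
    have h5 : ∀ᶠ k' in (U : Filter ℕ), ∃ η ∈ (suppL ((P k k₀).take (lk k + 1)) : Set I),
        c.E (ξk k) ((P k k').take (lk k + 1)) = c.E η ((P k k₀).take (lk k + 1)) := by
      filter_upwards [hall k hk, hτJ (lk k + 1) (Nat.succ_pos _) k hk] with k' h6 h7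
      obtain ⟨η, h8, -, -, h9⟩ := (c.τ_eq _ _ (h7.trans h4.symm)).2 (ξk k) h6.2.2.2.2.2.2.2.2.2
      exact ⟨η, h8, h9⟩
    rw [Ultrafilter.eventually_exists_mem_iff (Finset.finite_toSet _)] at h5
    obtain ⟨η, -, h6⟩ := h5
    obtain ⟨k₁, h7, h8⟩ := (h6.and (hall k hk)).exists
    refine ⟨restr (ξk k) (P k k₁), ?_⟩
    filter_upwards [h6, hall k hk] with k' h9 h10
    rw [← h10.2.2.2.1.restr_take h10.2.2.2.2.2.2.2.2.2,
      ← h8.2.2.2.1.restr_take h8.2.2.2.2.2.2.2.2.2, ← c.E_iff, h9, h7]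
  choose! R hR using hR
  -- coherence
  have hcoh : ∀ k₁ ∈ M', ∀ k₂ ∈ M', k₁ < k₂ → ∀ᶠ k' in (U : Filter ℕ),
      restr (ξk k₁) (P k₁ k') = restr (ξk k₁) (P k₂ k') := by
    intro k₁ hk₁ k₂ hk₂ h12
    obtain ⟨k₀, hk₀, hk₀'⟩ := ((hall k₂ hk₂).and (hR k₂ hk₂)).exists
    have hll := hlk_lt k₁ hk₁ k₂ hk₂ h12
    have h3 : ∀ᶠ k' in (U : Filter ℕ), ∃ η ∈ (suppL (P k₂ k₀) : Set I),
        (∀ i < c.dep (c' k'), c.x (ξk k₁) i = c.x η i) ∧
          c.E (ξk k₁) (P k₁ k') = c.E η (P k₂ k') := by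
      filter_upwards [hall k₁ hk₁, hall k₂ hk₂, hR k₂ hk₂,
        hτJ (lk k₁ + 1) (Nat.succ_pos _) k₁ hk₁, hτJ (lk k₁ + 1) (Nat.succ_pos _) k₂ hk₂]
        with k' h4 h5 h6 h7 h8
      have h9 : ξk k₁ ∈ suppL (P k₁ k') := suppL_take_subset _ _ h4.2.2.2.2.2.2.2.2.2
      obtain ⟨η, hη, hrk, hx, hE⟩ := (c.τ_eq _ _ (h4.2.2.1.trans h5.2.2.1.symm)).2 _ h9
      rw [h4.2.2.1] at hx
      obtain ⟨η', hη', hrk', -, -⟩ :=
        (c.τ_eq _ _ (h7.trans h8.symm)).2 (ξk k₁) h4.2.2.2.2.2.2.2.2.2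
      rw [h4.2.2.2.1.rk_take h4.2.2.2.2.2.2.2.2.2, h5.2.2.2.1.rk_take hη'] at hrk'
      have hηη : η = η' := rk_inj hη (suppL_take_subset _ _ hη') (hrk.symm.trans hrk')
      subst hηη
      refine ⟨η, ?_, hx, hE⟩
      obtain ⟨n, hn, hn'⟩ := mem_suppL_iff.1 hη'
      have hnl : n < lk k₁ + 1 := by simp at hn; omega
      have hnlen : n < (P k₂ k').length := by simp at hn; omega
      rw [List.getElem_take, ← List.getD_eq_getElem _ 0 hnlen] at hn'
      have hlt' : η < ξk k₂ := h5.2.2.2.1.lt_of_getD (by omega) h5.2.2.2.2.2.1 hn'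
        h5.2.2.2.2.2.2.2.2.1
      have h10 : restr (ξk k₂) (P k₂ k') = restr (ξk k₂) (P k₂ k₀) := h6.trans hk₀'.symm
      rw [restr_eq_iff] at h10
      have h11 := h10 n η hlt'.le
      rw [h11] at hn'
      have hn0 : n < (P k₂ k₀).length := by
        by_contra hge
        apply hn'
        rw [List.getD_eq_default _ _ (by omega)]; rfl
      exact mem_suppL_getD hn0 hn'
    rw [Ultrafilter.eventually_exists_mem_iff (Finset.finite_toSet _)] at h3
    obtain ⟨η, -, h4⟩ := h3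
    have hx : c.x (ξk k₁) = c.x η := by
      funext i
      obtain ⟨k', h5, h6⟩ := (h4.and (hdep i)).exists
      exact h5.1 i h6
    have hη := c.x_inj hx
    subst hη
    filter_upwards [h4] with k' h5
    exact (c.E_iff _ _ _).1 h5.2
  -- entries of the lists
  have hent : ∀ k ∈ M', ∀ n < lk k, ∃ p, ∀ᶠ k' in (U : Filter ℕ), (P k k').getD n 0 = p := by
    intro k hk n hn
    obtain ⟨k₀, h3, h4, h5⟩ := ((hall k hk).and ((hR k hk).and (hJ n k hk))).exists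
    refine ⟨(P k k₀).getD n 0, ?_⟩
    filter_upwards [hall k hk, hR k hk, hJ n k hk] with k' h6 h7 h8
    refine Prod.ext ?_ (h8.2.trans h5.2.symm)
    ext η
    have h9 := h7.trans h4.symm
    rw [restr_eq_iff] at h9
    by_cases h10 : η ≤ ξk k
    · exact h9 n η h10
    · have h11 : ((P k k').getD n 0).1 η = 0 := by
        by_contra h12
        exact h10 (h6.2.2.2.1.lt_of_getD hn h6.2.2.2.2.2.1 h12 h6.2.2.2.2.2.2.2.2.1).le
      have h13 : ((P k k₀).getD n 0).1 η = 0 := by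
        by_contra h12
        exact h10 (h3.2.2.2.1.lt_of_getD hn h3.2.2.2.2.2.1 h12 h3.2.2.2.2.2.2.2.2.1).le
      rw [h11, h13]
  have hent2 : ∀ k₁ ∈ M', ∀ k₂ ∈ M', k₁ < k₂ → ∀ n < lk k₁, ∀ᶠ k' in (U : Filter ℕ),
      (P k₁ k').getD n 0 = (P k₂ k').getD n 0 := by
    intro k₁ hk₁ k₂ hk₂ h12 n hn
    have hll := hlk_lt k₁ hk₁ k₂ hk₂ h12
    filter_upwards [hall k₁ hk₁, hall k₂ hk₂, hcoh k₁ hk₁ k₂ hk₂ h12, hJ n k₁ hk₁, hJ n k₂ hk₂]
      with k' h3 h4 h5 h6 h7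
    refine Prod.ext ?_ (h6.2.trans h7.2.symm)
    rw [restr_eq_iff] at h5
    have h8 : ((P k₂ k').getD (lk k₁) 0).1 (ξk k₁) ≠ 0 := by
      rw [← h5 (lk k₁) (ξk k₁) le_rfl]; exact h3.2.2.2.2.2.2.2.2.1
    ext η
    by_cases h10 : η ≤ ξk k₁
    · exact h5 n η h10
    · have h11 : ((P k₁ k').getD n 0).1 η = 0 := by
        by_contra h12
        exact h10 (h3.2.2.2.1.lt_of_getD hn h3.2.2.2.2.2.1 h12 h3.2.2.2.2.2.2.2.2.1).le
      have h13 : ((P k₂ k').getD n 0).1 η = 0 := by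
        by_contra h12
        exact h10 (h4.2.2.2.1.lt_of_getD hn (by have := h4.2.2.2.2.2.1; omega) h12 h8).le
      rw [h11, h13]
  choose κ hκM hκ using fun n => hlk_large (n + 1)
  have ht : ∀ n, ∃ p, ∀ᶠ k' in (U : Filter ℕ), (P (κ n) k').getD n 0 = p := fun n =>
    hent (κ n) (hκM n) n (by have := hκ n; omega)
  choose t ht using ht
  have ht2 : ∀ k ∈ M', ∀ n < lk k, ∀ᶠ k' in (U : Filter ℕ), (P k k').getD n 0 = t n := by
    intro k hk n hn
    rcases lt_trichotomy k (κ n) with h | h | h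
    · filter_upwards [hent2 k hk (κ n) (hκM n) h n hn, ht n] with k' h3 h4
      rw [h3, h4]
    · rw [h]; exact ht n
    · filter_upwards [hent2 (κ n) (hκM n) k hk h n (by have := hκ n; omega), ht n] with k' h3 h4
      rw [← h3, h4]
  refine ⟨t, ?_, M', hM'M, hM', ?_⟩
  · intro N
    obtain ⟨k, hk, hkN⟩ := hlk_large N
    have h3 : ∀ᶠ k' in (U : Filter ℕ), ∀ n ∈ Finset.range N, (P k k').getD n 0 = t n := by
      rw [Finset.eventually_all]
      intro n hn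
      exact ht2 k hk n (by have := Finset.mem_range.1 hn; omega)
    obtain ⟨k', h4, h5⟩ := (h3.and (hall k hk)).exists
    have h6 : pre t N = (P k k').take N := by
      apply List.ext_getElem
      · simp; have := h5.2.2.2.2.2.1; omega
      · intro n h7 h8
        simp only [length_pre] at h7
        rw [getElem_pre, List.getElem_take, ← List.getD_eq_getElem _ 0]
        exact (h4 n (Finset.mem_range.2 h7)).symm
    rw [h6]
    exact hSpt _ _ h5.2.2.2.2.1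
  · intro k hk
    obtain ⟨k₂, hk₂, hkk⟩ := hM'gt k
    have hll := hlk_lt k hk k₂ hk₂ hkk
    have h3 : ∀ᶠ k' in (U : Filter ℕ), ∀ n ∈ Finset.range (lk k + 1), (P k₂ k').getD n 0 = t n := by
      rw [Finset.eventually_all]
      intro n hn
      exact ht2 k₂ hk₂ n (by have := Finset.mem_range.1 hn; omega)
    obtain ⟨k', h4, h5, h6, h7, h8⟩ := (h3.and ((hall k hk).and
      ((hcoh k hk k₂ hk₂ hkk).and ((hidx' k hk k₂ hk₂).and (hUgt k))))).exists
    refine ⟨k', h5.1, h5.2.1, ?_⟩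
    intro n hn
    rw [h5.2.2.2.2.2.2.1] at hn
    have h9 := h4 n (Finset.mem_range.2 (by omega))
    refine ⟨by rw [h7.2 n, h9], ?_⟩
    intro η hη
    rw [h5.2.2.2.2.2.2.2.1] at hη
    rw [restr_eq_iff] at h6
    rw [h6 n η hη, h9]

end Crest.Agent.R114
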