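import Crest.Agent.R114.Limit

/-!
(4.3): in a rapidly increasing sequence `y k` with windows `(w k, w (k+1)]`, a subsequence can be
chosen on which no special list acts `≥ η` (through the window parts) on two members, unless some
infinite special sequence acts `≥ η / 2` on infinitely many `y k` (restricted to an interval).
(helper115)
-/

set_option autoImplicit false

namespace Crest.Agent.R114

open Set Filter

set_option linter.unusedSectionVars false

section Ramsey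

/-- the infinite set built from an ultrafilter -/
lemma exists_infinite_of_ultrafilter {R : ℕ → ℕ → Prop} {A : Set ℕ} (U : Ultrafilter ℕ)
    (hU : (U : Filter ℕ) ≤ atTop) (hA : ∀ᶠ k in (U : Filter ℕ), k ∈ A)
    (h : ∀ k ∈ A, ∀ᶠ k' in (U : Filter ℕ), R k k') :
    ∃ M ⊆ A, M.Infinite ∧ ∀ k ∈ M, ∀ k' ∈ M, k < k' → R k k' := by
  obtain ⟨f, hf, hr⟩ := exists_seq_of_forall_finset_exists (fun k => k ∈ A)
    (fun k k' => k < k' ∧ R k k') (by
      intro s hs
      have h1 : ∀ᶠ k' in (U : Filter ℕ), ∀ x ∈ s, x < k' ∧ R x k' := by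
        rw [Finset.eventually_all]
        intro x hx
        have h2 : ∀ᶠ k' in (U : Filter ℕ), x < k' := hU (eventually_gt_atTop x)
        exact h2.and (h x (hs x hx))
      obtain ⟨y, hy⟩ := (hA.and h1).exists
      exact ⟨y, hy⟩)
  have hmono : StrictMono f := fun m n hmn => (hr m n hmn).1
  refine ⟨Set.range f, ?_, Set.infinite_range_of_injective hmono.injective, ?_⟩
  · rintro _ ⟨n, rfl⟩; exact hf n
  · rintro _ ⟨m, rfl⟩ _ ⟨n, rfl⟩ hmn
    exact (hr m n (hmono.lt_iff_lt.1 hmn)).2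

/-- Ramsey's theorem for pairs -/
theorem ramsey_pairs (R : ℕ → ℕ → Prop) (K : Set ℕ) (hK : K.Infinite) :
    ∃ M ⊆ K, M.Infinite ∧ ((∀ k ∈ M, ∀ k' ∈ M, k < k' → R k k') ∨
      (∀ k ∈ M, ∀ k' ∈ M, k < k' → ¬ R k k')) := by
  have hne : (atTop ⊓ 𝓟 K : Filter ℕ).NeBot := by
    rw [← Nat.cofinite_eq_atTop]
    exact cofinite_inf_principal_neBot_iff.2 hK
  obtain ⟨U, hU⟩ := Ultrafilter.exists_le (atTop ⊓ 𝓟 K : Filter ℕ)
  have hUtop : (U : Filter ℕ) ≤ atTop := hU.trans inf_le_left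
  have hUK : ∀ᶠ k' in (U : Filter ℕ), k' ∈ K := hU.trans inf_le_right (mem_principal_self K)
  by_cases hA : ∀ᶠ k in (U : Filter ℕ), ∀ᶠ k' in (U : Filter ℕ), R k k'
  · obtain ⟨M, hM, hM', h⟩ := exists_infinite_of_ultrafilter (R := R)
      (A := {k | k ∈ K ∧ ∀ᶠ k' in (U : Filter ℕ), R k k'}) U hUtop (hUK.and hA)
      (fun k hk => hk.2)
    exact ⟨M, fun k hk => (hM hk).1, hM', Or.inl h⟩
  · rw [← Ultrafilter.eventually_not] at hA
    obtain ⟨M, hM, hM', h⟩ := exists_infinite_of_ultrafilter (R := fun k k' => ¬ R k k')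
      (A := {k | k ∈ K ∧ ¬ ∀ᶠ k' in (U : Filter ℕ), R k k'}) U hUtop (hUK.and hA)
      (fun k hk => Ultrafilter.eventually_not.2 hk.2)
    exact ⟨M, fun k hk => (hM hk).1, hM', Or.inr h⟩

end Ramsey

variable {I : Type*} [LinearOrder I] {𝕜 : Type*} [RCLike 𝕜]

/-- value of a rational functional at a vector -/
noncomputable def ev (f : I →₀ ℚ) (v : I → 𝕜) : 𝕜 := f.sum fun ξ q => (q : 𝕜) * v ξ

/-- value of the sum of a list at a vector -/
noncomputable def lact (L : SList I) (v : I → 𝕜) : 𝕜 := (L.map fun p => ev p.1 v).sum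

/-- value of the window part of a list at a vector -/
noncomputable def wact (L : SList I) (a b : ℕ) (v : I → 𝕜) : 𝕜 :=
  (L.map fun p => if a < p.2 ∧ p.2 ≤ b then ev p.1 v else 0).sum

lemma ev_congr {f : I →₀ ℚ} {v v' : I → 𝕜} (h : ∀ ξ, f ξ ≠ 0 → v ξ = v' ξ) :
    ev f v = ev f v' := by
  unfold ev Finsupp.sum
  refine Finset.sum_congr rfl fun ξ hξ => ?_
  show (f ξ : 𝕜) * v ξ = (f ξ : 𝕜) * v' ξ
  rw [h ξ (Finsupp.mem_support_iff.1 hξ)]

lemma ev_congr' {f g : I →₀ ℚ} {v : I → 𝕜} (h : ∀ ξ, v ξ ≠ 0 → f ξ = g ξ) :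
    ev f v = ev g v := by
  classical
  have h1 : ∀ f g : I →₀ ℚ, ev f v = ∑ ξ ∈ f.support ∪ g.support, (f ξ : 𝕜) * v ξ := by
    intro f g
    unfold ev
    exact Finsupp.sum_of_support_subset f Finset.subset_union_left _ (fun i _ => by simp)
  rw [h1 f g, h1 g f, Finset.union_comm]
  refine Finset.sum_congr rfl fun ξ _ => ?_
  by_cases hv : v ξ = 0
  · simp [hv]
  · rw [h ξ hv]

lemma ev_eq_zero {f : I →₀ ℚ} {v : I → 𝕜} (h : ∀ ξ, f ξ ≠ 0 → v ξ = 0) : ev f v = 0 := by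
  unfold ev Finsupp.sum
  refine Finset.sum_eq_zero fun ξ hξ => ?_
  show (f ξ : 𝕜) * v ξ = 0
  rw [h ξ (Finsupp.mem_support_iff.1 hξ), mul_zero]

@[simp] lemma ev_zero (v : I → 𝕜) : ev 0 v = 0 := by simp [ev]

lemma sum_map_eq_range {α β : Type*} [AddCommMonoid β] (L : List α) (d : α) (g : α → β) :
    (L.map g).sum = ∑ i ∈ Finset.range L.length, g (L.getD i d) := by
  induction L using List.reverseRecOn with
  | nil => simp
  | append_singleton L a ih =>
    rw [List.map_append, List.sum_append, ih, List.length_append, List.length_singleton,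
      Finset.sum_range_succ]
    congr 1
    · refine Finset.sum_congr rfl fun i hi => ?_
      rw [List.getD_append _ _ _ _ (Finset.mem_range.1 hi)]
    · simp

lemma lact_eq (L : SList I) (v : I → 𝕜) :
    lact L v = ∑ i ∈ Finset.range L.length, ev (L.getD i 0).1 v :=
  sum_map_eq_range L 0 _

lemma wact_eq (L : SList I) (a b : ℕ) (v : I → 𝕜) :
    wact L a b v = ∑ i ∈ Finset.range L.length,
      if a < (L.getD i 0).2 ∧ (L.getD i 0).2 ≤ b then ev (L.getD i 0).1 v else 0 :=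
  sum_map_eq_range L 0 fun p : (I →₀ ℚ) × ℕ => if a < p.2 ∧ p.2 ≤ b then ev p.1 v else 0

lemma lact_pre (t : ℕ → (I →₀ ℚ) × ℕ) (n : ℕ) (v : I → 𝕜) :
    lact (pre t n) v = ∑ i ∈ Finset.range n, ev (t i).1 v := by
  rw [lact_eq, length_pre]
  refine Finset.sum_congr rfl fun i hi => ?_
  rw [getD_pre, if_pos (Finset.mem_range.1 hi)]

/-- the number of elements of a list with index `≤ a` -/
noncomputable def cnt (L : SList I) (a : ℕ) : ℕ :=
  ((Finset.range L.length).filter fun i => (L.getD i 0).2 ≤ a).card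

lemma IsCoded.lt_cnt_iff {c : Coding I} {L : SList I} (hL : IsCoded c L) {a i : ℕ}
    (hi : i < L.length) : i < cnt L a ↔ (L.getD i 0).2 ≤ a := by
  classical
  have hmono : ∀ i j, i ≤ j → j < L.length → (L.getD i 0).2 ≤ (L.getD j 0).2 := by
    intro i j hij hj
    rcases Nat.eq_or_lt_of_le hij with h | h
    · rw [h]
    · exact (hL.idx_getD_lt h hj).le
  have key : ((Finset.range L.length).filter fun i => (L.getD i 0).2 ≤ a) =
      Finset.range (cnt L a) := by
    apply Finset.eq_of_subset_of_card_le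
    · intro j hj
      rw [Finset.mem_filter, Finset.mem_range] at hj
      rw [Finset.mem_range]
      have : Finset.range (j + 1) ⊆ (Finset.range L.length).filter
          fun i => (L.getD i 0).2 ≤ a := by
        intro i hi
        rw [Finset.mem_range] at hi
        rw [Finset.mem_filter, Finset.mem_range]
        exact ⟨by omega, (hmono i j (by omega) hj.1).trans hj.2⟩
      have h2 := Finset.card_le_card this
      rw [Finset.card_range] at h2
      exact h2
    · rw [Finset.card_range]; exact le_rfl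
  constructor
  · intro h
    have : i ∈ (Finset.range L.length).filter fun i => (L.getD i 0).2 ≤ a := by
      rw [key]; exact Finset.mem_range.2 h
    exact (Finset.mem_filter.1 this).2
  · intro h
    have : i ∈ Finset.range (cnt L a) := by
      rw [← key, Finset.mem_filter, Finset.mem_range]; exact ⟨hi, h⟩
    exact Finset.mem_range.1 this

lemma cnt_le_length (L : SList I) (a : ℕ) : cnt L a ≤ L.length := by
  unfold cnt
  exact (Finset.card_filter_le _ _).trans (by rw [Finset.card_range])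

lemma length_seg (L : SList I) (r s : ℕ) :
    ((L.take s).drop r).length = min s L.length - r := by simp

lemma getD_seg (L : SList I) (r s i : ℕ) (hi : r + i < s) :
    ((L.take s).drop r).getD i 0 = L.getD (r + i) 0 := by
  rw [List.getD_eq_getElem?_getD, List.getElem?_drop, List.getElem?_take, if_pos hi,
    List.getD_eq_getElem?_getD]

lemma lact_seg (L : SList I) (r s : ℕ) (v : I → 𝕜) :
    lact ((L.take s).drop r) v = ∑ i ∈ Finset.Ico r (min s L.length), ev (L.getD i 0).1 v := by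
  rw [lact_eq, Finset.sum_Ico_eq_sum_range, length_seg]
  refine Finset.sum_congr rfl fun i hi => ?_
  rw [Finset.mem_range] at hi
  rw [getD_seg _ _ _ _ (by omega)]

/-- the window part as a segment of the list -/
lemma IsCoded.wact_eq_lact {c : Coding I} {L : SList I} (hL : IsCoded c L) (a b : ℕ)
    (v : I → 𝕜) : wact L a b v = lact ((L.take (cnt L b)).drop (cnt L a)) v := by
  classical
  rw [wact_eq, lact_seg, min_eq_left (cnt_le_length L b), ← Finset.sum_filter]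
  refine Finset.sum_congr ?_ fun _ _ => rfl
  ext i
  rw [Finset.mem_filter, Finset.mem_range, Finset.mem_Ico]
  constructor
  · rintro ⟨h1, h2, h3⟩
    rw [← hL.lt_cnt_iff h1] at h3
    refine ⟨?_, h3⟩
    by_contra h4
    have := (hL.lt_cnt_iff h1).1 (not_le.1 h4)
    omega
  · rintro ⟨h1, h2⟩
    have h3 : i < L.length := lt_of_lt_of_le h2 (cnt_le_length L b)
    rw [hL.lt_cnt_iff h3] at h2
    refine ⟨h3, ?_, h2⟩
    by_contra h4
    have := (hL.lt_cnt_iff h3).2 (not_lt.1 h4)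
    omega

lemma mem_seg {L : SList I} {r s : ℕ} {p : (I →₀ ℚ) × ℕ} (h : p ∈ (L.take s).drop r) :
    ∃ i, r ≤ i ∧ i < s ∧ i < L.length ∧ p = L.getD i 0 := by
  obtain ⟨j, hj, rfl⟩ := List.getElem_of_mem h
  rw [length_seg] at hj
  refine ⟨r + j, by omega, by omega, by omega, ?_⟩
  rw [← getD_seg L r s j (by omega), List.getD_eq_getElem]

lemma IsCoded.code_getD {c : Coding I} {L : SList I} (hL : IsCoded c L) {i : ℕ}
    (h0 : 0 < i) (hi : i < L.length) : (L.getD i 0).2 = c.τ (L.take i) := by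
  rw [List.getD_eq_getElem _ _ hi]
  exact hL.code i hi h0

/-- distinct first window codes give distinct window indices -/
lemma distinct_window {c : Coding I} {a b : ℕ} {L L' : SList I} (hL : IsCoded c L)
    (hL' : IsCoded c L') (h0 : 0 < cnt L a) (h0' : 0 < cnt L' a)
    (hne : c.τ (L.take (cnt L a)) ≠ c.τ (L'.take (cnt L' a))) :
    ∀ p ∈ (L.take (cnt L b)).drop (cnt L a), ∀ p' ∈ (L'.take (cnt L' b)).drop (cnt L' a),
      p.2 ≠ p'.2 := by
  intro p hp p' hp' heq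
  obtain ⟨i, h1, h2, h3, rfl⟩ := mem_seg hp
  obtain ⟨i', h1', h2', h3', rfl⟩ := mem_seg hp'
  have hτ := heq
  rw [hL.code_getD (by omega) h3, hL'.code_getD (by omega) h3'] at hτ
  have hmap := (c.τ_eq _ _ hτ).1
  have hlen := congrArg List.length hmap
  simp only [List.length_map, List.length_take] at hlen
  have hii : i = i' := by omega
  subst hii
  have hx : ∀ x ≤ i, (L.getD x 0).2 = (L'.getD x 0).2 := by
    intro x hx
    rcases Nat.eq_or_lt_of_le hx with h | h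
    · rw [h]; exact heq
    · have h4 := congrArg (fun l => l.getD x 0) hmap
      simp only [map_snd_getD] at h4
      rwa [getD_take h, getD_take h] at h4
  have hcc : cnt L a = cnt L' a := by
    rcases lt_trichotomy (cnt L a) (cnt L' a) with h | h | h
    · exfalso
      have h4 := hx (cnt L a) h1
      have h5 := (hL'.lt_cnt_iff (a := a) (i := cnt L a) (by omega)).1 h
      have h6 := mt (hL.lt_cnt_iff (a := a) (i := cnt L a) (by omega)).2 (lt_irrefl _)
      omega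
    · exact h
    · exfalso
      have h4 := hx (cnt L' a) h1'
      have h5 := (hL.lt_cnt_iff (a := a) (i := cnt L' a) (by omega)).1 h
      have h6 := mt (hL'.lt_cnt_iff (a := a) (i := cnt L' a) (by omega)).2 (lt_irrefl _)
      omega
  apply hne
  rw [← hL.code_getD h0 (by omega), ← hL'.code_getD h0' (by omega), ← hcc]
  exact hx _ h1

/-- tail of a summable nonnegative sequence -/
lemma exists_tail_le {μ : ℕ → ℝ} (hμ : Summable μ) {ε : ℝ} (hε : 0 < ε) :
    ∃ N, ∀ S : Finset ℕ, (∀ j ∈ S, N < j) → ∑ j ∈ S, μ j ≤ ε := by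
  have h := (summable_iff_vanishing_norm.1 hμ) ε hε
  obtain ⟨s, hs⟩ := h
  refine ⟨s.sup id, fun S hS => ?_⟩
  have h1 := hs S (by
    rw [Finset.disjoint_left]
    intro j hj hjs
    have := hS j hj
    have h2 : j ≤ s.sup id := Finset.le_sup (f := id) hjs
    omega)
  rw [Real.norm_eq_abs] at h1
  exact (le_abs_self _).trans h1.le

theorem exists_unlinked (c : Coding I) (Sp : SList I → Prop)
    (hSp : ∀ L, Sp L → IsCoded c L) (hSpt : ∀ L n, Sp L → Sp (L.take n))
    (IsInt : Set I → Prop) (hInt : ∀ E ξ, IsInt E → IsInt (E ∩ Iic ξ))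
    (w : ℕ → ℕ) (hw : StrictMono w) (y : ℕ → I → 𝕜) (F : ℕ → Finset I)
    (hF : ∀ k ξ, y k ξ ≠ 0 → ξ ∈ F k)
    (hFs : ∀ k k', k < k' → ∀ ξ ∈ F k, ∀ ξ' ∈ F k', ξ < ξ')
    (μ : ℕ → ℝ) (hμ : Summable μ)
    (hout : ∀ L, Sp L → ∀ p ∈ L, ∀ k, p.2 ≤ w k → ∀ E, IsInt E →
      ‖ev p.1 (E.indicator (y k))‖ ≤ μ p.2)
    (C : ℝ)
    (hpsi : ∀ k, ∀ (S : Finset ℕ) (L : ℕ → SList I) (r : ℕ → ℕ) (E : ℕ → Set I),
      (∀ u ∈ S, Sp (L u)) → (∀ u ∈ S, IsInt (E u)) →
      (∀ u ∈ S, ∀ v ∈ S, u ≠ v → ∀ p ∈ (L u).drop (r u), ∀ p' ∈ (L v).drop (r v), p.2 ≠ p'.2) →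
      (∀ u ∈ S, ∀ p ∈ (L u).drop (r u), S.card ≤ p.2) →
      ∑ u ∈ S, ‖lact ((L u).drop (r u)) ((E u).indicator (y k))‖ ≤ C)
    (hNK : ∀ t : ℕ → (I →₀ ℚ) × ℕ, (∀ n, Sp (pre t n)) → ∀ ε : ℝ, 0 < ε → ∃ k₀, ∀ k ≥ k₀, ∀ E,
      IsInt E → ∀ᶠ n in atTop, ‖lact (pre t n) (E.indicator (y k))‖ ≤ ε)
    (η : ℝ) (hη : 0 < η) (K : Set ℕ) (hK : K.Infinite) :
    ∃ M ⊆ K, M.Infinite ∧ ∀ k ∈ M, ∀ k' ∈ M, k < k' → ∀ L, Sp L → ∀ E E', IsInt E → IsInt E' →
      ¬ (η ≤ ‖wact L (w k) (w (k + 1)) (E.indicator (y k))‖ ∧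
        η ≤ ‖wact L (w k') (w (k' + 1)) (E'.indicator (y k'))‖) := by
  classical
  obtain ⟨M, hMK, hM, h | h⟩ := ramsey_pairs (fun k k' => ∃ L, Sp L ∧ ∃ E E', IsInt E ∧
    IsInt E' ∧ η ≤ ‖wact L (w k) (w (k + 1)) (E.indicator (y k))‖ ∧
        η ≤ ‖wact L (w k') (w (k' + 1)) (E'.indicator (y k'))‖) K hK
  swap
  · refine ⟨M, hMK, hM, fun k hk k' hk' hkk L hL E E' hE hE' h1 => ?_⟩
    exact h k hk k' hk' hkk ⟨L, hL, E, E', hE, hE', h1.1, h1.2⟩
  exfalso
  -- the choice of the lists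
  obtain ⟨L, hL⟩ : ∃ L : ℕ → ℕ → SList I, ∀ k ∈ M, ∀ k' ∈ M, k < k' → Sp (L k k') ∧ ∃ E E',
      IsInt E ∧ IsInt E' ∧ η ≤ ‖wact (L k k') (w k) (w (k + 1)) (E.indicator (y k))‖ ∧
        η ≤ ‖wact (L k k') (w k') (w (k' + 1)) (E'.indicator (y k'))‖ := by
    refine ⟨fun k k' => if h' : k ∈ M ∧ k' ∈ M ∧ k < k' then
      (h k h'.1 k' h'.2.1 h'.2.2).choose else [], ?_⟩
    intro k hk k' hk' hkk
    have h' : k ∈ M ∧ k' ∈ M ∧ k < k' := ⟨hk, hk', hkk⟩
    simp only [dif_pos h']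
    exact (h k hk k' hk' hkk).choose_spec
  obtain ⟨E, hE⟩ : ∃ E : ℕ → ℕ → Set I, ∀ k ∈ M, ∀ k' ∈ M, k < k' → ∃ E',
      IsInt (E k k') ∧ IsInt E' ∧
        η ≤ ‖wact (L k k') (w k) (w (k + 1)) ((E k k').indicator (y k))‖ ∧
        η ≤ ‖wact (L k k') (w k') (w (k' + 1)) (E'.indicator (y k'))‖ := by
    refine ⟨fun k k' => if h' : k ∈ M ∧ k' ∈ M ∧ k < k' then
      (hL k h'.1 k' h'.2.1 h'.2.2).2.choose else ∅, ?_⟩
    intro k hk k' hk' hkk
    have h' : k ∈ M ∧ k' ∈ M ∧ k < k' := ⟨hk, hk', hkk⟩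
    simp only [dif_pos h']
    exact (hL k hk k' hk' hkk).2.choose_spec
  obtain ⟨E', hE'⟩ : ∃ E' : ℕ → ℕ → Set I, ∀ k ∈ M, ∀ k' ∈ M, k < k' →
      IsInt (E k k') ∧ IsInt (E' k k') ∧
        η ≤ ‖wact (L k k') (w k) (w (k + 1)) ((E k k').indicator (y k))‖ ∧
        η ≤ ‖wact (L k k') (w k') (w (k' + 1)) ((E' k k').indicator (y k'))‖ := by
    refine ⟨fun k k' => if h' : k ∈ M ∧ k' ∈ M ∧ k < k' then
      (hE k h'.1 k' h'.2.1 h'.2.2).choose else ∅, ?_⟩
    intro k hk k' hk' hkk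
    have h' : k ∈ M ∧ k' ∈ M ∧ k < k' := ⟨hk, hk', hkk⟩
    simp only [dif_pos h']
    exact (hE k hk k' hk' hkk).choose_spec
  replace hL : ∀ k ∈ M, ∀ k' ∈ M, k < k' → Sp (L k k') := fun k hk k' hk' hkk =>
    (hL k hk k' hk' hkk).1
  clear hE h
  have hLc : ∀ k ∈ M, ∀ k' ∈ M, k < k' → IsCoded c (L k k') := fun k hk k' hk' hkk =>
    hSp _ (hL k hk k' hk' hkk)
  -- elements in the windows
  have hwin : ∀ (L : SList I) (a b : ℕ) (v : I → 𝕜), η ≤ ‖wact L a b v‖ →
      ∃ i < L.length, a < (L.getD i 0).2 ∧ (L.getD i 0).2 ≤ b ∧ ∃ ξ, (L.getD i 0).1 ξ ≠ 0 ∧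
        v ξ ≠ 0 := by
    intro L a b v h
    have h1 : wact L a b v ≠ 0 := by
      intro h0; rw [h0, norm_zero] at h; linarith
    rw [wact_eq] at h1
    obtain ⟨i, hi, h2⟩ := Finset.exists_ne_zero_of_sum_ne_zero h1
    rw [Finset.mem_range] at hi
    split_ifs at h2 with h3
    · refine ⟨i, hi, h3.1, h3.2, ?_⟩
      by_contra hcon
      push Not at hcon
      exact h2 (ev_eq_zero hcon)
    · exact absurd rfl h2
  -- the number of codes
  obtain ⟨q, hq⟩ : ∃ q : ℕ, C < (q + 1) * η := by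
    obtain ⟨q, hq⟩ := exists_nat_gt (C / η)
    refine ⟨q, ?_⟩
    rw [div_lt_iff₀ hη] at hq
    nlinarith
  set M₁ : Set ℕ := {k | k ∈ M ∧ q + 1 ≤ w k} with hM₁
  have hM₁inf : M₁.Infinite := by
    have h1 : (M \ Set.Iio (q + 1)).Infinite := hM.sdiff (Set.finite_Iio _)
    refine h1.mono ?_
    rintro k ⟨hk, hk'⟩
    refine ⟨hk, le_trans ?_ (hw.le_apply (x := k))⟩
    simpa using hk'
  set r : ℕ → ℕ → ℕ := fun k k' => cnt (L k k') (w k') with hr
  set P : ℕ → ℕ → SList I := fun k k' => (L k k').take (r k k') with hP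
  have hr1 : ∀ k ∈ M, ∀ k' ∈ M, k < k' → 0 < r k k' ∧ r k k' < (L k k').length ∧
      w k' < ((L k k').getD (r k k') 0).2 ∧ ((L k k').getD (r k k') 0).2 ≤ w (k' + 1) := by
    intro k hk k' hk' hkk
    obtain ⟨-, -, h1, h2⟩ := hE' k hk k' hk' hkk
    obtain ⟨i, hi, h3, h4, -⟩ := hwin _ _ _ _ h1
    obtain ⟨j, hj, h5, h6, -⟩ := hwin _ _ _ _ h2
    have hc := hLc k hk k' hk' hkk
    have hww : w (k + 1) ≤ w k' := hw.monotone hkk
    have h7 : i < r k k' := (hc.lt_cnt_iff hi).2 (h4.trans hww)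
    have h8 : ¬ j < r k k' := by
      intro h; have := (hc.lt_cnt_iff hj).1 h; omega
    have h9 : r k k' < (L k k').length := by omega
    have h10 : ¬ ((L k k').getD (r k k') 0).2 ≤ w k' := by
      rw [← hc.lt_cnt_iff h9]; exact lt_irrefl _
    refine ⟨by omega, h9, by omega, ?_⟩
    rcases Nat.eq_or_lt_of_le (not_lt.1 h8) with h | h
    · rw [h]; exact h6
    · exact (hc.idx_getD_lt h hj).le.trans h6
  have hcode : ∀ k ∈ M, ∀ k' ∈ M, k < k' →
      c.τ (P k k') = ((L k k').getD (r k k') 0).2 := by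
    intro k hk k' hk' hkk
    obtain ⟨h1, h2, h3, h4⟩ := hr1 k hk k' hk' hkk
    exact ((hLc k hk k' hk' hkk).code_getD h1 h2).symm
  set Cd : ℕ → Finset ℕ := fun k' =>
    if k' ∈ M₁ then ((Finset.range k').filter fun k => k ∈ M₁).image fun k => c.τ (P k k')
    else ∅ with hCd
  have hCdcard : ∀ k, (Cd k).card ≤ q := by
    intro k'
    simp only [hCd]
    split_ifs with hk'
    swap
    · simp
    by_contra hcon
    rw [not_le] at hcon
    obtain ⟨T, hT, hTcard⟩ := Finset.exists_subset_card_eq (Nat.succ_le_of_lt hcon)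
    obtain ⟨S, hS, hinj, hST⟩ := Finset.exists_subset_injOn_image_eq_of_surjOn
      (f := fun k => c.τ (P k k')) {k | k ∈ M₁ ∧ k < k'} T (by
        intro j hj
        have := hT hj
        rw [Finset.mem_image] at this
        obtain ⟨k, hk, rfl⟩ := this
        rw [Finset.mem_filter, Finset.mem_range] at hk
        exact ⟨k, ⟨hk.2, hk.1⟩, rfl⟩)
    have hScard : S.card = q + 1 := by
      rw [← Nat.succ_eq_add_one, ← hTcard, ← hST, Finset.card_image_of_injOn hinj]
    have hSM : ∀ u ∈ S, u ∈ M₁ ∧ u < k' := fun u hu => hS hu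
    have hkM : k' ∈ M := hk'.1
    have hkey := hpsi k' S (fun u => (L u k').take (cnt (L u k') (w (k' + 1))))
      (fun u => r u k') (fun u => E' u k')
      (fun u hu => hSpt _ _ (hL u (hSM u hu).1.1 k' hkM (hSM u hu).2))
      (fun u hu => (hE' u (hSM u hu).1.1 k' hkM (hSM u hu).2).2.1)
      (fun u hu v hv huv => distinct_window (hLc u (hSM u hu).1.1 k' hkM (hSM u hu).2)
        (hLc v (hSM v hv).1.1 k' hkM (hSM v hv).2) (hr1 u (hSM u hu).1.1 k' hkM (hSM u hu).2).1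
        (hr1 v (hSM v hv).1.1 k' hkM (hSM v hv).2).1 (fun h => huv (hinj hu hv h)))
      (by
        intro u hu p hp
        obtain ⟨i, h1, h2, h3, rfl⟩ := mem_seg hp
        have h4 : ¬ ((L u k').getD i 0).2 ≤ w k' := by
          rw [← (hLc u (hSM u hu).1.1 k' hkM (hSM u hu).2).lt_cnt_iff h3]
          exact not_lt.2 h1
        have := hk'.2
        rw [hScard]
        omega)
    have h1 : ∑ u ∈ S, η ≤ ∑ u ∈ S, ‖lact (((L u k').take (cnt (L u k') (w (k' + 1)))).drop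
        (r u k')) ((E' u k').indicator (y k'))‖ := by
      refine Finset.sum_le_sum fun u hu => ?_
      have h2 := (hE' u (hSM u hu).1.1 k' hkM (hSM u hu).2).2.2.2
      rwa [(hLc u (hSM u hu).1.1 k' hkM (hSM u hu).2).wact_eq_lact] at h2
    rw [Finset.sum_const, hScard, nsmul_eq_mul] at h1
    push_cast at h1
    linarith
  have hCdgt : ∀ k, ∀ j ∈ Cd k, w k < j := by
    intro k' j hj
    simp only [hCd] at hj
    split_ifs at hj with hk'
    · rw [Finset.mem_image] at hj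
      obtain ⟨k, hk, rfl⟩ := hj
      rw [Finset.mem_filter, Finset.mem_range] at hk
      rw [hcode k hk.2.1 k' hk'.1 hk.1]
      exact (hr1 k hk.2.1 k' hk'.1 hk.1).2.2.1
    · simp at hj
  -- the last points
  have hξl : ∀ k ∈ M, ∀ k' ∈ M, k < k' → ∃ (x : I) (i : ℕ), i < (L k k').length ∧
      w k < ((L k k').getD i 0).2 ∧ ((L k k').getD i 0).2 ≤ w (k + 1) ∧
      ((L k k').getD i 0).1 x ≠ 0 ∧ x ∈ E k k' ∧ y k x ≠ 0 ∧
      ∀ j < (L k k').length, w k < ((L k k').getD j 0).2 → ((L k k').getD j 0).2 ≤ w (k + 1) →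
        ∀ x' ∈ E k k', y k x' ≠ 0 → ((L k k').getD j 0).1 x' ≠ 0 → x' ≤ x := by
    intro k hk k' hk' hkk
    obtain ⟨-, -, h1, -⟩ := hE' k hk k' hk' hkk
    obtain ⟨i, hi, h3, h4, x, h5, h6⟩ := hwin _ _ _ _ h1
    have h7 : x ∈ E k k' := by
      by_contra h
      exact h6 (Set.indicator_of_notMem h _)
    have h8 : y k x ≠ 0 := by rwa [Set.indicator_of_mem h7] at h6
    have hG : ((F k).filter fun x => x ∈ E k k' ∧ y k x ≠ 0 ∧ ∃ i < (L k k').length,
        w k < ((L k k').getD i 0).2 ∧ ((L k k').getD i 0).2 ≤ w (k + 1) ∧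
        ((L k k').getD i 0).1 x ≠ 0).Nonempty :=
      ⟨x, by rw [Finset.mem_filter]; exact ⟨hF k x h8, h7, h8, i, hi, h3, h4, h5⟩⟩
    obtain ⟨x₀, hx₀, hmax⟩ := Finset.exists_max_image _ id hG
    rw [Finset.mem_filter] at hx₀
    obtain ⟨hx₀, h9, h10, i₀, h11, h12, h13, h14⟩ := hx₀
    refine ⟨x₀, i₀, h11, h12, h13, h14, h9, h10, ?_⟩
    intro j hj h15 h16 x' hx' h17 h18
    exact hmax x' (by rw [Finset.mem_filter]; exact ⟨hF k x' h17, hx', h17, j, hj, h15, h16, h18⟩)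
  have hIne : Nonempty I := by
    obtain ⟨k, hk⟩ := hM.nonempty
    obtain ⟨k', hk', hkk⟩ := hM.exists_gt k
    obtain ⟨x, -⟩ := hξl k hk k' hk' hkk
    exact ⟨x⟩
  choose! ξ l hξl using hξl
  obtain ⟨t, ht, M', hM'M, hM', hag⟩ := coherent_limit c Sp hSp hSpt w hw q Cd hCdcard hCdgt M₁
    hM₁inf F P ξ l (by
      intro k hk k' hk' hkk
      obtain ⟨h1, h2, h3, h4, h5, h6, -⟩ := hξl k hk.1 k' hk'.1 hkk
      have hww : w (k + 1) ≤ w k' := hw.monotone hkk
      have h7 : l k k' < r k k' :=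
        ((hLc k hk.1 k' hk'.1 hkk).lt_cnt_iff h1).2 (h3.trans hww)
      refine ⟨hSpt _ _ (hL k hk.1 k' hk'.1 hkk), ?_, hF _ _ h6, ?_, ?_, ?_, ?_⟩
      · simp only [hCd, if_pos hk']
        exact Finset.mem_image_of_mem _ (by rw [Finset.mem_filter, Finset.mem_range]; exact ⟨hkk, hk⟩)
      · simp only [hP, List.length_take]; omega
      · simp only [hP]; rw [getD_take h7]; exact h2
      · simp only [hP]; rw [getD_take h7]; exact h3
      · simp only [hP]; rw [getD_take h7]; exact h4)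
  choose! κ hκM hκlt hκ using hag
  have hMM : ∀ k ∈ M', k ∈ M := fun k hk => (hM'M hk).1
  have hκM' : ∀ k ∈ M', κ k ∈ M := fun k hk => (hκM k hk).1
  -- the places in the limit sequence
  have htc : IsCodedSeq c t := fun n => hSp _ (ht n)
  have hplace : ∀ k ∈ M', w k < (t (l k (κ k))).2 ∧ (t (l k (κ k))).2 ≤ w (k + 1) ∧
      (t (l k (κ k))).1 (ξ k (κ k)) ≠ 0 ∧ ξ k (κ k) ∈ F k := by
    intro k hk
    obtain ⟨h1, h2, h3, h4, h5, h6, -⟩ := hξl k (hMM k hk) (κ k) (hκM' k hk) (hκlt k hk)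
    have hww : w (k + 1) ≤ w (κ k) := hw.monotone (hκlt k hk)
    have h7 : l k (κ k) < r k (κ k) :=
      ((hLc k (hMM k hk) (κ k) (hκM' k hk) (hκlt k hk)).lt_cnt_iff h1).2 (h3.trans hww)
    obtain ⟨h8, h9⟩ := hκ k hk (l k (κ k)) le_rfl
    simp only [hP] at h8 h9
    rw [getD_take h7] at h8 h9
    rw [← h8, ← h9 _ le_rfl]
    exact ⟨h2, h3, h4, hF _ _ h6⟩
  obtain ⟨N, hN⟩ := exists_tail_le hμ (show (0 : ℝ) < η / 4 by linarith)
  obtain ⟨k0, hk0, hk0N⟩ := hM'.exists_gt N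
  obtain ⟨k1, hk1, hk01⟩ := hM'.exists_gt k0
  obtain ⟨k2, hk2⟩ := hNK t ht (η / 4) (by linarith)
  obtain ⟨k, hk, hkgt⟩ := hM'.exists_gt (max k1 k2)
  have hk1k : k1 < k := lt_of_le_of_lt (le_max_left _ _) hkgt
  have hk2k : k2 ≤ k := (le_max_right k1 k2).trans hkgt.le
  obtain ⟨h1, h2, h3, h4, h5, h6, h7⟩ := hξl k (hMM k hk) (κ k) (hκM' k hk) (hκlt k hk)
  obtain ⟨hEint, -, hη1, -⟩ := hE' k (hMM k hk) (κ k) (hκM' k hk) (hκlt k hk)
  have hcod := hLc k (hMM k hk) (κ k) (hκM' k hk) (hκlt k hk)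
  have hspL := hL k (hMM k hk) (κ k) (hκM' k hk) (hκlt k hk)
  have hag := hκ k hk
  obtain ⟨h8, h9, h10, h11⟩ := hplace k hk
  set k' := κ k with hk'
  set x := ξ k k' with hx
  set i := l k k' with hi
  set J : Set I := E k k' ∩ Iic x with hJ
  set v : I → 𝕜 := J.indicator (y k) with hv
  have hww : w (k + 1) ≤ w k' := hw.monotone (hκlt k hk)
  have hilt : i < r k k' := (hcod.lt_cnt_iff h1).2 (h3.trans hww)
  -- the limit sequence on `v`
  obtain ⟨n, hn, hni⟩ := ((hk2 k hk2k J (hInt _ _ hEint)).and (eventually_gt_atTop i)).exists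
  rw [← hv, lact_pre] at hn
  have hvx : ∀ ζ, v ζ ≠ 0 → ζ ∈ E k k' ∧ ζ ≤ x ∧ y k ζ ≠ 0 := by
    intro ζ hζ
    by_cases h : ζ ∈ J
    · rw [hv, Set.indicator_of_mem h] at hζ
      exact ⟨h.1, h.2, hζ⟩
    · exact absurd (Set.indicator_of_notMem h _) hζ
  have hlate : ∀ j, i < j → ev (t j).1 v = 0 := by
    intro j hj
    refine ev_eq_zero fun ζ hζ => ?_
    by_contra h
    have := htc.succ hj x (Finsupp.mem_support_iff.2 h10) ζ (Finsupp.mem_support_iff.2 hζ)
    exact absurd (hvx ζ h).2.1 (not_le.2 this)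
  have hearly : ∀ j ≤ i, ev (t j).1 v = ev ((L k k').getD j 0).1 v ∧
      (t j).2 = ((L k k').getD j 0).2 := by
    intro j hj
    obtain ⟨h12, h13⟩ := hag j hj
    simp only [hP] at h12 h13
    rw [getD_take (by omega)] at h12 h13
    refine ⟨ev_congr' fun ζ hζ => ?_, h12.symm⟩
    exact (h13 ζ (hvx ζ hζ).2.1).symm
  have hsum1 : ∑ j ∈ Finset.range n, ev (t j).1 v =
      ∑ j ∈ Finset.range (i + 1), ev ((L k k').getD j 0).1 v := by
    rw [← Finset.sum_subset (s₁ := Finset.range (i + 1))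
      (Finset.range_subset_range.2 (by omega))
      (fun j _ hj => hlate j (by rw [Finset.mem_range] at hj; omega))]
    exact Finset.sum_congr rfl fun j hj => (hearly j (by rw [Finset.mem_range] at hj; omega)).1
  rw [hsum1] at hn
  -- the window part
  have hwin2 : ∀ j < (L k k').length, w k < ((L k k').getD j 0).2 →
      ((L k k').getD j 0).2 ≤ w (k + 1) →
      ev ((L k k').getD j 0).1 ((E k k').indicator (y k)) = ev ((L k k').getD j 0).1 v := by
    intro j hj h12 h13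
    refine ev_congr fun ζ hζ => ?_
    by_cases hζE : ζ ∈ E k k'
    · by_cases hζy : y k ζ = 0
      · rw [Set.indicator_of_mem hζE, hζy, hv]
        by_cases h : ζ ∈ J
        · rw [Set.indicator_of_mem h, hζy]
        · rw [Set.indicator_of_notMem h]
      · have h14 := h7 j hj h12 h13 ζ hζE hζy hζ
        rw [Set.indicator_of_mem hζE, hv, Set.indicator_of_mem (show ζ ∈ J from ⟨hζE, h14⟩)]
    · rw [Set.indicator_of_notMem hζE, hv,
        Set.indicator_of_notMem (show ζ ∉ J from fun h => hζE h.1)]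
  have hlate2 : ∀ j, i < j → j < (L k k').length → ev ((L k k').getD j 0).1 v = 0 := by
    intro j hj hjl
    refine ev_eq_zero fun ζ hζ => ?_
    by_contra h
    exact absurd (hvx ζ h).2.1 (not_le.2 (hcod.lt_of_getD hj hjl h4 hζ))
  set Wd : Finset ℕ := (Finset.range (i + 1)).filter fun j => w k < ((L k k').getD j 0).2 ∧
    ((L k k').getD j 0).2 ≤ w (k + 1) with hWd
  have hsum2 : wact (L k k') (w k) (w (k + 1)) ((E k k').indicator (y k)) =
      ∑ j ∈ Wd, ev ((L k k').getD j 0).1 v := by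
    rw [wact_eq, hWd, Finset.sum_filter,
      ← Finset.sum_subset (s₁ := Finset.range (i + 1)) (s₂ := Finset.range (L k k').length)
      (Finset.range_subset_range.2 (by omega))]
    · refine Finset.sum_congr rfl fun j hj => ?_
      rw [Finset.mem_range] at hj
      split_ifs with h12
      · exact hwin2 j (by omega) h12.1 h12.2
      · rfl
    · intro j hj hj'
      rw [Finset.mem_range] at hj hj'
      split_ifs with h12
      · rw [hwin2 j hj h12.1 h12.2]
        exact hlate2 j (by omega) hj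
      · rfl
  -- the low part
  set Lo : Finset ℕ := (Finset.range (i + 1)).filter fun j => ¬ (w k < ((L k k').getD j 0).2 ∧
    ((L k k').getD j 0).2 ≤ w (k + 1)) with hLo
  have hsum3 : ∑ j ∈ Finset.range (i + 1), ev ((L k k').getD j 0).1 v =
      ∑ j ∈ Wd, ev ((L k k').getD j 0).1 v + ∑ j ∈ Lo, ev ((L k k').getD j 0).1 v := by
    rw [hWd, hLo, Finset.sum_filter_add_sum_filter_not]
  have hlow : ∀ j ∈ Lo, ((L k k').getD j 0).2 ≤ w k ∧ j < (L k k').length ∧ j ≤ i := by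
    intro j hj
    rw [hLo, Finset.mem_filter, Finset.mem_range] at hj
    have hji : ((L k k').getD j 0).2 ≤ ((L k k').getD i 0).2 := by
      rcases Nat.eq_or_lt_of_le (show j ≤ i by omega) with h | h
      · rw [h]
      · exact (hcod.idx_getD_lt h h1).le
    exact ⟨by omega, by omega, by omega⟩
  -- the places of `k0` and `k1`
  obtain ⟨a1, a2, a3, a4⟩ := hplace k0 hk0
  obtain ⟨b1, b2, b3, b4⟩ := hplace k1 hk1
  have hl01 : l k0 (κ k0) < l k1 (κ k1) := by
    have h12 : w (k0 + 1) ≤ w k1 := hw.monotone hk01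
    exact (htc.idx_strictMono.lt_iff_lt).1 (show (t (l k0 (κ k0))).2 < (t (l k1 (κ k1))).2 by
      omega)
  have hzero : ∀ j ≤ l k0 (κ k0), ev (t j).1 v = 0 := by
    intro j hj
    refine ev_eq_zero fun ζ hζ => ?_
    by_contra h
    have h12 : ζ < ξ k1 (κ k1) := htc.succ (lt_of_le_of_lt hj hl01) ζ
      (Finsupp.mem_support_iff.2 hζ) _ (Finsupp.mem_support_iff.2 b3)
    have h13 := hFs k1 k hk1k _ b4 ζ (hF _ _ (hvx ζ h).2.2)
    exact absurd h12 (not_lt.2 h13.le)
  set Lo' : Finset ℕ := Lo.filter fun j => l k0 (κ k0) < j with hLo'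
  have hsum4 : ∑ j ∈ Lo, ev ((L k k').getD j 0).1 v =
      ∑ j ∈ Lo', ev ((L k k').getD j 0).1 v := by
    refine (Finset.sum_subset (Finset.filter_subset _ _) fun j hj hj' => ?_).symm
    rw [← (hearly j (hlow j hj).2.2).1]
    refine hzero j (not_lt.1 fun h => hj' ?_)
    rw [Finset.mem_filter]
    exact ⟨hj, h⟩
  have hsum5 : ‖∑ j ∈ Lo', ev ((L k k').getD j 0).1 v‖ ≤ η / 4 := by
    have hinj : Set.InjOn (fun j => ((L k k').getD j 0).2) (Lo' : Set ℕ) := by
      intro j hj j' hj' hjj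
      have hj1 := hlow j (Finset.mem_filter.1 hj).1
      have hj2 := hlow j' (Finset.mem_filter.1 hj').1
      simp only at hjj
      rcases lt_trichotomy j j' with h | h | h
      · have := hcod.idx_getD_lt h hj2.2.1; omega
      · exact h
      · have := hcod.idx_getD_lt h hj1.2.1; omega
    calc ‖∑ j ∈ Lo', ev ((L k k').getD j 0).1 v‖
        ≤ ∑ j ∈ Lo', ‖ev ((L k k').getD j 0).1 v‖ := norm_sum_le _ _
      _ ≤ ∑ j ∈ Lo', μ ((L k k').getD j 0).2 := by
          refine Finset.sum_le_sum fun j hj => ?_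
          have hj1 := hlow j (Finset.mem_filter.1 hj).1
          refine hout (L k k') hspL _ ?_ k hj1.1 J (hInt _ _ hEint)
          rw [List.getD_eq_getElem _ _ hj1.2.1]
          exact List.getElem_mem _
      _ = ∑ j ∈ Lo'.image (fun j => ((L k k').getD j 0).2), μ j := by
          rw [Finset.sum_image hinj]
      _ ≤ η / 4 := by
          refine hN _ fun m hm => ?_
          obtain ⟨j, hj, rfl⟩ := Finset.mem_image.1 hm
          rw [hLo', Finset.mem_filter] at hj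
          have h12 := (hearly j (hlow j hj.1).2.2).2
          have h13 := htc.idx_strictMono hj.2
          have h14 : k0 ≤ w k0 := hw.le_apply
          simp only at h13
          omega
  rw [hsum3, ← hsum2, hsum4] at hn
  have h12 := norm_sub_norm_le (wact (L k k') (w k) (w (k + 1)) ((E k k').indicator (y k)))
    (-∑ j ∈ Lo', ev ((L k k').getD j 0).1 v)
  rw [norm_neg, sub_neg_eq_add] at h12
  linarith

end Crest.Agent.R114
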