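import Crest.Agent.R114.MainDefs
import Crest.Agent.R114.MLink

/-! # Row 114, S0152 (4.3): no special list acts on two vectors. -/

set_option autoImplicit false

open Set Filter

namespace Crest.Agent.R114

variable {I : Type} [LinearOrder I] {c : Coding I} {𝕜 : Type} [RCLike 𝕜]

/-- the window part of a special list acts by at most `1` -/
theorem act_piece_le {y : ℕ → I →₀ 𝕜} {k : ℕ} {L : SList I} (hL : IsSpecial c (NB c) L)
    {E : Set I} (hE : E.OrdConnected) {J : Set ℕ} (hJ : J.OrdConnected) :
    ‖act (piece L E J) (y k)‖ ≤ nrm c (y k) :=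
  norm_act_le (NB.piece hL hE hJ) _

section bridge

lemma act_eq_ev (b : I →₀ ℚ) (f : I →₀ 𝕜) : act b f = ev b (f : I → 𝕜) := by
  classical
  unfold act ev
  rw [Finsupp.sum_of_support_subset f (Finset.subset_union_right (s₁ := b.support)) _
    (fun i _ => by simp),
    Finsupp.sum_of_support_subset b (Finset.subset_union_left (s₂ := f.support)) _
    (fun i _ => by simp)]

lemma coe_cut (E : Set I) (f : I →₀ 𝕜) : ((cut E f : I →₀ 𝕜) : I → 𝕜) = E.indicator f := by
  classical
  ext a
  rw [cut_apply]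
  by_cases h : a ∈ E
  · rw [if_pos h, Set.indicator_of_mem h]
  · rw [if_neg h, Set.indicator_of_notMem h]

lemma act_cut_eq_ev (E : Set I) (b : I →₀ ℚ) (f : I →₀ 𝕜) :
    act (cut E b) f = ev b (E.indicator (f : I → 𝕜)) := by
  rw [act_cut, act_eq_ev, coe_cut]

lemma act_piece_eq (L : SList I) (E : Set I) (J : Set ℕ) [DecidablePred (· ∈ J)] (f : I →₀ 𝕜) :
    act (piece L E J) f =
      (L.map fun p => if p.2 ∈ J then ev p.1 (E.indicator (f : I → 𝕜)) else 0).sum := by
  classical
  unfold piece
  rw [act_cut, act_list_sum_left]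
  induction L with
  | nil => simp
  | cons p L ih =>
    rw [List.map_cons, List.sum_cons, ← ih, List.filter_cons]
    by_cases h : p.2 ∈ J
    · rw [if_pos (by simpa using h), if_pos h, List.map_cons, List.map_cons, List.sum_cons,
        act_eq_ev, coe_cut]
    · rw [if_neg (by simpa using h), if_neg h, zero_add]

lemma wact_eq_act (L : SList I) (E : Set I) (a b : ℕ) (f : I →₀ 𝕜) :
    wact L a b (E.indicator (f : I → 𝕜)) = act (piece L E (Ioc a b)) f := by
  classical
  rw [act_piece_eq]
  rfl

lemma lact_eq_act (L : SList I) (E : Set I) (f : I →₀ 𝕜) :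
    lact L (E.indicator (f : I → 𝕜)) = act (piece L E univ) f := by
  classical
  rw [act_piece_eq]
  simp [lact]

lemma lact_drop_eq_act {L : SList I} (hL : IsCoded c L) (r : ℕ) (hr : r < L.length) (E : Set I)
    (f : I →₀ 𝕜) :
    lact (L.drop r) (E.indicator (f : I → 𝕜)) = act (piece L E (Ici (L.getD r 0).2)) f := by
  classical
  rw [act_piece_eq]
  unfold lact
  conv_rhs => rw [← List.take_append_drop r L]
  rw [List.map_append, List.sum_append]
  have h1 : ((L.take r).map fun p : (I →₀ ℚ) × ℕ => if p.2 ∈ Ici ((L.take r ++ L.drop r).getD r 0).2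
      then ev p.1 (E.indicator (f : I → 𝕜)) else 0).sum = 0 := by
    apply List.sum_eq_zero
    intro z hz
    obtain ⟨p, hp, rfl⟩ := List.mem_map.1 hz
    rw [if_neg]
    obtain ⟨i, hi, rfl⟩ := List.getElem_of_mem hp
    rw [List.take_append_drop, mem_Ici, not_le, List.getElem_take]
    rw [List.length_take] at hi
    have := hL.idx_getD_lt (l := i) (l' := r) (by omega) hr
    rwa [List.getD_eq_getElem _ _ (by omega : i < L.length)] at this
  rw [h1, zero_add]
  congr 1
  refine List.map_congr_left fun p hp => ?_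
  rw [if_pos]
  obtain ⟨i, hi, rfl⟩ := List.getElem_of_mem hp
  rw [List.take_append_drop, mem_Ici, List.getElem_drop]
  rw [List.length_drop] at hi
  rcases Nat.eq_zero_or_pos i with h | h
  · subst h
    rw [List.getD_eq_getElem _ _ hr]
    simp
  · have := hL.idx_getD_lt (l := r) (l' := r + i) (by omega) (by omega)
    rw [List.getD_eq_getElem _ _ (by omega : r + i < L.length)] at this
    exact this.le

omit [LinearOrder I] in
lemma sum_fst_apply_zero (L : SList I) (a : I) (P : (I →₀ ℚ) × ℕ → Bool)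
    (h : ∀ p ∈ L, p.1 a = 0) : ((L.filter P).map Prod.fst).sum a = 0 := by
  induction L with
  | nil => simp
  | cons p L ih =>
    have h1 := ih fun q hq => h q (List.mem_cons_of_mem _ hq)
    rw [List.filter_cons]
    split_ifs
    · rw [List.map_cons, List.sum_cons, Finsupp.add_apply, h1, h p (by simp), add_zero]
    · exact h1

/-- values of a piece -/
lemma piece_apply {L : SList I} (hL : IsCoded c L) (E : Set I) (J : Set ℕ)
    [DecidablePred (· ∈ J)] [DecidablePred (· ∈ E)] {q : (I →₀ ℚ) × ℕ} (hq : q ∈ L) {a : I}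
    (ha : q.1 a ≠ 0) : piece L E J a = if a ∈ E ∧ q.2 ∈ J then q.1 a else 0 := by
  classical
  unfold piece
  rw [cut_apply]
  by_cases haE : a ∈ E
  swap
  · rw [if_neg haE, if_neg (fun h => haE h.1)]
  rw [if_pos haE]
  obtain ⟨L1, L2, rfl⟩ := List.append_of_mem hq
  have hqget : (L1 ++ q :: L2)[L1.length]'(by simp) = q := by simp
  have h1 : ∀ p ∈ L1, p.1 a = 0 := by
    intro p hp
    obtain ⟨i, hi, rfl⟩ := List.getElem_of_mem hp
    by_contra h
    have := hL.succ i L1.length hi (by simp)
    rw [hqget, List.getElem_append_left hi] at this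
    exact lt_irrefl _ (this a (Finsupp.mem_support_iff.2 h) a (Finsupp.mem_support_iff.2 ha))
  have h2 : ∀ p ∈ L2, p.1 a = 0 := by
    intro p hp
    obtain ⟨i, hi, rfl⟩ := List.getElem_of_mem hp
    by_contra h
    have := hL.succ L1.length (L1.length + 1 + i) (by omega) (by simp; omega)
    rw [hqget] at this
    have h3 : (L1 ++ q :: L2)[L1.length + 1 + i]'(by simp; omega) = L2[i] := by
      rw [List.getElem_append_right (by omega)]
      have : L1.length + 1 + i - L1.length = i + 1 := by omega
      simp only [this, List.getElem_cons_succ]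
    rw [h3] at this
    exact lt_irrefl _ (this a (Finsupp.mem_support_iff.2 ha) a (Finsupp.mem_support_iff.2 h))
  rw [List.filter_append, List.filter_cons, List.map_append, List.sum_append, Finsupp.add_apply,
    sum_fst_apply_zero L1 a _ h1, zero_add]
  by_cases hqJ : q.2 ∈ J
  · rw [if_pos (by simpa using hqJ), if_pos ⟨haE, hqJ⟩, List.map_cons, List.sum_cons,
      Finsupp.add_apply, sum_fst_apply_zero L2 a _ h2, add_zero]
  · rw [if_neg (by simpa using hqJ), if_neg (fun h => hqJ h.2), sum_fst_apply_zero L2 a _ h2]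

lemma piece_window {L : SList I} {B : (I →₀ ℚ) → Prop} (hL : IsSpecial c B L) {E : Set I}
    (hE : E.OrdConnected) {J : Set ℕ} (hJ : J.OrdConnected) {W : Set ℕ} (hJW : J ⊆ W) :
    ∃ E' : Set I, E'.OrdConnected ∧ piece L E J = piece L E' W := by
  classical
  obtain ⟨E', hE', -, h⟩ := piece_eq_univ hL hE hJ
  refine ⟨E', hE', ?_⟩
  ext a
  by_cases hq : ∃ q ∈ L, q.1 a ≠ 0
  · obtain ⟨q, hq, ha⟩ := hq
    have h1 : piece L E J a = piece L E' univ a := by rw [h]
    rw [piece_apply hL.coded E J hq ha, piece_apply hL.coded E' univ hq ha] at h1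
    rw [piece_apply hL.coded E J hq ha, piece_apply hL.coded E' W hq ha]
    by_cases h2 : a ∈ E'
    · rw [if_pos (⟨h2, mem_univ _⟩ : a ∈ E' ∧ q.2 ∈ univ)] at h1
      have h3 : a ∈ E ∧ q.2 ∈ J := by
        by_contra h3
        rw [if_neg h3] at h1
        exact ha h1.symm
      rw [if_pos h3, if_pos ⟨h2, hJW h3.2⟩]
    · rw [if_neg (show ¬ (a ∈ E' ∧ q.2 ∈ univ) from fun h => h2 h.1)] at h1
      rw [h1, if_neg (show ¬ (a ∈ E' ∧ q.2 ∈ W) from fun h => h2 h.1)]
  · push Not at hq
    unfold piece
    rw [cut_apply, cut_apply, sum_fst_apply_zero L a _ hq, sum_fst_apply_zero L a _ hq]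
    simp

end bridge

section seq

lemma finite_act_ne_zero {t : ℕ → (I →₀ ℚ) × ℕ} (ht : IsCodedSeq c t) (v : I →₀ 𝕜) :
    {l | act (t l).1 v ≠ 0}.Finite := by
  classical
  have h : ∀ l, act (t l).1 v ≠ 0 → ∃ a ∈ v.support, (t l).1 a ≠ 0 := by
    intro l hl
    by_contra hcon
    push Not at hcon
    apply hl
    apply act_eq_zero_of_disjoint
    intro a ha hav
    exact Finsupp.mem_support_iff.1 ha (hcon a hav)
  rcases isEmpty_or_nonempty I with hI | hI
  · refine (Set.finite_empty).subset fun l hl => ?_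
    obtain ⟨a, -⟩ := h l hl
    exact (hI.false a).elim
  choose! a ha ha' using h
  refine Set.Finite.of_finite_image (f := a) ((Finset.finite_toSet v.support).subset ?_) ?_
  · rintro _ ⟨l, hl, rfl⟩
    exact ha l hl
  · intro l hl l' hl' hll
    by_contra hne
    rcases lt_or_gt_of_ne hne with h | h
    · exact absurd (ht.succ h (a l) (Finsupp.mem_support_iff.2 (ha' l hl)) (a l')
        (Finsupp.mem_support_iff.2 (ha' l' hl'))) (by rw [hll]; exact lt_irrefl _)
    · exact absurd (ht.succ h (a l') (Finsupp.mem_support_iff.2 (ha' l' hl')) (a l)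
        (Finsupp.mem_support_iff.2 (ha' l hl))) (by rw [hll]; exact lt_irrefl _)

lemma actSeq_eq_eventually {t : ℕ → (I →₀ ℚ) × ℕ} (ht : IsCodedSeq c t) (v : I →₀ 𝕜) :
    ∀ᶠ n in atTop, actSeq t v = act (piece (pre t n) univ univ) v := by
  classical
  have hfin := finite_act_ne_zero ht v
  obtain ⟨N, hN⟩ := hfin.bddAbove
  filter_upwards [eventually_gt_atTop N] with n hn
  unfold actSeq
  rw [finsum_eq_sum_of_support_subset (s := Finset.range n)]
  · have h1 := lact_eq_act (pre t n) univ v
    rw [Set.indicator_univ, lact_pre] at h1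
    rw [← h1]
    exact Finset.sum_congr rfl fun i _ => act_eq_ev _ _
  · intro l hl
    have : l ≤ N := hN hl
    rw [Finset.coe_range, mem_Iio]
    omega

end seq

/-- `Ψ`-functionals bound the sum of the actions of pieces -/
lemma sum_act_piece_le (S : Finset ℕ) (L : ℕ → SList I) (E : ℕ → Set I) (J : ℕ → Set ℕ)
    (hL : ∀ u ∈ S, IsSpecial c (NB c) (L u)) (hE : ∀ u ∈ S, (E u).OrdConnected)
    (hJ : ∀ u ∈ S, (J u).OrdConnected) (hn : ∀ u ∈ S, ∀ p ∈ L u, p.2 ∈ J u → S.card ≤ p.2)
    (hd : ∀ u ∈ S, ∀ v ∈ S, u ≠ v → ∀ p ∈ L u, ∀ q ∈ L v, p.2 ∈ J u → q.2 ∈ J v → p.2 ≠ q.2)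
    (f : I →₀ 𝕜) :
    ∑ u ∈ S, ‖act (piece (L u) (E u) (J u)) f‖ ≤ 2 * nrm c f := by
  classical
  obtain ⟨ε, hε, hsum⟩ := exists_signs_sum S fun u => act (piece (L u) (E u) (J u)) f
  let e : Fin S.card ≃ S := S.equivFin.symm
  have hb : NB c (∑ u : Fin S.card, ε (e u) • piece (L (e u)) (E (e u)) (J (e u))) := by
    refine (NB.closedFam c).psi _ ⟨S.card, fun u => ε (e u), fun u => L (e u), fun u => E (e u),
      fun u => J (e u), ?_, fun u => hL _ (e u).2, fun u => hE _ (e u).2, fun u => hJ _ (e u).2,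
      fun u => hn _ (e u).2, ?_, rfl⟩
    · intro u
      show |ε (e u)| ≤ 1
      rcases hε (e u) with h | h <;> rw [h] <;> simp
    · intro u v huv p hp q hq h1 h2
      refine hd _ (e u).2 _ (e v).2 ?_ p hp q hq h1 h2
      intro h
      exact huv (e.injective (Subtype.ext h))
  have h1 := norm_act_le hb f
  have h2 : act (∑ u : Fin S.card, ε (e u) • piece (L (e u)) (E (e u)) (J (e u))) f =
      ∑ u ∈ S, (ε u : 𝕜) * act (piece (L u) (E u) (J u)) f := by
    rw [act_sum_left, ← Finset.sum_coe_sort S, ← e.sum_comp]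
    exact Finset.sum_congr rfl fun u _ => act_smul_left _ _ _
  rw [h2] at h1
  linarith

theorem link {u y : ℕ → I →₀ 𝕜} {w : ℕ → ℕ} (hu : IsBlockSeq u) (hy : YData c u y w)
    (hNK : NK c u) (η : ℝ) (hη : 0 < η) (S : Set ℕ) (hS : S.Infinite) :
    ∃ M ⊆ S, M.Infinite ∧ ∀ k ∈ M, ∀ k' ∈ M, k < k' → ∀ L, IsSpecial c (NB c) L →
      ¬ (Acts y w η k L ∧ Acts y w η k' L) := by
  classical
  obtain ⟨M, hMS, hM, h⟩ := exists_unlinked (𝕜 := 𝕜) c (IsSpecial c (NB c))
    (fun L hL => hL.coded) (fun L n hL => hL.take n) (fun E => E.OrdConnected)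
    (fun E ξ hE => hE.inter Set.ordConnected_Iic) w hy.w_mono (fun k => (y k : I → 𝕜))
    (fun k => (y k).support) (fun k ξ h => Finsupp.mem_support_iff.2 h)
    (fun k k' hkk ξ hξ ξ' hξ' => hy.block.slt k k' hkk ξ hξ ξ' hξ')
    (fun j => 4 / mq j) (by
      have h1 : Summable fun j : ℕ => (4 / 16 : ℝ) * (1 / 16) ^ j :=
        (summable_geometric_of_lt_one (by norm_num) (by norm_num)).mul_left _
      refine h1.congr fun j => ?_
      unfold mq
      push_cast
      rw [pow_succ, one_div, inv_pow]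
      field_simp)
    (by
      intro L hL p hp k hpk E hE
      rw [← act_cut_eq_ev]
      exact hy.small k p.2 _ hpk ((hL.wt p hp).cut hE))
    2 (by
      intro k S L r E hL hE hd hn
      -- drop the trivial pieces
      have hr : ∀ v ∈ S, lact ((L v).drop (r v)) ((E v).indicator (y k : I → 𝕜)) =
          act (piece (L v) (E v) (if r v < (L v).length then Ici ((L v).getD (r v) 0).2 else ∅))
            (y k) := by
        intro v hv
        split_ifs with h1
        · exact lact_drop_eq_act (hL v hv).coded _ h1 _ _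
        · rw [List.drop_eq_nil_of_le (not_lt.1 h1), act_piece_eq]
          simp [lact]
      rw [Finset.sum_congr rfl fun v hv => by rw [hr v hv]]
      have hmem : ∀ v ∈ S, ∀ p ∈ L v,
          p.2 ∈ (if r v < (L v).length then Ici ((L v).getD (r v) 0).2 else ∅ : Set ℕ) →
          p ∈ (L v).drop (r v) := by
        intro v hv p hp hpJ
        split_ifs at hpJ with h1
        · obtain ⟨i, hi, rfl⟩ := List.getElem_of_mem hp
          have h2 : r v ≤ i := by
            by_contra h3
            have := (hL v hv).coded.idx_getD_lt (not_le.1 h3) h1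
            rw [List.getD_eq_getElem _ _ hi] at this
            rw [mem_Ici] at hpJ
            omega
          have h3 : i - r v < ((L v).drop (r v)).length := by rw [List.length_drop]; omega
          have h4 : ((L v).drop (r v))[i - r v] = (L v)[i] := by
            rw [List.getElem_drop]
            congr 1
            omega
          rw [← h4]
          exact List.getElem_mem _
        · exact absurd hpJ (Set.notMem_empty _)
      refine (sum_act_piece_le S L E _ hL hE ?_ ?_ ?_ (y k)).trans ?_
      · intro v _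
        split_ifs
        · exact Set.ordConnected_Ici
        · exact Set.ordConnected_empty
      · intro v hv p hp hpJ
        exact hn v hv p (hmem v hv p hp hpJ)
      · intro v hv v' hv' hne p hp q hq h1 h2
        exact hd v hv v' hv' hne p (hmem v hv p hp h1) q (hmem v' hv' q hq h2)
      · rw [hy.nrm_eq, mul_one])
    (by
      intro t ht ε hε
      obtain ⟨N, hN⟩ := hNK t ht (ε / 4) (by linarith)
      obtain ⟨k₁, hk₁⟩ := exists_nat_gt (8 / ε)
      refine ⟨max N k₁, fun k hk E hE => ?_⟩
      obtain ⟨v, hv, hv2, hav⟩ := hy.avg k E hE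
      have hvN : v ∈ tailSpan u N :=
        Submodule.span_mono (Set.image_mono (Set.Ici_subset_Ici.2 ((le_max_left _ _).trans hk))) hv
      have h1 : ‖actSeq t v‖ ≤ ε / 2 := by
        refine (hN v hvN).trans ?_
        nlinarith [mul_le_mul_of_nonneg_left hv2 (show (0 : ℝ) ≤ ε / 4 by linarith)]
      have htc : IsCodedSeq c t := fun n => (ht n).coded
      filter_upwards [actSeq_eq_eventually htc v] with n hn
      rw [lact_eq_act]
      have h2 := hav (piece (pre t n) univ univ)
        (NB.piece (ht n) Set.ordConnected_univ Set.ordConnected_univ)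
      rw [piece_cut, Set.inter_univ, ← hn] at h2
      have h3 : (4 : ℝ) / (k + 1) ≤ ε / 2 := by
        rw [div_le_div_iff₀ (by positivity) (by norm_num)]
        have h4 : (k₁ : ℝ) ≤ k := by exact_mod_cast (le_max_right _ _).trans hk
        rw [div_lt_iff₀ hε] at hk₁
        nlinarith
      calc ‖act (piece (pre t n) E univ) (y k)‖
          = ‖(act (piece (pre t n) E univ) (y k) - actSeq t v) + actSeq t v‖ := by
            rw [sub_add_cancel]
        _ ≤ ε / 2 + ε / 2 := (norm_add_le _ _).trans (add_le_add (h2.trans h3) h1)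
        _ = ε := by ring)
    η hη S hS
  refine ⟨M, hMS, hM, fun k hk k' hk' hkk L hL => ?_⟩
  rintro ⟨⟨E, J, hE, hJ, hJW, h1⟩, ⟨E', J', hE', hJ', hJW', h1'⟩⟩
  obtain ⟨F, hF, h2⟩ := piece_window hL hE hJ hJW
  obtain ⟨F', hF', h2'⟩ := piece_window hL hE' hJ' hJW'
  refine h k hk k' hk' hkk L hL F F' hF hF' ?_
  rw [wact_eq_act, wact_eq_act, ← h2, ← h2']
  exact ⟨h1, h1'⟩

end Crest.Agent.R114
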