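import Mathlib

/-!
S2: existence of averages, for an arbitrary sequence in a seminormed space which satisfies a
lower estimate.
-/

set_option autoImplicit false

namespace Crest.Agent.R114.MAvg

open Finset

variable {𝕜 : Type*} [RCLike 𝕜] {E : Type*} [SeminormedAddCommGroup E] [NormedSpace 𝕜 E]

/-- vectors in the span of `u a, …, u (b - 1)` -/
def Blk (𝕜 : Type*) [RCLike 𝕜] {E : Type*} [SeminormedAddCommGroup E] [NormedSpace 𝕜 E]
    (u : ℕ → E) (a b : ℕ) : Submodule 𝕜 E := Submodule.span 𝕜 (u '' Set.Ico a b)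

lemma Blk_mono {u : ℕ → E} {a b a' b' : ℕ} (h1 : a' ≤ a) (h2 : b ≤ b') :
    Blk 𝕜 u a b ≤ Blk 𝕜 u a' b' :=
  Submodule.span_mono (Set.image_mono (Set.Ico_subset_Ico h1 h2))

lemma mem_Blk_single (u : ℕ → E) (a : ℕ) : u a ∈ Blk 𝕜 u a (a + 1) :=
  Submodule.subset_span ⟨a, by simp, rfl⟩

lemma sum_range_mul_aux {M : Type*} [AddCommMonoid M] (f : ℕ → M) (a b : ℕ) :
    ∑ i ∈ range (a * b), f i = ∑ p ∈ range a, ∑ q ∈ range b, f (p * b + q) := by
  induction a with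
  | zero => simp
  | succ a ih =>
    rw [Finset.sum_range_succ, ← ih, Nat.succ_mul, Finset.sum_range_add]

/-- the iteration: `‖∑_{i < n ^ s} f i‖ ≤ (n / 2) ^ s` -/
lemma iter {u : ℕ → E} {n N0 : ℕ}
    (hno : ∀ (k : ℕ → ℕ) (f : ℕ → E), Monotone k → N0 ≤ k 0 →
      (∀ i, f i ∈ Blk 𝕜 u (k i) (k (i + 1))) → (∀ i, ‖f i‖ ≤ 1) →
      ‖∑ i ∈ range n, f i‖ ≤ (n : ℝ) / 2) (s : ℕ) :
    ∀ (k : ℕ → ℕ) (f : ℕ → E), Monotone k → N0 ≤ k 0 →
      (∀ i, f i ∈ Blk 𝕜 u (k i) (k (i + 1))) → (∀ i, ‖f i‖ ≤ 1) →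
      ‖∑ i ∈ range (n ^ s), f i‖ ≤ ((n : ℝ) / 2) ^ s := by
  induction s with
  | zero =>
    intro k f _ _ _ h1
    simpa using h1 0
  | succ s ih =>
    intro k f hk h0 hf h1
    rcases Nat.eq_zero_or_pos n with hn | hn
    · subst hn
      simp
    have hn' : (0 : ℝ) < n := by exact_mod_cast hn
    set c : ℝ := ((n : ℝ) / 2) ^ s with hc
    have hcpos : 0 < c := by positivity
    set P : ℕ := n ^ s with hP
    -- group sums
    let g : ℕ → E := fun a => ∑ i ∈ range P, f (a * P + i)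
    have hsum : ∑ i ∈ range (n ^ (s + 1)), f i = ∑ a ∈ range n, g a := by
      rw [pow_succ, mul_comm, sum_range_mul_aux]
    have hg : ∀ a, ‖g a‖ ≤ c := by
      intro a
      refine ih (fun i => k (a * P + i)) (fun i => f (a * P + i)) ?_ ?_ ?_ ?_
      · intro i j hij
        exact hk (by omega)
      · exact h0.trans (hk (Nat.zero_le _))
      · intro i
        exact hf _
      · intro i
        exact h1 _
    have hgm : ∀ a, g a ∈ Blk 𝕜 u (k (a * P)) (k ((a + 1) * P)) := by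
      intro a
      refine Submodule.sum_mem _ fun i hi => ?_
      have hi' := Finset.mem_range.mp hi
      refine Blk_mono (hk (by omega)) (hk ?_) (hf (a * P + i))
      have : (a + 1) * P = a * P + P := by ring
      omega
    have key := hno (fun a => k (a * P)) (fun a => ((c⁻¹ : ℝ) : 𝕜) • g a) ?_ ?_ ?_ ?_
    · rw [hsum]
      rw [← Finset.smul_sum, norm_smul, RCLike.norm_ofReal, abs_of_pos (inv_pos.mpr hcpos),
        inv_mul_le_iff₀ hcpos] at key
      calc ‖∑ a ∈ range n, g a‖ ≤ c * ((n : ℝ) / 2) := key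
        _ = ((n : ℝ) / 2) ^ (s + 1) := by rw [pow_succ]
    · intro a b hab
      exact hk (Nat.mul_le_mul_right _ hab)
    · simpa using h0
    · intro a
      exact Submodule.smul_mem _ _ (hgm a)
    · intro a
      rw [norm_smul, RCLike.norm_ofReal, abs_of_pos (inv_pos.mpr hcpos), inv_mul_le_iff₀ hcpos,
        mul_one]
      exact hg a

/-- **S2.** If the sequence `u` (of nonzero vectors) satisfies lower estimates with constants
`K j` for `nn j` successive blocks, where `n ^ s ≤ nn j` and `K j < 2 ^ s` for some `s`, then there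
are `n` successive blocks of norm at most `2` whose average has norm at least `1`. -/
theorem exists_average {u : ℕ → E} (hu : ∀ i, ‖u i‖ ≠ 0) {K : ℝ} {nn : ℕ}
    (hlow : ∀ (k : ℕ → ℕ) (f : ℕ → E) (N : ℕ), N ≤ nn → Monotone k →
      (∀ i, f i ∈ Blk 𝕜 u (k i) (k (i + 1))) →
      ∑ i ∈ range N, ‖f i‖ ≤ K * ‖∑ i ∈ range N, f i‖)
    (n s N0 : ℕ) (hn : 0 < n) (h1 : n ^ s ≤ nn) (h2 : K < 2 ^ s) (hK : 0 ≤ K) :
    ∃ (k : ℕ → ℕ) (f : ℕ → E), Monotone k ∧ N0 ≤ k 0 ∧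
      (∀ i, f i ∈ Blk 𝕜 u (k i) (k (i + 1))) ∧ (∀ i, ‖f i‖ ≤ 2) ∧
      (n : ℝ) ≤ ‖∑ i ∈ range n, f i‖ := by
  by_contra hcon
  push Not at hcon
  have hn' : (0 : ℝ) < n := by exact_mod_cast hn
  have hno : ∀ (k : ℕ → ℕ) (f : ℕ → E), Monotone k → N0 ≤ k 0 →
      (∀ i, f i ∈ Blk 𝕜 u (k i) (k (i + 1))) → (∀ i, ‖f i‖ ≤ 1) →
      ‖∑ i ∈ range n, f i‖ ≤ (n : ℝ) / 2 := by
    intro k f hk h0 hf hf1
    have := hcon k (fun i => (2 : 𝕜) • f i) hk h0 (fun i => Submodule.smul_mem _ _ (hf i)) ?_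
    · rw [← Finset.smul_sum, norm_smul] at this
      simp only [RCLike.norm_ofNat] at this
      linarith
    · intro i
      rw [norm_smul]
      simp only [RCLike.norm_ofNat]
      have := hf1 i
      linarith
  have hunit : ∀ i, ‖(((‖u (N0 + i)‖)⁻¹ : ℝ) : 𝕜) • u (N0 + i)‖ = 1 := by
    intro i
    have hpos : 0 < ‖u (N0 + i)‖ := lt_of_le_of_ne (norm_nonneg _) (Ne.symm (hu _))
    rw [norm_smul, RCLike.norm_ofReal, abs_of_pos (inv_pos.mpr hpos),
      inv_mul_cancel₀ hpos.ne']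
  have hmem : ∀ i, (((‖u (N0 + i)‖)⁻¹ : ℝ) : 𝕜) • u (N0 + i) ∈
      Blk 𝕜 u (N0 + i) (N0 + (i + 1)) := fun i => Submodule.smul_mem _ _ (mem_Blk_single u _)
  have hmono : Monotone fun i : ℕ => N0 + i := fun a b hab => by
    have : a ≤ b := hab
    show N0 + a ≤ N0 + b
    omega
  have hup := iter hno s (fun i => N0 + i)
    (fun i => (((‖u (N0 + i)‖)⁻¹ : ℝ) : 𝕜) • u (N0 + i)) hmono (by simp) hmem
    (fun i => (hunit i).le)
  have hlo := hlow (fun i => N0 + i)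
    (fun i => (((‖u (N0 + i)‖)⁻¹ : ℝ) : 𝕜) • u (N0 + i)) (n ^ s) h1 hmono hmem
  simp only [hunit, Finset.sum_const, Finset.card_range, nsmul_eq_mul, mul_one] at hlo
  have h3 : ((n ^ s : ℕ) : ℝ) ≤ K * ((n : ℝ) / 2) ^ s :=
    hlo.trans (mul_le_mul_of_nonneg_left hup hK)
  push_cast at h3
  rw [div_pow, mul_div_assoc', le_div_iff₀ (by positivity)] at h3
  have h4 : (0 : ℝ) < (n : ℝ) ^ s := by positivity
  nlinarith

end Crest.Agent.R114.MAvg
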