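import Crest.Agent.R114.Norm

/-! # Row 114, S0152: block sequences and the data of the proof of the main lemma. -/

set_option autoImplicit false

open Set Filter

namespace Crest.Agent.R114

variable {I : Type} [LinearOrder I] {𝕜 : Type} [RCLike 𝕜]

/-- sequences of nonzero successive vectors -/
structure IsBlockSeq (u : ℕ → I →₀ 𝕜) : Prop where
  ne_zero : ∀ k, u k ≠ 0
  slt : ∀ k k', k < k' → SLt (u k).support (u k').support

/-- span of the tail of a sequence -/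
noncomputable def tailSpan (u : ℕ → I →₀ 𝕜) (N : ℕ) : Submodule 𝕜 (I →₀ 𝕜) := Submodule.span 𝕜 (u '' Ici N)

/-- the negation of the main lemma, in normalized form -/
def NK (c : Coding I) (u : ℕ → I →₀ 𝕜) : Prop :=
  ∀ t, IsSpecialSeq c t → ∀ ε : ℝ, 0 < ε → ∃ N, ∀ v ∈ tailSpan u N,
    ‖actSeq t v‖ ≤ ε * nrm c v

/-- output of S3-S5: normalized averages `y k` with windows `(w k, w (k+1)]`. -/
structure YData (c : Coding I) (u y : ℕ → I →₀ 𝕜) (w : ℕ → ℕ) : Prop where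
  w_mono : StrictMono w
  block : IsBlockSeq y
  mem : ∀ k, y k ∈ tailSpan u k
  nrm_eq : ∀ k, nrm c (y k) = 1
  small : ∀ k i b, i ≤ w k → IsW (NB c) i b → ‖act b (y k)‖ ≤ 4 / mq i
  large : ∀ k, 2 * l1 (y k) ≤ (1 / 2 : ℝ) ^ k * mq (w (k + 1) + 1)
  avg : ∀ k (E : Set I), E.OrdConnected → ∃ v ∈ tailSpan u k, nrm c v ≤ 2 ∧
    ∀ b, NB c b → ‖act (cut E b) (y k) - act b v‖ ≤ 4 / (k + 1)

/-- the list `L` acts on `y k` in the window `(w k, w (k+1)]` by at least `η` -/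
def Acts (y : ℕ → I →₀ 𝕜) (w : ℕ → ℕ) (η : ℝ) (k : ℕ) (L : SList I) : Prop :=
  ∃ (E : Set I) (J : Set ℕ), E.OrdConnected ∧ J.OrdConnected ∧ J ⊆ Ioc (w k) (w (k + 1)) ∧
    η ≤ ‖act (piece L E J) (y k)‖

/-- output of S7: a rapidly increasing sequence with small window actions. -/
structure GData (c : Coding I) (u : ℕ → I →₀ 𝕜) (C : ℝ) (G : ℕ → I →₀ 𝕜) (w : ℕ → ℕ) :
    Prop where
  w_mono : StrictMono w
  block : IsBlockSeq G
  mem : ∀ p, G p ∈ tailSpan u p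
  nrm_eq : ∀ p, nrm c (G p) = 1
  small : ∀ p i b, i ≤ w p → IsW (NB c) i b → ‖act b (G p)‖ ≤ C / mq i
  window : ∀ (p : ℕ) (L : SList I) (E : Set I) (J : Set ℕ), IsSpecial c (NB c) L →
    E.OrdConnected → J.OrdConnected → J ⊆ Ioc (w p) (w (p + 1)) →
    ‖act (piece L E J) (G p)‖ * (w p + 1) ≤ (1 / 2 : ℝ) ^ (p + 2)
  large : ∀ p, 2 * l1 (G p) ≤ (1 / 2 : ℝ) ^ (p + 2) * mq (w (p + 1) + 1)

end Crest.Agent.R114
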