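import Crest.Agent.R114.NBasic

/-! # Row 114, S0152: the norm, the normed space `C00`, the lower estimate S1. -/

set_option autoImplicit false

open Set Filter

namespace Crest.Agent.R114

variable {I : Type} [LinearOrder I] {c : Coding I} {𝕜 : Type} [RCLike 𝕜]

section nrm

lemma nrm_bddAbove (c : Coding I) (f : I →₀ 𝕜) :
    BddAbove (range fun b : {b : I →₀ ℚ // NB c b} => ‖act b.1 f‖) := by
  refine ⟨1 * l1 f, ?_⟩
  rintro _ ⟨b, rfl⟩
  exact norm_act_le_l1 f fun a => by exact_mod_cast b.2.abs_le_one a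

lemma norm_act_le {b : I →₀ ℚ} (hb : NB c b) (f : I →₀ 𝕜) : ‖act b f‖ ≤ nrm c f :=
  le_ciSup (nrm_bddAbove c f) (⟨b, hb⟩ : {b : I →₀ ℚ // NB c b})

lemma nrm_le {f : I →₀ 𝕜} {C : ℝ} (h : ∀ b, NB c b → ‖act b f‖ ≤ C) : nrm c f ≤ C := by
  have : Nonempty {b : I →₀ ℚ // NB c b} := ⟨⟨0, NB.zero c⟩⟩
  exact ciSup_le fun b => h b.1 b.2

lemma exists_act_gt {f : I →₀ 𝕜} {r : ℝ} (h : r < nrm c f) : ∃ b, NB c b ∧ r < ‖act b f‖ := by
  have : Nonempty {b : I →₀ ℚ // NB c b} := ⟨⟨0, NB.zero c⟩⟩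
  obtain ⟨b, hb⟩ := exists_lt_of_lt_ciSup h
  exact ⟨b.1, b.2, hb⟩

lemma nrm_nonneg (f : I →₀ 𝕜) : 0 ≤ nrm c f :=
  (norm_nonneg _).trans (norm_act_le (NB.zero c) f)

lemma norm_apply_le_nrm (f : I →₀ 𝕜) (a : I) : ‖f a‖ ≤ nrm c f := by
  have h := norm_act_le ((NB.closedFam c).unit a 1 (by simp)) f
  rwa [act_single_left, Rat.cast_one, one_mul] at h

lemma nrm_le_l1 (f : I →₀ 𝕜) : nrm c f ≤ l1 f :=
  nrm_le fun b hb => by
    have := norm_act_le_l1 (b := b) (M := 1) f fun a => by exact_mod_cast hb.abs_le_one a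
    rwa [one_mul] at this

lemma nrm_add_le (f g : I →₀ 𝕜) : nrm c (f + g) ≤ nrm c f + nrm c g :=
  nrm_le fun b hb => by
    rw [act_add]
    exact (norm_add_le _ _).trans (add_le_add (norm_act_le hb f) (norm_act_le hb g))

private lemma nrm_smul_le (z : 𝕜) (f : I →₀ 𝕜) : nrm c (z • f) ≤ ‖z‖ * nrm c f :=
  nrm_le fun b hb => by
    rw [act_smul, norm_mul]
    exact mul_le_mul_of_nonneg_left (norm_act_le hb f) (norm_nonneg _)

lemma nrm_smul (z : 𝕜) (f : I →₀ 𝕜) : nrm c (z • f) = ‖z‖ * nrm c f := by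
  refine le_antisymm (nrm_smul_le z f) ?_
  by_cases hz : z = 0
  · subst hz; rw [norm_zero, zero_mul]; exact nrm_nonneg _
  · have h1 : z⁻¹ • z • f = f := by rw [smul_smul, inv_mul_cancel₀ hz, one_smul]
    have h := nrm_smul_le (c := c) z⁻¹ (z • f)
    rw [h1, norm_inv] at h
    have hz' : 0 < ‖z‖ := norm_pos_iff.2 hz
    calc ‖z‖ * nrm c f ≤ ‖z‖ * (‖z‖⁻¹ * nrm c (z • f)) := mul_le_mul_of_nonneg_left h hz'.le
      _ = nrm c (z • f) := by rw [← mul_assoc, mul_inv_cancel₀ hz'.ne', one_mul]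

lemma nrm_eq_zero_iff (f : I →₀ 𝕜) : nrm c f = 0 ↔ f = 0 := by
  constructor
  · intro h
    ext a
    have := norm_apply_le_nrm (c := c) f a
    rw [h] at this
    simpa using this
  · rintro rfl
    refine le_antisymm (nrm_le fun b _ => ?_) (nrm_nonneg _)
    rw [act_zero, norm_zero]

lemma nrm_cut_le (f : I →₀ 𝕜) {E : Set I} (hE : E.OrdConnected) : nrm c (cut E f) ≤ nrm c f :=
  nrm_le fun b hb => by
    rw [← act_cut]
    exact norm_act_le (hb.cut hE) f

lemma nrm_single (a : I) (z : 𝕜) : nrm c (Finsupp.single a z) = ‖z‖ := by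
  refine le_antisymm (nrm_le fun b hb => ?_) ?_
  · rw [act_single_right, norm_mul]
    have h : ‖((b a : ℚ) : 𝕜)‖ ≤ 1 := by
      have h1 : ((b a : ℚ) : 𝕜) = (((b a : ℚ) : ℝ) : 𝕜) := by push_cast; rfl
      rw [h1, RCLike.norm_ofReal]
      exact_mod_cast hb.abs_le_one a
    calc ‖((b a : ℚ) : 𝕜)‖ * ‖z‖ ≤ 1 * ‖z‖ := mul_le_mul_of_nonneg_right h (norm_nonneg _)
      _ = ‖z‖ := one_mul _
  · have := norm_apply_le_nrm (c := c) (Finsupp.single a z) a
    rwa [Finsupp.single_eq_same] at this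

lemma norm_ratCast (q : ℚ) : ‖(q : 𝕜)‖ = |(q : ℝ)| := by
  have h1 : (q : 𝕜) = ((q : ℝ) : 𝕜) := by push_cast; rfl
  rw [h1, RCLike.norm_ofReal]

lemma norm_act_le_sum (b : I →₀ ℚ) (f : I →₀ 𝕜) :
    ‖act b f‖ ≤ (∑ a ∈ b.support, |(b a : ℝ)|) * nrm c f := by
  classical
  have h : act b f = ∑ a ∈ b.support, ((b a : ℚ) : 𝕜) * f a := by
    unfold act Finsupp.sum
    rw [← Finset.sum_subset (Finset.inter_subset_left (s₁ := f.support) (s₂ := b.support)),
      ← Finset.sum_subset (Finset.inter_subset_right (s₁ := f.support) (s₂ := b.support))]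
    · intro x hx hx'
      rw [Finset.mem_inter, not_and_or] at hx'
      have : f x = 0 := by
        by_contra h0
        exact hx'.elim (fun h => h (Finsupp.mem_support_iff.2 h0)) (fun h => h hx)
      rw [this, mul_zero]
    · intro x hx hx'
      rw [Finset.mem_inter, not_and_or] at hx'
      have : b x = 0 := by
        by_contra h0
        exact hx'.elim (fun h => h hx) (fun h => h (Finsupp.mem_support_iff.2 h0))
      show ((b x : ℚ) : 𝕜) * f x = 0
      rw [this, Rat.cast_zero, zero_mul]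
  rw [h, Finset.sum_mul]
  refine (norm_sum_le _ _).trans (Finset.sum_le_sum fun a _ => ?_)
  rw [norm_mul, norm_ratCast]
  exact mul_le_mul_of_nonneg_left (norm_apply_le_nrm f a) (abs_nonneg _)

/-- signs/phases: for complex numbers `z_i` there are signs with large modulus of the sum -/
lemma exists_signs_sum {ι : Type*} (s : Finset ι) (z : ι → 𝕜) :
    ∃ ε : ι → ℚ, (∀ i, ε i = 1 ∨ ε i = -1) ∧
      (1 / 2 : ℝ) * ∑ i ∈ s, ‖z i‖ ≤ ‖∑ i ∈ s, (ε i : 𝕜) * z i‖ := by
  have key : ∀ L : 𝕜 →ₗ[ℝ] ℝ, (∀ w, |L w| ≤ ‖w‖) → ∃ ε : ι → ℚ, (∀ i, ε i = 1 ∨ ε i = -1) ∧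
      ∑ i ∈ s, |L (z i)| ≤ ‖∑ i ∈ s, (ε i : 𝕜) * z i‖ := by
    intro L hL
    refine ⟨fun i => if 0 ≤ L (z i) then 1 else -1, fun i => by
      by_cases h : 0 ≤ L (z i) <;> simp [h], ?_⟩
    refine le_trans ?_ (hL _)
    refine le_trans (le_of_eq ?_) (le_abs_self _)
    rw [map_sum]
    refine Finset.sum_congr rfl fun i _ => ?_
    by_cases h : 0 ≤ L (z i)
    · simp [h, abs_of_nonneg h]
    · have h' := not_le.1 h
      simp only [h, if_false, abs_of_neg h']
      push_cast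
      rw [neg_one_mul, map_neg]
  obtain ⟨ε1, h1, h1'⟩ := key RCLike.reLm (fun w => RCLike.abs_re_le_norm w)
  obtain ⟨ε2, h2, h2'⟩ := key RCLike.imLm (fun w => RCLike.abs_im_le_norm w)
  have hsum : ∑ i ∈ s, ‖z i‖ ≤ ∑ i ∈ s, |RCLike.re (z i)| + ∑ i ∈ s, |RCLike.im (z i)| := by
    rw [← Finset.sum_add_distrib]
    refine Finset.sum_le_sum fun i _ => ?_
    calc ‖z i‖ = ‖((RCLike.re (z i) : ℝ) : 𝕜) + (RCLike.im (z i) : ℝ) * RCLike.I‖ := by
          rw [RCLike.re_add_im]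
      _ ≤ ‖((RCLike.re (z i) : ℝ) : 𝕜)‖ + ‖((RCLike.im (z i) : ℝ) : 𝕜) * RCLike.I‖ :=
          norm_add_le _ _
      _ ≤ |RCLike.re (z i)| + |RCLike.im (z i)| := by
          refine add_le_add (le_of_eq (RCLike.norm_ofReal _)) ?_
          rw [norm_mul, RCLike.norm_ofReal]
          exact mul_le_of_le_one_right (abs_nonneg _) (by
            rw [RCLike.norm_I]; split_ifs <;> norm_num)
  by_cases hc : ∑ i ∈ s, |RCLike.im (z i)| ≤ ∑ i ∈ s, |RCLike.re (z i)|
  · refine ⟨ε1, h1, le_trans ?_ h1'⟩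
    have : ∑ i ∈ s, |RCLike.reLm (K := 𝕜) (z i)| = ∑ i ∈ s, |RCLike.re (z i)| := rfl
    rw [this]; linarith
  · refine ⟨ε2, h2, le_trans ?_ h2'⟩
    have : ∑ i ∈ s, |RCLike.imLm (K := 𝕜) (z i)| = ∑ i ∈ s, |RCLike.im (z i)| := rfl
    rw [this]; linarith

private lemma sum_map_range_eq (N : ℕ) (g : ℕ → 𝕜) :
    ((List.range N).map g).sum = ∑ i ∈ Finset.range N, g i := by
  induction N with
  | zero => simp
  | succ n ih => rw [List.range_succ, List.map_append, List.sum_append, ih,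
      Finset.sum_range_succ]; simp

/-- lower `ℓ₁`-estimate for at most `n_j` successive order-connected parts of a vector. -/
theorem lower_estimate_cut (j N : ℕ) (hN : N ≤ nq j) (f : I →₀ 𝕜) (E : ℕ → Set I)
    (hE : ∀ i, (E i).OrdConnected)
    (hs : ∀ i i', i < i' → i' < N → ∀ a ∈ E i, ∀ b ∈ E i', a < b) :
    ∑ i ∈ Finset.range N, nrm c (cut (E i) f) ≤ 2 * mq j * nrm c f := by
  classical
  have hmq : (0 : ℝ) < mq j := by
    have : 0 < mq j := by unfold mq; positivity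
    exact_mod_cast this
  refine le_of_forall_pos_le_add fun δ hδ => ?_
  have hN1 : (0 : ℝ) < (N : ℝ) + 1 := by positivity
  have hδ' : 0 < δ / ((N : ℝ) + 1) := div_pos hδ hN1
  have hex : ∀ i, ∃ b, NB c b ∧ nrm c (cut (E i) f) - δ / ((N : ℝ) + 1) < ‖act b (cut (E i) f)‖ :=
    fun i => exists_act_gt (by linarith)
  choose b hb hb' using hex
  obtain ⟨ε, hε, hsum⟩ := exists_signs_sum (𝕜 := 𝕜) (Finset.range N)
    (fun i => act (cut (E i) (b i)) f)
  have hB : NB c (((mq j : ℚ))⁻¹ • ((List.range N).map fun i => ε i • cut (E i) (b i)).sum) := by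
    refine (NB.closedFam c).wt j _ ⟨(List.range N).map fun i => ε i • cut (E i) (b i),
      by simpa using hN, ?_, ?_, rfl⟩
    · intro x hx
      obtain ⟨i, -, rfl⟩ := List.mem_map.1 hx
      exact ((hb i).cut (hE i)).smul (by rcases hε i with h | h <;> simp [h])
    · rw [List.pairwise_map]
      refine List.Pairwise.imp_of_mem (R := (· < ·)) ?_ List.pairwise_lt_range
      intro i i' _ hi' hlt x hx y hy
      have hx' := (cut_support (E i) (b i) x (Finsupp.support_smul hx)).1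
      have hy' := (cut_support (E i') (b i') y (Finsupp.support_smul hy)).1
      exact hs i i' hlt (List.mem_range.1 hi') x hx' y hy'
  have hact : act (((mq j : ℚ))⁻¹ • ((List.range N).map fun i => ε i • cut (E i) (b i)).sum) f =
      ((mq j : ℝ) : 𝕜)⁻¹ * ∑ i ∈ Finset.range N, (ε i : 𝕜) * act (cut (E i) (b i)) f := by
    rw [act_smul_left, act_list_sum_left, List.map_map]
    congr 1
    · push_cast; rfl
    · rw [sum_map_range_eq]
      exact Finset.sum_congr rfl fun i _ => act_smul_left _ _ _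
  have h1 := norm_act_le hB f
  rw [hact, norm_mul, norm_inv, RCLike.norm_ofReal, abs_of_pos hmq] at h1
  have h2 : ‖∑ i ∈ Finset.range N, (ε i : 𝕜) * act (cut (E i) (b i)) f‖ ≤ mq j * nrm c f := by
    rw [inv_mul_le_iff₀ hmq] at h1
    exact h1
  have h3 : ∑ i ∈ Finset.range N, ‖act (cut (E i) (b i)) f‖ ≤ 2 * mq j * nrm c f := by linarith
  calc ∑ i ∈ Finset.range N, nrm c (cut (E i) f)
      ≤ ∑ i ∈ Finset.range N, (‖act (cut (E i) (b i)) f‖ + δ / ((N : ℝ) + 1)) :=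
        Finset.sum_le_sum fun i _ => by
          have := hb' i
          rw [act_cut]
          linarith
    _ = ∑ i ∈ Finset.range N, ‖act (cut (E i) (b i)) f‖ + N * (δ / ((N : ℝ) + 1)) := by
        rw [Finset.sum_add_distrib, Finset.sum_const, Finset.card_range, nsmul_eq_mul]
    _ ≤ 2 * mq j * nrm c f + δ := by
        refine add_le_add h3 ?_
        rw [← mul_div_assoc, div_le_iff₀ hN1]
        nlinarith

/-- **S1**: lower `ℓ₁`-estimate for at most `n_j` successive vectors. -/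
theorem lower_estimate (j N : ℕ) (hN : N ≤ nq j) (f : ℕ → I →₀ 𝕜)
    (hf : ∀ i i', i < i' → i' < N → SLt (f i).support (f i').support) :
    ∑ i ∈ Finset.range N, nrm c (f i) ≤ 2 * mq j * nrm c (∑ i ∈ Finset.range N, f i) := by
  classical
  let E : ℕ → Set I := fun i =>
    {a | i < N ∧ (∃ x ∈ (f i).support, x ≤ a) ∧ ∃ y ∈ (f i).support, a ≤ y}
  have hE : ∀ i, (E i).OrdConnected := by
    intro i
    refine ⟨fun a ha b hb x hx => ⟨ha.1, ?_, ?_⟩⟩
    · obtain ⟨u, hu, hu'⟩ := ha.2.1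
      exact ⟨u, hu, hu'.trans hx.1⟩
    · obtain ⟨u, hu, hu'⟩ := hb.2.2
      exact ⟨u, hu, hx.2.trans hu'⟩
  have hs : ∀ i i', i < i' → i' < N → ∀ a ∈ E i, ∀ b ∈ E i', a < b := by
    intro i i' hi hi' a ha b hb
    obtain ⟨y, hy, hy'⟩ := ha.2.2
    obtain ⟨x, hx, hx'⟩ := hb.2.1
    exact (hy'.trans_lt (hf i i' hi hi' y hy x hx)).trans_le hx'
  have hcut : ∀ i ∈ Finset.range N, cut (E i) (∑ i ∈ Finset.range N, f i) = f i := by
    intro i hi
    have hiN := Finset.mem_range.1 hi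
    rw [cut_sum, Finset.sum_eq_single_of_mem i hi]
    · refine cut_of_subset fun a ha => ⟨hiN, ⟨a, ha, le_rfl⟩, ⟨a, ha, le_rfl⟩⟩
    · intro i' hi' hne
      have hi'N := Finset.mem_range.1 hi'
      ext a
      rw [cut_apply, Finsupp.zero_apply]
      split_ifs with ha
      · by_contra h0
        have ha' : a ∈ (f i').support := Finsupp.mem_support_iff.2 h0
        rcases lt_or_gt_of_ne hne with h | h
        · obtain ⟨x, hx, hx'⟩ := ha.2.1
          exact absurd (hf i' i h hiN a ha' x hx) (not_lt.2 hx')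
        · obtain ⟨x, hx, hx'⟩ := ha.2.2
          exact absurd (hf i i' h hi'N x hx a ha') (not_lt.2 hx')
      · rfl
  have h := lower_estimate_cut j N hN (∑ i ∈ Finset.range N, f i) E hE hs (c := c)
  rwa [Finset.sum_congr rfl fun i hi => by rw [hcut i hi]] at h

end nrm

section space

/-- finitely supported vectors with the norm `nrm c` -/
def C00 {I : Type} [LinearOrder I] (_ : Coding I) (𝕜 : Type) [RCLike 𝕜] : Type := I →₀ 𝕜

noncomputable instance : AddCommGroup (C00 c 𝕜) := inferInstanceAs (AddCommGroup (I →₀ 𝕜))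
noncomputable instance : Module 𝕜 (C00 c 𝕜) := inferInstanceAs (Module 𝕜 (I →₀ 𝕜))
noncomputable instance : Norm (C00 c 𝕜) := ⟨fun f => nrm (I := I) c (𝕜 := 𝕜) f⟩

lemma C00.norm_def (f : C00 c 𝕜) : ‖f‖ = nrm c (f : I →₀ 𝕜) := rfl

lemma C00.core : NormedSpace.Core 𝕜 (C00 c 𝕜) where
  norm_nonneg f := nrm_nonneg (c := c) (𝕜 := 𝕜) f
  norm_smul z f := nrm_smul (c := c) z f
  norm_triangle f g := nrm_add_le (c := c) (𝕜 := 𝕜) f g
  norm_eq_zero_iff f := nrm_eq_zero_iff (c := c) (𝕜 := 𝕜) f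

noncomputable instance : NormedAddCommGroup (C00 c 𝕜) := NormedAddCommGroup.ofCore C00.core
noncomputable instance : NormedSpace 𝕜 (C00 c 𝕜) := NormedSpace.ofCore C00.core

/-- the identification of finitely supported functions with `C00` -/
def C00.of (c : Coding I) (f : I →₀ 𝕜) : C00 c 𝕜 := f

/-- restriction to an order-connected set -/
noncomputable def cutL (c : Coding I) (𝕜 : Type) [RCLike 𝕜] {E : Set I} (hE : E.OrdConnected) :
    C00 c 𝕜 →L[𝕜] C00 c 𝕜 :=
  LinearMap.mkContinuous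
    { toFun := fun f => cut (R := 𝕜) E f
      map_add' := fun f g => cut_add (R := 𝕜) E f g
      map_smul' := fun z f => cut_smul' (𝕜 := 𝕜) E z f } 1 (fun f => by
        rw [one_mul]; exact nrm_cut_le (c := c) (𝕜 := 𝕜) f hE)

lemma cutL_apply {E : Set I} (hE : E.OrdConnected) (f : C00 c 𝕜) :
    cutL c 𝕜 hE f = cut (R := 𝕜) E f := rfl

/-- action of an arbitrary rational functional -/
noncomputable def actL (c : Coding I) (𝕜 : Type) [RCLike 𝕜] (b : I →₀ ℚ) :
    StrongDual 𝕜 (C00 c 𝕜) :=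
  LinearMap.mkContinuous
    { toFun := fun f => act (𝕜 := 𝕜) b f
      map_add' := fun f g => act_add (𝕜 := 𝕜) b f g
      map_smul' := fun z f => act_smul (𝕜 := 𝕜) b z f } (∑ a ∈ b.support, |(b a : ℝ)|)
    (fun f => norm_act_le_sum (c := c) (𝕜 := 𝕜) b f)

lemma actL_apply (b : I →₀ ℚ) (f : C00 c 𝕜) : actL c 𝕜 b f = act (𝕜 := 𝕜) b f := rfl

lemma norm_actL_le {b : I →₀ ℚ} (hb : NB c b) : ‖actL c 𝕜 b‖ ≤ 1 :=
  ContinuousLinearMap.opNorm_le_bound _ zero_le_one fun f => by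
    rw [one_mul, actL_apply]
    exact norm_act_le hb f

end space

end Crest.Agent.R114
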