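import Mathlib

/-! Row 114, S0152: the index set `I₁` of order type `ω₁`, labels, and registration under CH.
(helper881) -/

set_option autoImplicit false

open Set Cardinal Ordinal

namespace Crest.Agent.R114

section general

variable {I : Type*} [LinearOrder I]

/-- a countable set is strictly bounded above if initial segments are countable and the order is
uncountable. -/
theorem exists_gt_of_countable (hI : ∀ a : I, (Set.Iic a).Countable) [Uncountable I]
    {S : Set I} (hS : S.Countable) : ∃ b : I, ∀ a ∈ S, a < b := by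
  have h1 : (⋃ a ∈ S, Set.Iic a).Countable := hS.biUnion fun a _ => hI a
  have h2 : ∃ b : I, b ∉ ⋃ a ∈ S, Set.Iic a := by
    by_contra h
    push Not at h
    have h3 : (Set.univ : Set I).Countable := h1.mono fun b _ => h b
    exact not_countable_univ h3
  obtain ⟨b, hb⟩ := h2
  refine ⟨b, fun a ha => ?_⟩
  by_contra h
  exact hb (Set.mem_iUnion₂.2 ⟨a, ha, le_of_not_gt h⟩)

end general

/-- The index set: the order type `ω₁` as a type in universe `0`. -/
abbrev I₁ : Type := (ω₁ : Ordinal.{0}).ToType

theorem mk_I₁ : Cardinal.mk I₁ = Cardinal.aleph 1 := by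
  simp

instance uncountable_I₁ : Uncountable I₁ := by
  rw [← Cardinal.aleph0_lt_mk_iff, mk_I₁, ← Cardinal.aleph_zero]
  exact Cardinal.aleph_lt_aleph.2 zero_lt_one

theorem countable_Iio_I₁ (a : I₁) : (Set.Iio a).Countable := by
  have h0 : (Cardinal.mk I₁).ord = Ordinal.type (α := I₁) (· < ·) := by
    rw [mk_I₁, Ordinal.type_toType, Cardinal.ord_aleph]
  have h : Cardinal.mk (Set.Iio a) < Cardinal.aleph 1 := by
    have h1 := Cardinal.mk_Iio_lt a h0
    rwa [mk_I₁] at h1
  rw [← Cardinal.le_aleph0_iff_set_countable]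
  rw [← Order.lt_succ_iff, Cardinal.succ_aleph0]
  exact h

theorem countable_Iic_I₁ (a : I₁) : (Set.Iic a).Countable := by
  rw [← Set.Iio_union_right]
  exact (countable_Iio_I₁ a).union (Set.countable_singleton a)

/-- injective labels -/
theorem exists_labels : ∃ x : I₁ → (ℕ → Bool), Function.Injective x := by
  have h : Cardinal.mk I₁ ≤ Cardinal.mk (ℕ → Bool) := by
    rw [mk_I₁]
    have : Cardinal.mk (ℕ → Bool) = Cardinal.continuum := by simp
    rw [this]
    exact Cardinal.aleph_one_le_continuum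
  obtain ⟨f⟩ := h
  exact ⟨f, f.injective⟩

/-- Registration: if `T` has at most `ℵ₁` elements, each with a countable subset `S t` of `I`,
there is an injective `reg : T → I` with `S t < reg t`. -/
theorem exists_reg {I : Type*} [LinearOrder I] (hI : ∀ a : I, (Set.Iic a).Countable)
    [Uncountable I] {T : Type} (hT : Cardinal.mk T ≤ Cardinal.aleph 1) (S : T → Set I)
    (hS : ∀ t, (S t).Countable) :
    ∃ reg : T → I, Function.Injective reg ∧ ∀ t, ∀ ξ ∈ S t, ξ < reg t := by
  classical
  have hj : ∃ j : T → I₁, Function.Injective j := by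
    rw [← mk_I₁] at hT
    obtain ⟨f⟩ := hT
    exact ⟨f, f.injective⟩
  obtain ⟨j, hj⟩ := hj
  have hwf : WellFounded (fun s t : T => j s < j t) :=
    InvImage.wf j (wellFounded_lt (α := I₁))
  have step : ∀ (t : T) (f : ∀ s : T, j s < j t → I),
      ∃ b : I, (∀ ξ ∈ S t, ξ < b) ∧ ∀ s (h : j s < j t), f s h < b := by
    intro t f
    have hc : (S t ∪ Set.range (fun s : {s : T // j s < j t} => f s.1 s.2)).Countable := by
      refine (hS t).union ?_
      have : Countable {s : T // j s < j t} := by
        have h1 : (Set.Iio (j t)).Countable := countable_Iio_I₁ _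
        have : Countable (Set.Iio (j t)) := h1.to_subtype
        exact Function.Injective.countable
          (f := fun s : {s : T // j s < j t} => (⟨j s.1, s.2⟩ : Set.Iio (j t)))
          (fun a b h => by
            have := congrArg Subtype.val h
            exact Subtype.ext (hj this))
      exact Set.countable_range _
    obtain ⟨b, hb⟩ := exists_gt_of_countable hI hc
    exact ⟨b, fun ξ hξ => hb ξ (Or.inl hξ), fun s h => hb _ (Or.inr ⟨⟨s, h⟩, rfl⟩)⟩
  choose! g hg1 hg2 using step
  let reg : T → I := hwf.fix (fun t f => g t f)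
  have hreg : ∀ t, reg t = g t (fun s _ => reg s) := fun t => hwf.fix_eq _ t
  have hlt : ∀ s t, j s < j t → reg s < reg t := by
    intro s t h
    rw [hreg t]
    exact hg2 t (fun s _ => reg s) s h
  refine ⟨reg, ?_, ?_⟩
  · intro s t h
    rcases lt_trichotomy (j s) (j t) with h1 | h1 | h1
    · exact absurd h (hlt s t h1).ne
    · exact hj h1
    · exact absurd h (hlt t s h1).ne'
  · intro t ξ hξ
    rw [hreg t]
    exact hg1 t _ ξ hξ

/-- Under CH, the type of sequences of (rational functional on `I₁`, index) has size `≤ ℵ₁`. -/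
theorem mk_seq_le (hCH : Cardinal.mk ℝ = Cardinal.aleph 1) :
    Cardinal.mk (ℕ → (I₁ →₀ ℚ) × ℕ) ≤ Cardinal.aleph 1 := by
  have h1 : Cardinal.mk (I₁ →₀ ℚ) ≤ Cardinal.aleph 1 := by
    rw [Cardinal.mk_finsupp_lift_of_infinite']
    simp
  have h2 : Cardinal.mk ((I₁ →₀ ℚ) × ℕ) ≤ Cardinal.aleph 1 := by
    rw [Cardinal.mk_prod]
    simp only [Cardinal.lift_id, Cardinal.mk_eq_aleph0]
    exact (Cardinal.mul_le_max_of_aleph0_le_right le_rfl).trans
      (max_le h1 (Cardinal.aleph0_le_aleph 1))
  have hc : Cardinal.aleph 1 = Cardinal.continuum := by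
    rw [← hCH, Cardinal.mk_real]
  have h3 : Cardinal.mk (ℕ → (I₁ →₀ ℚ) × ℕ) = Cardinal.mk ((I₁ →₀ ℚ) × ℕ) ^ Cardinal.aleph0 := by
    simp
  rw [h3]
  calc Cardinal.mk ((I₁ →₀ ℚ) × ℕ) ^ Cardinal.aleph0
      ≤ Cardinal.aleph 1 ^ Cardinal.aleph0 := Cardinal.power_le_power_right h2
    _ = Cardinal.aleph 1 := by rw [hc, Cardinal.continuum_power_aleph0]

end Crest.Agent.R114
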