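import Mathlib

/-! Index set `ω₁`, labels and registration under CH (helper429). -/

set_option autoImplicit false

namespace Crest.Agent.R114

open Set Cardinal

section Bdd
variable {I : Type*} [LinearOrder I]

/-- In an uncountable linear order with countable initial segments every countable set is
strictly bounded above. -/
theorem exists_gt_of_countable [Uncountable I] (hI : ∀ a : I, (Set.Iic a).Countable)
    {S : Set I} (hS : S.Countable) : ∃ b : I, ∀ s ∈ S, s < b := by
  by_contra hcon
  push Not at hcon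
  have h1 : (⋃ s ∈ S, Set.Iic s) = Set.univ := by
    ext b
    simp only [mem_iUnion, mem_Iic, exists_prop, mem_univ, iff_true]
    exact hcon b
  have h2 : (⋃ s ∈ S, Set.Iic s).Countable := hS.biUnion fun s _ => hI s
  rw [h1] at h2
  exact Set.not_countable_univ h2

/-- Registration: every family `T` injecting into `I` can be enumerated injectively by `I` in such
a way that `reg t` lies strictly above the countable set `S t`. -/
theorem exists_reg_of_injective [WellFoundedLT I] [Uncountable I]
    (hI : ∀ a : I, (Set.Iic a).Countable) {T : Type*} (e : T → I) (he : Function.Injective e)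
    (S : T → Set I) (hS : ∀ t, (S t).Countable) :
    ∃ reg : T → I, Function.Injective reg ∧ ∀ t, ∀ ξ ∈ S t, ξ < reg t := by
  classical
  have hwf : WellFounded (fun t t' : T => e t < e t') := InvImage.wf e wellFounded_lt
  have hc : ∀ t : T, Countable {t' : T // e t' < e t} := by
    intro t
    have h1 : (Set.Iio (e t)).Countable := (hI (e t)).mono Set.Iio_subset_Iic_self
    have h2 : Countable (Set.Iio (e t)) := h1.to_subtype
    let f : {t' : T // e t' < e t} → Set.Iio (e t) := fun t' => ⟨e t'.1, t'.2⟩
    have hf : Function.Injective f := by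
      intro a b hab
      have : e a.1 = e b.1 := congrArg Subtype.val hab
      exact Subtype.ext (he this)
    exact hf.countable
  have key : ∀ (t : T) (ih : ∀ t' : T, e t' < e t → I),
      ∃ b : I, ∀ s ∈ S t ∪ Set.range (fun t' : {t' : T // e t' < e t} => ih t'.1 t'.2), s < b := by
    intro t ih
    have := hc t
    exact exists_gt_of_countable hI ((hS t).union (Set.countable_range _))
  let reg : T → I := hwf.fix (C := fun _ => I) (fun t ih => (key t ih).choose)
  have hreg : ∀ t, reg t = (key t (fun t' _ => reg t')).choose := by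
    intro t
    exact hwf.fix_eq (C := fun _ => I) (fun t ih => (key t ih).choose) t
  have hspec : ∀ t, ∀ s ∈ S t ∪ Set.range (fun t' : {t' : T // e t' < e t} => reg t'.1),
      s < reg t := by
    intro t
    have := (key t (fun t' _ => reg t')).choose_spec
    rw [← hreg t] at this
    exact this
  have hlt : ∀ t t', e t' < e t → reg t' < reg t := by
    intro t t' h
    exact hspec t _ (Or.inr ⟨⟨t', h⟩, rfl⟩)
  refine ⟨reg, ?_, fun t ξ hξ => hspec t ξ (Or.inl hξ)⟩
  intro a b hab
  by_contra hne
  have hne' : e a ≠ e b := fun h => hne (he h)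
  rcases lt_or_gt_of_ne hne' with h | h
  · exact absurd hab (hlt b a h).ne
  · exact absurd hab (hlt a b h).ne'

end Bdd

/-- The index set: the well-ordered set `ω₁`. -/
abbrev Om : Type := (Cardinal.aleph 1).ord.ToType

theorem mk_Om : Cardinal.mk Om = Cardinal.aleph 1 := Cardinal.mk_ord_toType _

instance : Uncountable Om := by
  rw [← Cardinal.aleph0_lt_mk_iff, mk_Om]
  exact Cardinal.aleph0_lt_aleph_one

instance : Infinite Om := inferInstance

theorem Om.countable_Iio (a : Om) : (Set.Iio a).Countable := by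
  rw [← Cardinal.le_aleph0_iff_set_countable]
  have h1 : (Cardinal.mk Om).ord = Ordinal.type (fun x1 x2 : Om => x1 < x2) := by
    rw [mk_Om, Ordinal.type_toType]
  have h := Cardinal.mk_Iio_lt a h1
  have h2 : Cardinal.mk (Set.Iio a) < Order.succ ℵ₀ := by
    rw [Cardinal.succ_aleph0]; exact h.trans_eq mk_Om
  exact Order.lt_succ_iff.1 h2

theorem Om.countable_Iic (a : Om) : (Set.Iic a).Countable := by
  rw [← Set.Iio_insert]
  exact (Om.countable_Iio a).insert a

theorem Om.exists_gt {S : Set Om} (hS : S.Countable) : ∃ b : Om, ∀ s ∈ S, s < b :=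
  exists_gt_of_countable Om.countable_Iic hS

instance : NoMaxOrder Om :=
  ⟨fun a => by
    obtain ⟨b, hb⟩ := Om.exists_gt (Set.countable_singleton a)
    exact ⟨b, hb a rfl⟩⟩

instance : Nonempty Om := inferInstance

/-- labels -/
theorem exists_labels : ∃ x : Om → ℕ → Bool, Function.Injective x := by
  have h : Cardinal.mk Om ≤ Cardinal.mk (ℕ → Bool) := by
    rw [mk_Om]
    simp only [mk_pi, mk_bool, prod_const, lift_id, mk_nat]
    simpa using Cardinal.aleph_one_le_continuum
  obtain ⟨f⟩ := h
  exact ⟨f, f.injective⟩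

/-- sequences of pairs (rational functional, index) under CH -/
theorem mk_seq_le (hCH : Cardinal.mk ℝ = Cardinal.aleph 1) :
    Cardinal.mk (ℕ → (Om →₀ ℚ) × ℕ) ≤ Cardinal.aleph 1 := by
  have hc : Cardinal.aleph 1 = Cardinal.continuum := by rw [← hCH, Cardinal.mk_real]
  have h1 : Cardinal.mk ((Om →₀ ℚ) × ℕ) ≤ Cardinal.continuum := by
    rw [Cardinal.mk_prod, Cardinal.mk_finsupp_of_infinite, mk_Om, hc]
    simp only [mk_nat, lift_id]
    rw [show Cardinal.mk ℚ = ℵ₀ from Cardinal.mk_denumerable _,
      max_eq_left Cardinal.aleph0_le_continuum, Cardinal.continuum_mul_aleph0]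
  calc Cardinal.mk (ℕ → (Om →₀ ℚ) × ℕ) = Cardinal.mk ((Om →₀ ℚ) × ℕ) ^ ℵ₀ := by simp
    _ ≤ Cardinal.continuum ^ ℵ₀ := Cardinal.power_le_power_right h1
    _ = Cardinal.continuum := Cardinal.continuum_power_aleph0
    _ = Cardinal.aleph 1 := hc.symm

/-- Registration under CH. -/
theorem exists_reg (hCH : Cardinal.mk ℝ = Cardinal.aleph 1)
    (T : Set (ℕ → (Om →₀ ℚ) × ℕ)) :
    ∃ reg : T → Om, Function.Injective reg ∧
      ∀ (t : T) (n : ℕ), ∀ ξ ∈ ((t : ℕ → (Om →₀ ℚ) × ℕ) n).1.support, ξ < reg t := by
  have h : Cardinal.mk T ≤ Cardinal.mk Om := by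
    rw [mk_Om]
    exact (Cardinal.mk_set_le T).trans (mk_seq_le hCH)
  obtain ⟨e⟩ := h
  obtain ⟨reg, h1, h2⟩ := exists_reg_of_injective Om.countable_Iic e e.injective
    (fun t : T => ⋃ n : ℕ, (((t : ℕ → (Om →₀ ℚ) × ℕ) n).1.support : Set Om))
    (fun t => Set.countable_iUnion fun n => (Finset.countable_toSet _))
  refine ⟨reg, h1, fun t n ξ hξ => h2 t ξ ?_⟩
  exact Set.mem_iUnion.2 ⟨n, by exact_mod_cast hξ⟩

end Crest.Agent.R114
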