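import Crest.Agent.R114.VSpace
import Crest.Agent.R114.Index
import Crest.Agent.R114.Trec

/-! # Row 114, S0152 (g2): instantiation of the recursion `TData` on `VV c 𝕜`. (helper430) -/

set_option autoImplicit false

open Set Filter Topology

namespace Crest.Agent.R114

/-! ### local versions of the span statements of `TData` -/

namespace TData

section
variable {𝕜 : Type*} [RCLike 𝕜] {V : Type*} [NormedAddCommGroup V] [NormedSpace 𝕜 V]
  {I : Type*} [LinearOrder I] (d : TData 𝕜 V I) [WellFoundedLT I]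

/-- `e_ξ + T ξ K` lies in the span of the generators of index `≤ ξ`. -/
theorem est_add_T_mem_local (ξ : I) :
    ∀ K, d.est ξ + d.T ξ K ∈ Submodule.span 𝕜 (d.gen '' Set.Iic ξ) := by
  induction ξ using WellFoundedLT.induction with
  | ind ξ ih =>
    intro K
    induction K with
    | zero => exact Submodule.subset_span ⟨ξ, le_refl ξ, rfl⟩
    | succ K ihK =>
      have h1 : d.ev (d.b ξ K) + d.D (d.b ξ K) ∈ Submodule.span 𝕜 (d.gen '' Set.Iic ξ) := by
        unfold D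
        rw [ev_add_eq]
        refine Submodule.sum_mem _ fun η hη => Submodule.smul_mem _ _ ?_
        have hlt := d.lt_of_mem ξ K η hη
        exact Submodule.span_mono (Set.image_mono (Set.Iic_subset_Iic.2 hlt.le))
          (ih η hlt _)
      have h2 : d.est ξ + d.T ξ (K + 1) =
          (d.est ξ + d.T ξ K) - (d.ev (d.b ξ K) + d.D (d.b ξ K)) := by
        rw [d.T_succ ξ K]; abel
      rw [h2]
      exact Submodule.sub_mem _ ihK h1

/-- local version of `lift_mem` -/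
theorem lift_mem_local (c : I →₀ ℚ) (K : ℕ) (S : Set I) (hS : IsLowerSet S)
    (hc : ∀ η ∈ c.support, η ∈ S) : d.lift c K ∈ Submodule.span 𝕜 (d.gen '' S) := by
  unfold lift
  rw [ev_add_eq]
  refine Submodule.sum_mem _ fun η hη => Submodule.smul_mem _ _ ?_
  refine Submodule.span_mono (Set.image_mono ?_) (d.est_add_T_mem_local η _)
  intro a ha
  exact hS ha (hc η hη)

/-- If all coordinates and all tails of index `ξ` are unchanged by an operator `R`, so are the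
`T ξ K`. -/
theorem T_apply_eq (R : V →L[𝕜] V) (v : V) (S : Set I) (hS : IsLowerSet S)
    (hR : ∀ ξ ∈ S, ∀ K, d.S ξ K (R v) = d.S ξ K v) :
    ∀ ξ ∈ S, ∀ K, d.T ξ K (R v) = d.T ξ K v := by
  intro ξ
  induction ξ using WellFoundedLT.induction with
  | ind ξ ih =>
    intro hξ K
    have hs : Summable fun l => d.D (d.b ξ (l + K)) :=
      (summable_nat_add_iff (f := fun l => d.D (d.b ξ l)) K).2 (d.summable_norm_D ξ).of_norm
    have hev : ∀ w : V, (∑' l, d.D (d.b ξ (l + K))) w = ∑' l, d.D (d.b ξ (l + K)) w := by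
      intro w
      have := (ContinuousLinearMap.apply 𝕜 𝕜 w).hasSum hs.hasSum
      exact this.tsum_eq.symm
    rw [d.T_eq, _root_.add_apply, _root_.add_apply, hR ξ hξ K,
      hev, hev]
    congr 1
    refine tsum_congr fun l => ?_
    unfold D
    simp only [FunLike.coe_sum, Finset.sum_apply, FunLike.coe_smul,
      Pi.smul_apply]
    refine Finset.sum_congr rfl fun η hη => ?_
    have hlt := d.lt_of_mem ξ (l + K) η hη
    rw [ih η hlt (hS hlt.le hξ)]

end

end TData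

/-! ### special sequences -/

section special
variable {I : Type} [LinearOrder I] {c : Coding I}

lemma IsSpecialSeq.coded {t : ℕ → (I →₀ ℚ) × ℕ} (ht : IsSpecialSeq c t) : IsCodedSeq c t :=
  fun n => (ht n).coded

lemma IsSpecialSeq.isW {t : ℕ → (I →₀ ℚ) × ℕ} (ht : IsSpecialSeq c t) (l : ℕ) :
    IsW (NB c) (t l).2 (t l).1 := by
  refine (ht (l + 1)).wt (t l) ?_
  unfold pre
  rw [List.mem_ofFn]
  exact ⟨⟨l, Nat.lt_succ_self l⟩, rfl⟩

lemma IsSpecialSeq.abs_le {t : ℕ → (I →₀ ℚ) × ℕ} (ht : IsSpecialSeq c t) (l : ℕ) (η : I) :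
    |(((t l).1 η : ℚ) : ℝ)| ≤ ((mq (t l).2 : ℝ))⁻¹ := by
  have h := (ht.isW l).abs_le η
  have h2 : ((|(t l).1 η| : ℚ) : ℝ) ≤ (((mq (t l).2 : ℚ)⁻¹ : ℚ) : ℝ) := by exact_mod_cast h
  push_cast at h2
  exact h2

lemma IsSpecialSeq.le_idx {t : ℕ → (I →₀ ℚ) × ℕ} (ht : IsSpecialSeq c t) (l : ℕ) :
    l ≤ (t l).2 := ht.coded.idx_strictMono.le_apply

lemma inv_mq_le (j l : ℕ) (h : l ≤ j) : ((mq j : ℝ))⁻¹ ≤ (1 / 2 : ℝ) ^ l := by
  unfold mq
  push_cast
  rw [one_div, inv_pow]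
  apply inv_anti₀ (by positivity)
  calc (2 : ℝ) ^ l ≤ 2 ^ (j + 1) := pow_le_pow_right₀ (by norm_num) (by omega)
    _ ≤ 16 ^ (j + 1) := pow_le_pow_left₀ (by norm_num) (by norm_num) _

lemma IsSpecialSeq.summable {t : ℕ → (I →₀ ℚ) × ℕ} (ht : IsSpecialSeq c t) :
    Summable fun l => ((mq (t l).2 : ℝ))⁻¹ := by
  refine Summable.of_nonneg_of_le (fun l => by positivity) (fun l => inv_mq_le _ l (ht.le_idx l))
    (summable_geometric_of_lt_one (by norm_num) (by norm_num))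

end special

/-! ### the instance -/

section inst
variable {I : Type} [LinearOrder I] {c : Coding I}

open Classical in
/-- the registered sequence at `ξ`, if any -/
noncomputable def seqAt (r : Reg c) (ξ : I) : Option {t : ℕ → (I →₀ ℚ) × ℕ // IsSpecialSeq c t} :=
  if h : ∃ t, r.reg t = ξ then some h.choose else none

lemma seqAt_reg (r : Reg c) (t : {t : ℕ → (I →₀ ℚ) × ℕ // IsSpecialSeq c t}) :
    seqAt r (r.reg t) = some t := by
  classical
  have h : ∃ t', r.reg t' = r.reg t := ⟨t, rfl⟩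
  unfold seqAt
  rw [dif_pos h]
  congr 1
  exact r.inj h.choose_spec

lemma reg_of_seqAt {r : Reg c} {ξ : I} {t : {t : ℕ → (I →₀ ℚ) × ℕ // IsSpecialSeq c t}}
    (h : seqAt r ξ = some t) : r.reg t = ξ := by
  classical
  unfold seqAt at h
  split_ifs at h with h'
  rw [Option.some.injEq] at h
  rw [← h]
  exact h'.choose_spec

/-- the functionals of the sequence registered at `ξ` -/
noncomputable def bAt (r : Reg c) (ξ : I) (l : ℕ) : I →₀ ℚ :=
  (seqAt r ξ).elim 0 fun t => (t.1 l).1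

/-- the weights of the sequence registered at `ξ` -/
noncomputable def wAt (r : Reg c) (ξ : I) (l : ℕ) : ℝ :=
  (seqAt r ξ).elim 0 fun t => ((mq (t.1 l).2 : ℝ))⁻¹

/-- the tails of the sequence registered at `ξ` -/
noncomputable def SAt (r : Reg c) (𝕜 : Type) [RCLike 𝕜] (ξ : I) (K : ℕ) :
    StrongDual 𝕜 (VV c 𝕜) :=
  (seqAt r ξ).elim 0 fun t => tailV c 𝕜 t.1 K

variable {𝕜 : Type} [RCLike 𝕜]

@[simp] lemma bAt_reg (r : Reg c) (t : {t : ℕ → (I →₀ ℚ) × ℕ // IsSpecialSeq c t}) (l : ℕ) :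
    bAt r (r.reg t) l = (t.1 l).1 := by
  unfold bAt; rw [seqAt_reg]; rfl

@[simp] lemma wAt_reg (r : Reg c) (t : {t : ℕ → (I →₀ ℚ) × ℕ // IsSpecialSeq c t}) (l : ℕ) :
    wAt r (r.reg t) l = ((mq (t.1 l).2 : ℝ))⁻¹ := by
  unfold wAt; rw [seqAt_reg]; rfl

@[simp] lemma SAt_reg (r : Reg c) (t : {t : ℕ → (I →₀ ℚ) × ℕ // IsSpecialSeq c t}) (K : ℕ) :
    SAt r 𝕜 (r.reg t) K = tailV c 𝕜 t.1 K := by
  unfold SAt; rw [seqAt_reg]; rfl

lemma bAt_none {r : Reg c} {ξ : I} (h : seqAt r ξ = none) (l : ℕ) : bAt r ξ l = 0 := by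
  unfold bAt; rw [h]; rfl

lemma wAt_none {r : Reg c} {ξ : I} (h : seqAt r ξ = none) (l : ℕ) : wAt r ξ l = 0 := by
  unfold wAt; rw [h]; rfl

lemma SAt_none {r : Reg c} {ξ : I} (h : seqAt r ξ = none) (K : ℕ) : SAt r 𝕜 ξ K = 0 := by
  unfold SAt; rw [h]; rfl

/-- tails tend to zero pointwise -/
lemma tailV_tendsto {t : ℕ → (I →₀ ℚ) × ℕ} (ht : IsSpecialSeq c t) (v : VV c 𝕜) :
    Tendsto (fun K => tailV c 𝕜 t K v) atTop (𝓝 0) := by
  rw [Metric.tendsto_atTop]
  intro ε hε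
  obtain ⟨f, hf⟩ := exists_vec_near v hε
  obtain ⟨N, hN⟩ := eventually_atTop.1 (tailV_vec_eventually (𝕜 := 𝕜) ht f)
  refine ⟨N, fun K hK => ?_⟩
  rw [dist_zero_right]
  have h1 : tailV c 𝕜 t K v = tailV c 𝕜 t K (v - vec c f) := by
    rw [map_sub, hN K hK, sub_zero]
  rw [h1]
  calc ‖tailV c 𝕜 t K (v - vec c f)‖ ≤ ‖tailV c 𝕜 t K‖ * ‖v - vec c f‖ :=
        ContinuousLinearMap.le_opNorm _ _
    _ ≤ 1 * ‖v - vec c f‖ := mul_le_mul_of_nonneg_right (norm_tailV_le t K) (norm_nonneg _)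
    _ < ε := by rw [one_mul]; exact hf

lemma exists_rat_near_unit {x δ : ℝ} (hx : |x| ≤ 1) (hδ : 0 < δ) :
    ∃ q : ℚ, |q| ≤ 1 ∧ |(q : ℝ) - x| ≤ δ := by
  have hδ' : 0 < min δ 1 := lt_min hδ one_pos
  obtain ⟨h1, h2⟩ := abs_le.1 hx
  rcases le_or_gt 0 x with h0 | h0
  · obtain ⟨q, hq1, hq2⟩ := exists_rat_btwn (show x - min δ 1 < x by linarith)
    have h3 : min δ 1 ≤ δ := min_le_left _ _
    have h4 : min δ 1 ≤ 1 := min_le_right _ _
    refine ⟨q, ?_, ?_⟩
    · rw [abs_le]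
      constructor
      · have : (-1 : ℝ) ≤ q := by linarith
        exact_mod_cast this
      · have : (q : ℝ) ≤ 1 := by linarith
        exact_mod_cast this
    · rw [abs_le]; constructor <;> linarith
  · obtain ⟨q, hq1, hq2⟩ := exists_rat_btwn (show x < x + min δ 1 by linarith)
    have h3 : min δ 1 ≤ δ := min_le_left _ _
    have h4 : min δ 1 ≤ 1 := min_le_right _ _
    refine ⟨q, ?_, ?_⟩
    · rw [abs_le]
      constructor
      · have : (-1 : ℝ) ≤ q := by linarith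
        exact_mod_cast this
      · have : (q : ℝ) ≤ 1 := by linarith
        exact_mod_cast this
    · rw [abs_le]; constructor <;> linarith

/-- from rational coefficients to scalars of modulus at most one (abstract) -/
lemma norm_sum_smul_le_of_rat {E : Type*} [NormedAddCommGroup E] [NormedSpace 𝕜 E] {ι : Type*}
    (s : Finset ι) (φ : ι → E)
    (h : ∀ ε : ι → ℚ, (∀ u, |ε u| ≤ 1) → ‖∑ u ∈ s, ((ε u : ℚ) : 𝕜) • φ u‖ ≤ 1)
    (lam : ι → 𝕜) (hlam : ∀ u ∈ s, ‖lam u‖ ≤ 1) : ‖∑ u ∈ s, lam u • φ u‖ ≤ 2 := by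
  classical
  -- real coefficients
  have hreal : ∀ x : ι → ℝ, (∀ u, |x u| ≤ 1) → ‖∑ u ∈ s, ((x u : ℝ) : 𝕜) • φ u‖ ≤ 1 := by
    intro x hx
    refine le_of_forall_pos_le_add fun δ hδ => ?_
    set B : ℝ := ∑ u ∈ s, ‖φ u‖ with hB
    have hB0 : 0 ≤ B := Finset.sum_nonneg fun _ _ => norm_nonneg _
    choose q hq1 hq2 using fun u => exists_rat_near_unit (hx u)
      (show 0 < δ / (B + 1) by positivity)
    have e1 : ∑ u ∈ s, ((x u : ℝ) : 𝕜) • φ u = ∑ u ∈ s, ((q u : ℚ) : 𝕜) • φ u +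
        ∑ u ∈ s, (((x u - (q u : ℝ) : ℝ)) : 𝕜) • φ u := by
      rw [← Finset.sum_add_distrib]
      refine Finset.sum_congr rfl fun u _ => ?_
      rw [← add_smul]
      congr 1
      push_cast
      ring
    rw [e1]
    refine (norm_add_le _ _).trans (add_le_add (h q hq1) ?_)
    refine (norm_sum_le _ _).trans ?_
    calc ∑ u ∈ s, ‖(((x u - (q u : ℝ) : ℝ)) : 𝕜) • φ u‖
        ≤ ∑ u ∈ s, δ / (B + 1) * ‖φ u‖ := by
          refine Finset.sum_le_sum fun u _ => ?_
          rw [norm_smul, RCLike.norm_ofReal]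
          refine mul_le_mul_of_nonneg_right ?_ (norm_nonneg _)
          rw [abs_sub_comm]; exact hq2 u
      _ = δ / (B + 1) * B := by rw [← Finset.mul_sum]
      _ ≤ δ := by
          rw [div_mul_eq_mul_div, div_le_iff₀ (by positivity)]
          nlinarith
  -- truncated coefficients, real and imaginary parts
  let lam' : ι → 𝕜 := fun u => if u ∈ s then lam u else 0
  have hlam' : ∀ u, ‖lam' u‖ ≤ 1 := by
    intro u
    by_cases hu : u ∈ s
    · simp only [lam', hu, if_true]; exact hlam u hu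
    · simp only [lam', hu, if_false, norm_zero]; exact zero_le_one
  have e2 : ∑ u ∈ s, lam u • φ u = ∑ u ∈ s, ((RCLike.re (lam' u) : ℝ) : 𝕜) • φ u +
      (RCLike.I : 𝕜) • ∑ u ∈ s, ((RCLike.im (lam' u) : ℝ) : 𝕜) • φ u := by
    rw [Finset.smul_sum, ← Finset.sum_add_distrib]
    refine Finset.sum_congr rfl fun u hu => ?_
    rw [smul_smul, ← add_smul]
    congr 1
    simp only [lam', hu, if_true]
    rw [mul_comm]
    exact (RCLike.re_add_im (lam u)).symm
  have h1 := hreal (fun u => RCLike.re (lam' u))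
    (fun u => (RCLike.abs_re_le_norm _).trans (hlam' u))
  have h2 := hreal (fun u => RCLike.im (lam' u))
    (fun u => (RCLike.abs_im_le_norm _).trans (hlam' u))
  have hI : ‖(RCLike.I : 𝕜)‖ ≤ 1 := by
    rw [RCLike.norm_I]; split_ifs <;> norm_num
  rw [e2]
  refine (norm_add_le _ _).trans ?_
  rw [norm_smul]
  have h3 : ‖(RCLike.I : 𝕜)‖ * ‖∑ u ∈ s, ((RCLike.im (lam' u) : ℝ) : 𝕜) • φ u‖ ≤ 1 * 1 :=
    mul_le_mul hI h2 (norm_nonneg _) zero_le_one
  linarith

/-- the uniform bound for combinations of far tails -/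
lemma SAt_bound (r : Reg c) (F : Finset I) : ∀ᶠ K in atTop, ∀ lam : I → 𝕜,
    (∀ ξ ∈ F, ‖lam ξ‖ ≤ 1) → ‖∑ ξ ∈ F, lam ξ • SAt r 𝕜 ξ K‖ ≤ 2 := by
  classical
  -- the registered points of `F`
  let A : Finset I := F.filter fun ξ => ∃ t, r.reg t = ξ
  have hA : ∀ ξ ∈ A, ∃ t, r.reg t = ξ := fun ξ hξ => (Finset.mem_filter.1 hξ).2
  let n := A.card
  let e : Fin n ≃ A := A.equivFin.symm
  choose s hs using fun u : Fin n => hA (e u).1 (e u).2
  have hsinj : Function.Injective s := by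
    intro u v huv
    have : (e u).1 = (e v).1 := by rw [← hs u, ← hs v, huv]
    exact e.injective (Subtype.ext this)
  -- a bound for the common indices
  have hfin : ∀ u v : Fin n, u ≠ v → ∃ M : ℕ, ∀ l l', ((s u).1 l).2 = ((s v).1 l').2 →
      ((s u).1 l).2 ≤ M := by
    intro u v huv
    have hne : (s u).1 ≠ (s v).1 := fun h => huv (hsinj (Subtype.ext h))
    have hf := IsCodedSeq.almost_disjoint (s u).2.coded (s v).2.coded hne
    obtain ⟨M, hM⟩ := hf.bddAbove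
    exact ⟨M, fun l l' h => hM ⟨l, l', rfl, h.symm⟩⟩
  choose! M hM using hfin
  let M0 : ℕ := ∑ u : Fin n, ∑ v : Fin n, M u v
  have hM0 : ∀ u v, M u v ≤ M0 := by
    intro u v
    calc M u v ≤ ∑ v : Fin n, M u v :=
          Finset.single_le_sum (f := fun v => M u v) (fun _ _ => Nat.zero_le _) (Finset.mem_univ v)
      _ ≤ M0 := Finset.single_le_sum (f := fun u => ∑ v : Fin n, M u v)
          (fun _ _ => Nat.zero_le _) (Finset.mem_univ u)
  filter_upwards [eventually_ge_atTop (n + M0 + 1)] with K hK lam hlam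
  have hn : ∀ u, n ≤ ((s u).1 K).2 := fun u => by
    have := (s u).2.le_idx K
    omega
  have hd : ∀ u v, u ≠ v → ∀ l ≥ K, ∀ l' ≥ K, ((s u).1 l).2 ≠ ((s v).1 l').2 := by
    intro u v huv l hl l' _ h
    have h1 := hM u v huv l l' h
    have h2 := (s u).2.le_idx l
    have h3 := hM0 u v
    omega
  have hrat : ∀ ε : Fin n → ℚ, (∀ u, |ε u| ≤ 1) →
      ‖∑ u, ((ε u : ℚ) : 𝕜) • tailV c 𝕜 (s u).1 K‖ ≤ 1 := fun ε hε =>
    norm_sum_tailV_le (fun u => (s u).1) (fun u => (s u).2) ε hε K hn hd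
  have h1 := norm_sum_smul_le_of_rat (𝕜 := 𝕜) Finset.univ (fun u => tailV c 𝕜 (s u).1 K) hrat
    (fun u => lam (e u).1) (fun u _ => hlam _ (Finset.mem_filter.1 (e u).2).1)
  have h2 : ∑ ξ ∈ F, lam ξ • SAt r 𝕜 ξ K = ∑ u, lam (e u).1 • tailV c 𝕜 (s u).1 K := by
    have h3 : ∑ ξ ∈ F, lam ξ • SAt r 𝕜 ξ K = ∑ ξ ∈ A, lam ξ • SAt r 𝕜 ξ K := by
      refine (Finset.sum_subset (Finset.filter_subset _ _) fun ξ hξ hξA => ?_).symm
      have h4 : ¬ ∃ t, r.reg t = ξ := fun h => hξA (Finset.mem_filter.2 ⟨hξ, h⟩)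
      have h5 : seqAt r ξ = none := by unfold seqAt; rw [dif_neg h4]
      rw [SAt_none h5]
      exact smul_zero (A := StrongDual 𝕜 (VV c 𝕜)) (lam ξ)
    rw [h3, ← Finset.sum_coe_sort A (fun ξ => lam ξ • SAt r 𝕜 ξ K)]
    rw [← Equiv.sum_comp e]
    refine Finset.sum_congr rfl fun u _ => ?_
    congr 1
    conv_lhs => rw [← hs u]
    exact SAt_reg r (s u) K
  rw [h2]
  exact h1

/-- **The data of the recursion on `VV c 𝕜`.** -/
noncomputable def tdata (r : Reg c) (𝕜 : Type) [RCLike 𝕜] : TData 𝕜 (VV c 𝕜) I where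
  est ξ := actV c 𝕜 (Finsupp.single ξ 1)
  b := bAt r
  w := wAt r
  S := SAt r 𝕜
  lt_of_mem ξ l η hη := by
    rcases h : seqAt r ξ with _ | t
    · rw [bAt_none h] at hη; simp at hη
    · have h' := reg_of_seqAt h
      subst h'
      rw [bAt_reg] at hη
      exact r.lt t l η hη
  w_summable ξ := by
    rcases h : seqAt r ξ with _ | t
    · have : wAt r ξ = fun _ => 0 := by ext l; exact wAt_none h l
      rw [this]; exact summable_zero
    · have h' := reg_of_seqAt h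
      subst h'
      have : wAt r (r.reg t) = fun l => ((mq (t.1 l).2 : ℝ))⁻¹ := by ext l; exact wAt_reg r t l
      rw [this]
      exact t.2.summable
  abs_le_w ξ l η := by
    rcases h : seqAt r ξ with _ | t
    · rw [bAt_none h, wAt_none h]; simp
    · have h' := reg_of_seqAt h
      subst h'
      rw [bAt_reg, wAt_reg]
      exact t.2.abs_le l η
  S_succ ξ K := by
    rcases h : seqAt r ξ with _ | t
    · rw [bAt_none h, SAt_none h, SAt_none h]; simp
    · have h' := reg_of_seqAt h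
      subst h'
      rw [bAt_reg, SAt_reg, SAt_reg, tailV_eq_add t.2 K, actV_eq_sum]
      rfl
  S_tendsto ξ v := by
    rcases h : seqAt r ξ with _ | t
    · have : (fun K => SAt r 𝕜 ξ K v) = fun _ => 0 := by
        ext K; rw [SAt_none h]; rfl
      rw [this]; exact tendsto_const_nhds
    · have h' := reg_of_seqAt h
      subst h'
      have : (fun K => SAt r 𝕜 (r.reg t) K v) = fun K => tailV c 𝕜 t.1 K v := by
        ext K; rw [SAt_reg]
      rw [this]
      exact tailV_tendsto t.2 v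
  S_bound := SAt_bound r

variable (r : Reg c)

lemma tdata_est (ξ : I) : (tdata r 𝕜).est ξ = actV c 𝕜 (Finsupp.single ξ 1) := rfl

lemma tdata_b_reg (t : {t : ℕ → (I →₀ ℚ) × ℕ // IsSpecialSeq c t}) (l : ℕ) :
    (tdata r 𝕜).b (r.reg t) l = (t.1 l).1 := bAt_reg r t l

lemma tdata_w_reg (t : {t : ℕ → (I →₀ ℚ) × ℕ // IsSpecialSeq c t}) (l : ℕ) :
    (tdata r 𝕜).w (r.reg t) l = ((mq (t.1 l).2 : ℝ))⁻¹ := wAt_reg r t l

lemma tdata_S_reg (t : {t : ℕ → (I →₀ ℚ) × ℕ // IsSpecialSeq c t}) (K : ℕ) :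
    (tdata r 𝕜).S (r.reg t) K = tailV c 𝕜 t.1 K := SAt_reg r t K

/-- evaluation of rational functionals is `actV` -/
lemma tdata_ev (b : I →₀ ℚ) : (tdata r 𝕜).ev b = actV c 𝕜 b := by
  rw [actV_eq_sum]; rfl

/-- the tails at `ξ` only see the coordinates below `ξ` -/
lemma tdata_S_RV (ξ : I) (K : ℕ) {E : Set I} (hE : E.OrdConnected) (h : Iio ξ ⊆ E)
    (v : VV c 𝕜) : (tdata r 𝕜).S ξ K (RV c 𝕜 hE v) = (tdata r 𝕜).S ξ K v := by
  show SAt r 𝕜 ξ K _ = SAt r 𝕜 ξ K _
  rcases h' : seqAt r ξ with _ | t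
  · rw [SAt_none h']; rfl
  · have h'' := reg_of_seqAt h'
    subst h''
    rw [SAt_reg]
    refine tailV_RV t.2 K hE (fun l a ha => h ?_) v
    exact r.lt t l a ha

variable [WellFoundedLT I]

/-- `T ξ K` only depends on the coordinates below `ξ` -/
theorem tdata_T_RV (ξ : I) (K : ℕ) {E : Set I} (hE : E.OrdConnected) (h : Iio ξ ⊆ E)
    (v : VV c 𝕜) : (tdata r 𝕜).T ξ K (RV c 𝕜 hE v) = (tdata r 𝕜).T ξ K v := by
  refine (tdata r 𝕜).T_apply_eq (RV c 𝕜 hE) v (Iic ξ) (isLowerSet_Iic ξ) ?_ ξ le_rfl K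
  intro η hη K
  exact tdata_S_RV r η K hE ((Iio_subset_Iio hη).trans h) v

/-- a generator is the tail functional plus the coordinate plus the corrections -/
theorem tdata_gen_reg (t : {t : ℕ → (I →₀ ℚ) × ℕ // IsSpecialSeq c t}) :
    (tdata r 𝕜).gen (r.reg t) = actV c 𝕜 (Finsupp.single (r.reg t) 1) +
      (tailV c 𝕜 t.1 0 + ∑' l, (tdata r 𝕜).D (t.1 l).1) := by
  unfold TData.gen
  rw [TData.T_eq, tdata_S_reg, tdata_est]
  congr 2
  exact tsum_congr fun l => by rw [add_zero, tdata_b_reg]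

/-- the expansion of `x_{reg t}` evaluated at a vector -/
theorem tdata_gen_reg_apply (t : {t : ℕ → (I →₀ ℚ) × ℕ // IsSpecialSeq c t}) (v : VV c 𝕜) :
    (tdata r 𝕜).gen (r.reg t) v - actV c 𝕜 (Finsupp.single (r.reg t) 1) v - tailV c 𝕜 t.1 0 v =
      ∑' l, (tdata r 𝕜).D (t.1 l).1 v := by
  have hs : Summable fun l => (tdata r 𝕜).D (t.1 l).1 := by
    have := ((tdata r 𝕜).summable_norm_D (r.reg t)).of_norm
    simpa only [tdata_b_reg] using this
  have hev : (∑' l, (tdata r 𝕜).D (t.1 l).1) v = ∑' l, (tdata r 𝕜).D (t.1 l).1 v :=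
    ((ContinuousLinearMap.apply 𝕜 𝕜 v).hasSum hs.hasSum).tsum_eq.symm
  rw [tdata_gen_reg, ← hev]
  simp only [_root_.add_apply]
  ring

/-- bound for the corrections along a special sequence -/
theorem tdata_norm_D_le (t : {t : ℕ → (I →₀ ℚ) × ℕ // IsSpecialSeq c t}) (l : ℕ) :
    ‖(tdata r 𝕜).D (t.1 l).1‖ ≤ 3 * ((mq (t.1 l).2 : ℝ))⁻¹ := by
  have := (tdata r 𝕜).norm_D_b_le (r.reg t) l
  rwa [tdata_b_reg, tdata_w_reg] at this

/-- **The property needed for `Frame.MainProp`.** If all functionals of `t` are carried by `Iio γ`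
then the corrections of `x_{reg t}` tend to zero along bounded sequences whose restrictions to the
sets `Iio ξ`, `ξ < γ`, tend to zero. -/
theorem tdata_gen_tendsto (t : {t : ℕ → (I →₀ ℚ) × ℕ // IsSpecialSeq c t}) (γ : I)
    (hγ : ∀ l, ∀ a ∈ (t.1 l).1.support, a < γ) (ψ : ℕ → VV c 𝕜)
    (hB : ∃ B : ℝ, ∀ n, ‖ψ n‖ ≤ B)
    (hψ : ∀ ξ < γ, Tendsto (fun n => RV c 𝕜 (E := Iio ξ) ordConnected_Iio (ψ n)) atTop (𝓝 0)) :
    Tendsto (fun n => (tdata r 𝕜).gen (r.reg t) (ψ n) -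
      actV c 𝕜 (Finsupp.single (r.reg t) 1) (ψ n) - tailV c 𝕜 t.1 0 (ψ n)) atTop (𝓝 0) := by
  obtain ⟨B, hB⟩ := hB
  have hB0 : 0 ≤ B := (norm_nonneg _).trans (hB 0)
  simp only [tdata_gen_reg_apply]
  have h0 : (0 : 𝕜) = ∑' _l : ℕ, (0 : 𝕜) := tsum_zero.symm
  rw [h0]
  refine tendsto_tsum_of_dominated_convergence
    (bound := fun l => 3 * ((mq (t.1 l).2 : ℝ))⁻¹ * B) ?_ ?_ ?_
  · exact (t.2.summable.mul_left 3).mul_right B
  · intro l
    -- a finite sum of terms tending to zero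
    have h1 : ∀ η ∈ (t.1 l).1.support, Tendsto (fun n => (((t.1 l).1 η : ℚ) : 𝕜) •
        (tdata r 𝕜).T η ((tdata r 𝕜).kappa (t.1 l).1.support) (ψ n)) atTop (𝓝 0) := by
      intro η hη
      have h2 := hψ η (hγ l η hη)
      have h3 : Tendsto (fun n => (tdata r 𝕜).T η ((tdata r 𝕜).kappa (t.1 l).1.support)
          (RV c 𝕜 (E := Iio η) ordConnected_Iio (ψ n))) atTop (𝓝 0) := by
        have := ((tdata r 𝕜).T η ((tdata r 𝕜).kappa (t.1 l).1.support)).continuous.tendsto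
          (0 : VV c 𝕜) |>.comp h2
        rwa [map_zero] at this
      have h4 := h3.const_smul (((t.1 l).1 η : ℚ) : 𝕜)
      rw [smul_zero] at h4
      refine h4.congr fun n => ?_
      rw [tdata_T_RV r η _ ordConnected_Iio subset_rfl]
    have h5 := tendsto_finsetSum (t.1 l).1.support h1
    rw [Finset.sum_const_zero] at h5
    refine h5.congr fun n => ?_
    unfold TData.D
    simp
  · refine Eventually.of_forall fun n l => ?_
    refine (ContinuousLinearMap.le_opNorm _ _).trans ?_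
    exact mul_le_mul (tdata_norm_D_le r t l) (hB n) (norm_nonneg _) (by positivity)

omit [WellFoundedLT I] in
/-- restriction does not change the coordinates in `E` -/
theorem actV_single_RV (ξ : I)
    {E : Set I} (hE : E.OrdConnected) (h : ξ ∈ E) (v : VV c 𝕜) :
    actV c 𝕜 (Finsupp.single ξ 1) (RV c 𝕜 hE v) = actV c 𝕜 (Finsupp.single ξ 1) v := by
  classical
  have : (actV c 𝕜 (Finsupp.single ξ 1)).comp (RV c 𝕜 hE) = actV c 𝕜 (Finsupp.single ξ 1) := by
    apply ext_vec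
    intro f
    rw [ContinuousLinearMap.comp_apply, RV_vec, actV_vec, actV_vec, act_single_left,
      act_single_left, cut_apply, if_pos h]
  exact congrArg (fun A : StrongDual 𝕜 (VV c 𝕜) => A v) this

omit [WellFoundedLT I] in
/-- restriction kills the coordinates outside `E` -/
theorem actV_single_RV_of_notMem (ξ : I) {E : Set I} (hE : E.OrdConnected) (h : ξ ∉ E) (v : VV c 𝕜) :
    actV c 𝕜 (Finsupp.single ξ 1) (RV c 𝕜 hE v) = 0 := by
  classical
  have : (actV c 𝕜 (Finsupp.single ξ 1)).comp (RV c 𝕜 hE) = 0 := by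
    apply ext_vec
    intro f
    rw [ContinuousLinearMap.comp_apply, RV_vec, actV_vec, act_single_left, cut_apply, if_neg h,
      mul_zero]
    rfl
  exact congrArg (fun A : StrongDual 𝕜 (VV c 𝕜) => A v) this

/-- the generators only depend on the coordinates `≤ ξ` -/
theorem tdata_gen_RV (ξ : I) {E : Set I} (hE : E.OrdConnected) (h : Iic ξ ⊆ E)
    (v : VV c 𝕜) : (tdata r 𝕜).gen ξ (RV c 𝕜 hE v) = (tdata r 𝕜).gen ξ v := by
  unfold TData.gen
  rw [_root_.add_apply, _root_.add_apply, tdata_est,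
    actV_single_RV ξ hE (h self_mem_Iic) v, tdata_T_RV r ξ 0 hE (Iio_subset_Iic_self.trans h)]

end inst

end Crest.Agent.R114
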