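import Crest.Agent.R114.TInst
import Crest.Agent.R114.FrameInst

/-! # Row 114, S0152: the recursion data satisfy the interface of `FrameInst` (helper430) -/

set_option autoImplicit false

open Set Filter Topology

namespace Crest.Agent.R114

variable {I : Type} [LinearOrder I] {c : Coding I} {𝕜 : Type} [RCLike 𝕜]

theorem tdata_inst (r : Reg c) : TInst r (tdata r 𝕜) where
  est _ := rfl
  b t ht l := tdata_b_reg r ⟨t, ht⟩ l
  S t ht K := tdata_S_reg r ⟨t, ht⟩ K
  S_zero ξ h K := by
    have : seqAt r ξ = none := by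
      unfold seqAt; rw [dif_neg]; rintro ⟨t, ht⟩; exact h t ht
    show SAt r 𝕜 ξ K = 0
    exact SAt_none this K

theorem exists_tinst (𝕜 : Type) [RCLike 𝕜] (r : Reg c) :
    ∃ d : TData 𝕜 (VV c 𝕜) I, TInst r d := ⟨tdata r 𝕜, tdata_inst r⟩

end Crest.Agent.R114
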