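import Mathlib
import Crest.Prelude.Def_ContinuumRVM

/-!
Row 114, statement S0153: definitions and interfaces.
-/

set_option autoImplicit false

open Filter Topology

namespace Crest.Agent.R114.V

/-- `X` has a separable infinite-dimensional quotient. -/
def SQ (𝕜 : Type*) [RCLike 𝕜] (X : Type*) [NormedAddCommGroup X] [NormedSpace 𝕜 X] : Prop :=
  ∃ M : Submodule 𝕜 X, IsClosed (M : Set X) ∧
      TopologicalSpace.SeparableSpace (X ⧸ M) ∧ ¬ FiniteDimensional 𝕜 (X ⧸ M)

end Crest.Agent.R114.V
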