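import Crest.Agent.R114.VDefs

/-!
Row 114, S0153, T1: functionals with norms tending to infinity that tend to zero on a dense set
give a separable infinite-dimensional quotient.
-/

set_option autoImplicit false

open Filter Topology

namespace Crest.Agent.R114.V

universe u
variable {𝕜 : Type} [RCLike 𝕜] {X : Type u} [NormedAddCommGroup X] [NormedSpace 𝕜 X]

namespace T1aux

/-- points at which the functionals tend to zero -/
def DD (f : ℕ → X →L[𝕜] 𝕜) : Submodule 𝕜 X where
  carrier := {x : X | Tendsto (fun n => f n x) atTop (𝓝 0)}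
  add_mem' := by
    intro a b ha hb
    have := Tendsto.add (f := fun n => f n a) (g := fun n => f n b) ha hb
    simpa using this
  zero_mem' := by simp
  smul_mem' := by
    intro c x hx
    have := Tendsto.const_mul (f := fun n => f n x) c hx
    simpa using this

theorem mem_DD {f : ℕ → X →L[𝕜] 𝕜} {x : X} :
    x ∈ DD f ↔ Tendsto (fun n => f n x) atTop (𝓝 0) := Iff.rfl

/-- a functional of large norm is large at some point of the dense subspace in the unit ball -/
theorem exists_large {f : ℕ → X →L[𝕜] 𝕜} (hD : Dense (DD f : Set X)) (g : X →L[𝕜] 𝕜) {r : ℝ}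
    (hr : 0 ≤ r) (hg : r < ‖g‖) : ∃ y ∈ DD f, ‖y‖ ≤ 1 ∧ r < ‖g y‖ := by
  obtain ⟨x, hx1, hx2⟩ := g.exists_lt_apply_of_lt_opNorm hg
  have hopen : IsOpen {y : X | ‖y‖ < 1 ∧ r < ‖g y‖} :=
    (isOpen_lt continuous_norm continuous_const).inter
      (isOpen_lt continuous_const (continuous_norm.comp g.continuous))
  obtain ⟨y, hy, hyD⟩ := hD.exists_mem_open hopen ⟨x, hx1, hx2⟩
  exact ⟨y, hy, hyD.1.le, hyD.2⟩

theorem exists_proj {f : ℕ → X →L[𝕜] 𝕜} (hf : Tendsto (fun n => ‖f n‖) atTop atTop)
    (hD : Dense (DD f : Set X)) (F : Finset ℕ) :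
    ∃ P : X →L[𝕜] X, (∀ x ∈ DD f, P x ∈ DD f) ∧ (∀ n ∈ F, ∀ x, f n (P x) = 0) ∧
      Tendsto (fun m => ‖(f m).comp P‖) atTop atTop := by
  classical
  induction F using Finset.induction_on with
  | empty =>
    refine ⟨ContinuousLinearMap.id 𝕜 X, fun x hx => hx, by simp, ?_⟩
    simpa using hf
  | insert n F hn ih =>
    obtain ⟨P, hP1, hP2, hP3⟩ := ih
    by_cases h0 : (f n).comp P = 0
    · refine ⟨P, hP1, ?_, hP3⟩
      intro m hm x
      rcases Finset.mem_insert.mp hm with rfl | hm
      · have := DFunLike.congr_fun h0 x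
        simpa using this
      · exact hP2 m hm x
    · obtain ⟨y, hyD, _, hy⟩ := exists_large hD ((f n).comp P) le_rfl (norm_pos_iff.mpr h0)
      have hy0 : f n (P y) ≠ 0 := norm_pos_iff.mp hy
      set v : X := (f n (P y))⁻¹ • P y with hv
      have hvD : v ∈ DD f := (DD f).smul_mem _ (hP1 y hyD)
      have hv1 : f n v = 1 := by
        rw [hv, map_smul, smul_eq_mul, inv_mul_cancel₀ hy0]
      refine ⟨P - ((f n).comp P).smulRight v, ?_, ?_, ?_⟩
      · intro x hx
        have : (P - ((f n).comp P).smulRight v) x = P x - (f n (P x)) • v := by simp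
        rw [this]
        exact (DD f).sub_mem (hP1 x hx) ((DD f).smul_mem _ hvD)
      · intro m hm x
        have : (P - ((f n).comp P).smulRight v) x = P x - (f n (P x)) • v := by simp
        rw [this, map_sub, map_smul, smul_eq_mul]
        rcases Finset.mem_insert.mp hm with rfl | hm
        · rw [hv1, mul_one, sub_self]
        · have h1 : f m v = 0 := by rw [hv, map_smul, hP2 m hm, smul_zero]
          rw [hP2 m hm, h1, mul_zero, sub_zero]
      · have hlim : Tendsto (fun m => ‖f m v‖ * ‖(f n).comp P‖) atTop (𝓝 0) := by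
          have h1 : Tendsto (fun m => ‖f m v‖) atTop (𝓝 0) := by
            have := (mem_DD.mp hvD).norm
            simpa using this
          have := h1.mul_const ‖(f n).comp P‖
          simpa using this
        have hlow : ∀ m, ‖(f m).comp P‖ + -(‖f m v‖ * ‖(f n).comp P‖) ≤
            ‖(f m).comp (P - ((f n).comp P).smulRight v)‖ := by
          intro m
          have h1 : (f m).comp P = (f m).comp (P - ((f n).comp P).smulRight v) +
              (f m v) • ((f n).comp P) := by
            ext x
            simp [mul_comm]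
          have h2 : ‖(f m).comp P‖ ≤ ‖(f m).comp (P - ((f n).comp P).smulRight v)‖ +
              ‖f m v‖ * ‖(f n).comp P‖ := by
            calc ‖(f m).comp P‖ = ‖(f m).comp (P - ((f n).comp P).smulRight v) +
                  (f m v) • ((f n).comp P)‖ := by rw [← h1]
              _ ≤ _ := norm_add_le _ _
              _ = _ := by rw [norm_smul]
          linarith
        have hneg : Tendsto (fun m => -(‖f m v‖ * ‖(f n).comp P‖)) atTop (𝓝 0) := by
          simpa using hlim.neg
        exact tendsto_atTop_mono hlow (hP3.atTop_add hneg)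

/-- the selection step -/
theorem exists_step {f : ℕ → X →L[𝕜] 𝕜} (hf : Tendsto (fun n => ‖f n‖) atTop atTop)
    (hD : Dense (DD f : Set X)) (s : Finset (ℕ × X × ℝ))
    (hs : ∀ p ∈ s, p.2.1 ∈ DD f ∧ 0 < p.2.2) :
    ∃ q : ℕ × X × ℝ, (q.2.1 ∈ DD f ∧ f q.1 q.2.1 = 1 ∧ ‖q.2.1‖ ≤ q.2.2 ∧ 0 < q.2.2 ∧ q.2.2 ≤ 1) ∧
      ∀ p ∈ s, f p.1 q.2.1 = 0 ∧ ‖f q.1 p.2.1‖ ≤ q.2.2 ∧ q.2.2 ≤ p.2.2 / 8 := by
  classical
  -- the size
  obtain ⟨ε, hε0, hε1, hεs⟩ : ∃ ε : ℝ, 0 < ε ∧ ε ≤ 1 ∧ ∀ p ∈ s, ε ≤ p.2.2 / 8 := by
    clear hf hD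
    induction s using Finset.induction_on with
    | empty => exact ⟨1, one_pos, le_rfl, by simp⟩
    | insert a s ha ih =>
      obtain ⟨ε, h0, h1, h2⟩ := ih (fun p hp => hs p (Finset.mem_insert_of_mem hp))
      have ha0 := (hs a (Finset.mem_insert_self a s)).2
      refine ⟨min ε (a.2.2 / 8), lt_min h0 (by positivity), (min_le_left _ _).trans h1, ?_⟩
      intro p hp
      rcases Finset.mem_insert.mp hp with rfl | hp
      · exact min_le_right _ _
      · exact (min_le_left _ _).trans (h2 p hp)
  obtain ⟨P, hP1, hP2, hP3⟩ := exists_proj hf hD (s.image fun p => p.1)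
  have hK : 0 < ‖P‖ + 1 := by positivity
  have hev1 : ∀ᶠ m in atTop, (‖P‖ + 1) / ε < ‖(f m).comp P‖ := hP3.eventually_gt_atTop _
  have hev2 : ∀ᶠ m in atTop, ∀ p ∈ s, ‖f m p.2.1‖ ≤ ε := by
    rw [Filter.eventually_all_finset]
    intro p hp
    have h1 : Tendsto (fun m => ‖f m p.2.1‖) atTop (𝓝 0) := by
      have := (mem_DD.mp (hs p hp).1).norm
      simpa using this
    exact (h1.eventually_lt_const hε0).mono fun m hm => hm.le
  obtain ⟨m, hm1, hm2⟩ := (hev1.and hev2).exists
  obtain ⟨y, hyD, hy1, hy2⟩ := exists_large hD ((f m).comp P) (by positivity) hm1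
  have hy2' : (‖P‖ + 1) / ε < ‖f m (P y)‖ := hy2
  have hpos : 0 < ‖f m (P y)‖ := lt_trans (by positivity) hy2'
  have hy0 : f m (P y) ≠ 0 := norm_pos_iff.mp hpos
  refine ⟨(m, (f m (P y))⁻¹ • P y, ε), ⟨?_, ?_, ?_, hε0, hε1⟩, ?_⟩
  · exact (DD f).smul_mem _ (hP1 y hyD)
  · simp only [map_smul, smul_eq_mul]
    exact inv_mul_cancel₀ hy0
  · simp only
    rw [norm_smul, norm_inv]
    have h1 : ‖P y‖ ≤ ‖P‖ + 1 := by
      calc ‖P y‖ ≤ ‖P‖ * ‖y‖ := P.le_opNorm y
        _ ≤ ‖P‖ * 1 := mul_le_mul_of_nonneg_left hy1 (norm_nonneg _)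
        _ ≤ ‖P‖ + 1 := by linarith
    have h2 : ‖P‖ + 1 ≤ ε * ‖f m (P y)‖ := by
      have := (div_lt_iff₀ hε0).mp hy2'
      linarith
    rw [inv_mul_le_iff₀ hpos]
    linarith
  · intro p hp
    refine ⟨?_, hm2 p hp, hεs p hp⟩
    simp only [map_smul]
    rw [hP2 p.1 (Finset.mem_image_of_mem _ hp), smul_zero]

end T1aux

open T1aux

theorem T1 [CompleteSpace X] (f : ℕ → X →L[𝕜] 𝕜)
    (hf : Tendsto (fun n => ‖f n‖) atTop atTop)
    (hD : Dense {x : X | Tendsto (fun n => f n x) atTop (𝓝 0)}) : SQ 𝕜 X := by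
  classical
  have hD' : Dense (DD f : Set X) := hD
  obtain ⟨s, hs1, hs2⟩ := exists_seq_of_forall_finset_exists
    (fun q : ℕ × X × ℝ => q.2.1 ∈ DD f ∧ f q.1 q.2.1 = 1 ∧ ‖q.2.1‖ ≤ q.2.2 ∧ 0 < q.2.2 ∧
      q.2.2 ≤ 1)
    (fun p q : ℕ × X × ℝ => f p.1 q.2.1 = 0 ∧ ‖f q.1 p.2.1‖ ≤ q.2.2 ∧ q.2.2 ≤ p.2.2 / 8)
    (fun s hs => exists_step hf hD' s fun p hp => ⟨(hs p hp).1, (hs p hp).2.2.2.1⟩)
  set N : ℕ → ℕ := fun k => (s k).1 with hN
  set x : ℕ → X := fun k => (s k).2.1 with hx
  have hxD : ∀ k, x k ∈ DD f := fun k => (hs1 k).1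
  have hx1 : ∀ k, f (N k) (x k) = 1 := fun k => (hs1 k).2.1
  have hε : ∀ k, (s k).2.2 ≤ (1 / 8) ^ k := by
    intro k
    induction k with
    | zero => simpa using (hs1 0).2.2.2.2
    | succ k ih =>
      have := (hs2 k (k + 1) (Nat.lt_succ_self k)).2.2
      rw [pow_succ]
      linarith
  have hxn : ∀ k, ‖x k‖ ≤ (1 / 8) ^ k := fun k => (hs1 k).2.2.1.trans (hε k)
  have hzero : ∀ j k, j < k → f (N j) (x k) = 0 := fun j k h => (hs2 j k h).1
  have hsmall : ∀ j k, j < k → ‖f (N k) (x j)‖ ≤ (1 / 8) ^ k := fun j k h =>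
    (hs2 j k h).2.1.trans (hε k)
  -- the subspace
  set M : Submodule 𝕜 X := ⨅ k, LinearMap.ker (f (N k) : X →ₗ[𝕜] 𝕜) with hM
  have hMmem : ∀ y, y ∈ M ↔ ∀ k, f (N k) y = 0 := by
    intro y
    simp [hM, Submodule.mem_iInf]
  have hMc : IsClosed (M : Set X) := by
    have : (M : Set X) = ⋂ k, {y | f (N k) y = 0} := by
      ext y
      simp [hMmem]
    rw [this]
    exact isClosed_iInter fun k => isClosed_eq (f (N k)).continuous continuous_const
  refine ⟨M, hMc, ?_, ?_⟩
  · -- separability
    -- decomposition of elements of `D`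
    have hdec : ∀ d ∈ DD f, ∃ z ∈ closure (Submodule.span 𝕜 (Set.range x) : Set X), d - z ∈ M := by
      intro d hd
      -- boundedness
      obtain ⟨B, hB⟩ : ∃ B : ℝ, ∀ n, ‖f n d‖ ≤ B := by
        have h1 : Tendsto (fun n => ‖f n d‖) atTop (𝓝 0) := by
          simpa using (mem_DD.mp hd).norm
        obtain ⟨B, hB⟩ := h1.bddAbove_range
        exact ⟨B, fun n => hB ⟨n, rfl⟩⟩
      have hB0 : 0 ≤ B := (norm_nonneg _).trans (hB 0)
      -- coefficients
      let a : ℕ → 𝕜 := fun k => Nat.strongRecOn (motive := fun _ => 𝕜) k fun k rec =>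
        f (N k) d - ∑ j : Fin k, rec j.1 j.2 * f (N k) (x j.1)
      have ha : ∀ k, a k = f (N k) d - ∑ j ∈ Finset.range k, a j * f (N k) (x j) := by
        intro k
        have h1 : a k = f (N k) d - ∑ j : Fin k, a j.1 * f (N k) (x j.1) := by
          simp only [a]
          rw [Nat.strongRecOn_eq]
        rw [h1, Finset.sum_range]
      have hab : ∀ k, ‖a k‖ ≤ 2 * B := by
        intro k
        induction k using Nat.strong_induction_on with
        | _ k ih =>
          rw [ha k]
          have h1 : ‖∑ j ∈ Finset.range k, a j * f (N k) (x j)‖ ≤ k * (2 * B * (1 / 8) ^ k) := by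
            refine (norm_sum_le _ _).trans ?_
            refine (Finset.sum_le_card_nsmul _ _ (2 * B * (1 / 8) ^ k) fun j hj => ?_).trans
              (le_of_eq ?_)
            · rw [norm_mul]
              have hj' := Finset.mem_range.mp hj
              exact mul_le_mul (ih j hj') (hsmall j k hj') (norm_nonneg _) (by positivity)
            · rw [Finset.card_range, nsmul_eq_mul]
          have h2 : (k : ℝ) * (2 * B * (1 / 8) ^ k) ≤ B := by
            have h3 : (k : ℝ) * (1 / 8) ^ k ≤ 1 / 2 := by
              have h4 : (k : ℝ) * 2 ≤ 8 ^ k := by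
                have h5 : k * 2 ≤ 8 ^ k := by
                  clear ih h1
                  induction k with
                  | zero => simp
                  | succ k ih =>
                    have h6 : 1 ≤ 8 ^ k := Nat.one_le_pow _ _ (by norm_num)
                    rw [pow_succ]; omega
                exact_mod_cast h5
              rw [one_div, inv_pow, ← div_eq_mul_inv, div_le_iff₀ (by positivity)]
              linarith
            calc (k : ℝ) * (2 * B * (1 / 8) ^ k) = 2 * B * ((k : ℝ) * (1 / 8) ^ k) := by ring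
              _ ≤ 2 * B * (1 / 2) := mul_le_mul_of_nonneg_left h3 (by positivity)
              _ = B := by ring
          calc ‖f (N k) d - ∑ j ∈ Finset.range k, a j * f (N k) (x j)‖
              ≤ ‖f (N k) d‖ + ‖∑ j ∈ Finset.range k, a j * f (N k) (x j)‖ := norm_sub_le _ _
            _ ≤ B + B := add_le_add (hB _) (h1.trans h2)
            _ = 2 * B := by ring
      have hsum : Summable fun k => a k • x k := by
        refine Summable.of_norm_bounded (g := fun k => 2 * B * (1 / 8) ^ k)
          ((summable_geometric_of_lt_one (by norm_num) (by norm_num)).mul_left _) fun k => ?_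
        rw [norm_smul]
        exact mul_le_mul (hab k) (hxn k) (norm_nonneg _) (by positivity)
      refine ⟨∑' k, a k • x k, ?_, ?_⟩
      · have hlim := hsum.hasSum.tendsto_sum_nat
        refine mem_closure_of_tendsto hlim (Eventually.of_forall fun n => ?_)
        exact Submodule.sum_mem _ fun k _ => Submodule.smul_mem _ _
          (Submodule.subset_span ⟨k, rfl⟩)
      · rw [hMmem]
        intro k
        rw [map_sub, (f (N k)).map_tsum hsum]
        have h1 : ∑' j, f (N k) (a j • x j) =
            ∑ j ∈ Finset.range (k + 1), f (N k) (a j • x j) := by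
          refine tsum_eq_sum fun j hj => ?_
          have hjk : k < j := by
            by_contra h
            exact hj (Finset.mem_range.mpr (by omega))
          rw [map_smul, hzero k j hjk, smul_zero]
        rw [h1, Finset.sum_range_succ, map_smul, hx1 k, smul_eq_mul, mul_one, ha k]
        simp only [map_smul, smul_eq_mul]
        ring
    -- density
    have hcount : Dense (Submodule.span 𝕜 (Set.range fun k => M.mkQ (x k)) : Set (X ⧸ M)) := by
      have hcont : Continuous (M.mkQ : X → X ⧸ M) := continuous_quot_mk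
      have hsurj : Function.Surjective (M.mkQ : X → X ⧸ M) := M.mkQ_surjective
      have h1 : Dense ((M.mkQ : X → X ⧸ M) '' (DD f : Set X)) := hsurj.denseRange.dense_image hcont hD'
      have h2 : (M.mkQ : X → X ⧸ M) '' (DD f : Set X) ⊆
          closure (Submodule.span 𝕜 (Set.range fun k => M.mkQ (x k)) : Set (X ⧸ M)) := by
        rintro _ ⟨d, hd, rfl⟩
        obtain ⟨z, hz, hdz⟩ := hdec d hd
        have h3 : M.mkQ d = M.mkQ z := by
          rw [← sub_eq_zero, ← map_sub]
          exact (Submodule.Quotient.mk_eq_zero M).mpr hdz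
        rw [h3]
        have h4 : M.mkQ z ∈ closure ((M.mkQ : X → X ⧸ M) ''
            (Submodule.span 𝕜 (Set.range x) : Set X)) :=
          image_closure_subset_closure_image hcont ⟨z, hz, rfl⟩
        refine closure_mono ?_ h4
        rintro _ ⟨w, hw, rfl⟩
        have h5 : M.mkQ w ∈ Submodule.map M.mkQ (Submodule.span 𝕜 (Set.range x)) :=
          Submodule.mem_map_of_mem hw
        rw [Submodule.map_span, ← Set.range_comp] at h5
        exact h5
      intro q
      have h6 : closure ((M.mkQ : X → X ⧸ M) '' (DD f : Set X)) ⊆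
          closure (Submodule.span 𝕜 (Set.range fun k => M.mkQ (x k)) : Set (X ⧸ M)) :=
        closure_minimal h2 isClosed_closure
      exact h6 (h1 q)
    have hsep : TopologicalSpace.IsSeparable
        (Submodule.span 𝕜 (Set.range fun k => M.mkQ (x k)) : Set (X ⧸ M)) :=
      (Set.countable_range _).isSeparable.span
    have : TopologicalSpace.IsSeparable (Set.univ : Set (X ⧸ M)) := by
      rw [← hcount.closure_eq]
      exact hsep.closure
    exact TopologicalSpace.isSeparable_univ_iff.mp this
  · -- infinite dimension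
    intro hfin
    have hli : LinearIndependent 𝕜 (fun k => M.mkQ (x k)) := by
      rw [linearIndependent_iff']
      intro t g hg
      by_contra hcon
      push Not at hcon
      obtain ⟨i, hit, hi0⟩ := hcon
      have hne : (t.filter fun i => g i ≠ 0).Nonempty :=
        ⟨i, Finset.mem_filter.mpr ⟨hit, hi0⟩⟩
      set k := (t.filter fun i => g i ≠ 0).min' hne with hk
      have hkm := Finset.min'_mem _ hne
      rw [← hk, Finset.mem_filter] at hkm
      have hmem : ∑ i ∈ t, g i • x i ∈ M := by
        rw [← Submodule.Quotient.mk_eq_zero M]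
        have : M.mkQ (∑ i ∈ t, g i • x i) = 0 := by
          rw [map_sum]
          simp only [map_smul]
          exact hg
        exact this
      have h1 := (hMmem _).mp hmem k
      rw [map_sum] at h1
      rw [Finset.sum_eq_single k] at h1
      · rw [map_smul, hx1 k, smul_eq_mul, mul_one] at h1
        exact hkm.2 h1
      · intro j hj hjk
        by_cases hgj : g j = 0
        · rw [hgj, zero_smul, map_zero]
        · have hle : k ≤ j := Finset.min'_le _ _ (Finset.mem_filter.mpr ⟨hj, hgj⟩)
          have hlt : k < j := lt_of_le_of_ne hle (Ne.symm hjk)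
          rw [map_smul, hzero k j hlt, smul_zero]
      · intro h
        exact absurd hkm.1 h
    exact not_finite_iff_infinite.mpr inferInstance hli.finite

end Crest.Agent.R114.V
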