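import Mathlib
import Crest.Agent.R114.VDefs

/-!
Row 114, statement S0153, step T2: unit vectors of Dvoretzky--Rogers type in an
infinite-dimensional normed space (and functionals on it).
-/

set_option autoImplicit false

open Filter Topology Crest.AnalysisR

namespace Crest.Agent.R114.V

universe u

variable {𝕜 : Type} [RCLike 𝕜] {X : Type u} [NormedAddCommGroup X] [NormedSpace 𝕜 X]

/-- the numerical inequality used in the determinant argument. -/
theorem T2_numeric {N k : ℕ} (hk : N < 4 * k)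
    (h : ∀ t : ℝ, 0 < t → (1 + t) ^ k ≤ (1 + t / 4) ^ N) (hN : 0 < N) : False := by
  have hN' : (1 : ℝ) ≤ N := by exact_mod_cast hN
  set t : ℝ := 2 / (N : ℝ) ^ 2 with ht
  have ht0 : 0 < t := by positivity
  have h1 := h t ht0
  have h2 : 1 + (k : ℝ) * t ≤ (1 + t) ^ k := one_add_mul_le_pow (by linarith) k
  have h3 : (1 + t / 4) ^ N ≤ Real.exp (N * (t / 4)) := by
    have := Real.add_one_le_exp (t / 4)
    calc (1 + t / 4) ^ N ≤ (Real.exp (t / 4)) ^ N := by
          apply pow_le_pow_left₀ (by positivity); linarith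
      _ = Real.exp (N * (t / 4)) := by rw [← Real.exp_nat_mul]
  have hx : (N : ℝ) * (t / 4) = 1 / (2 * N) := by
    rw [ht]; field_simp; norm_num
  have hx1 : |(N : ℝ) * (t / 4)| ≤ 1 := by
    rw [hx, abs_of_pos (by positivity), div_le_one (by positivity)]
    linarith
  have h4 := Real.abs_exp_sub_one_sub_id_le hx1
  have h5 := (abs_le.mp h4).2
  have hk' : (N : ℝ) + 1 ≤ 4 * k := by exact_mod_cast hk
  have h6 : (k : ℝ) * t ≤ N * (t / 4) + (N * (t / 4)) ^ 2 := by linarith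
  have h7 : (N : ℝ) * (t / 4) + t / 4 ≤ k * t := by nlinarith
  have h8 : t / 4 ≤ (N * (t / 4)) ^ 2 := by linarith
  rw [hx, ht] at h8
  have h9 : (2 / (N : ℝ) ^ 2 / 4) = 1 / (2 * (N : ℝ) ^ 2) := by field_simp; norm_num
  have h10 : (1 / (2 * (N : ℝ))) ^ 2 = 1 / (4 * (N : ℝ) ^ 2) := by
    field_simp; norm_num
  rw [h9, h10] at h8
  rw [div_le_div_iff₀ (by positivity) (by positivity)] at h8
  nlinarith [sq_nonneg (N : ℝ)]

theorem T2_step {F : Type u} [NormedAddCommGroup F] [NormedSpace 𝕜 F] {N : ℕ}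
    (φ : F →L[𝕜] EuclideanSpace 𝕜 (Fin N)) (T : EuclideanSpace 𝕜 (Fin N) →L[𝕜] F)
    (hT : ‖T‖ ≤ 1) (hpos : 0 < ‖(φ.comp T).det‖)
    (hmax : ∀ S : EuclideanSpace 𝕜 (Fin N) →L[𝕜] F, ‖S‖ ≤ 1 →
      ‖(φ.comp S).det‖ ≤ ‖(φ.comp T).det‖)
    {j : ℕ} (hj : 4 * j < 3 * N) (v : Fin j → EuclideanSpace 𝕜 (Fin N)) (hv : Orthonormal 𝕜 v) :
    ∃ e : EuclideanSpace 𝕜 (Fin N), ‖e‖ = 1 ∧ (∀ i, inner 𝕜 (v i) e = 0) ∧ 1 / 4 ≤ ‖T e‖ := by
  by_contra hcon
  push Not at hcon
  set W : Submodule 𝕜 (EuclideanSpace 𝕜 (Fin N)) := (Submodule.span 𝕜 (Set.range v))ᗮ with hW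
  have hWmem : ∀ e, e ∈ W ↔ ∀ i, inner 𝕜 (v i) e = 0 := by
    intro e
    rw [hW, Submodule.mem_orthogonal]
    constructor
    · intro h i
      exact h _ (Submodule.subset_span ⟨i, rfl⟩)
    · intro h u hu
      induction hu using Submodule.span_induction with
      | mem x hx => obtain ⟨i, rfl⟩ := hx; exact h i
      | zero => simp
      | add x y _ _ hx hy => rw [inner_add_left, hx, hy, add_zero]
      | smul a x _ hx => rw [inner_smul_left, hx, mul_zero]
  have hsmall : ∀ e ∈ W, ‖T e‖ ≤ ‖e‖ / 4 := by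
    intro e he
    by_cases he0 : e = 0
    · simp [he0]
    have hne : ‖e‖ ≠ 0 := by simpa using he0
    have h1 : ‖((‖e‖ : 𝕜)⁻¹ • e)‖ = 1 := by
      rw [norm_smul, norm_inv, RCLike.norm_ofReal, abs_of_nonneg (norm_nonneg _),
        inv_mul_cancel₀ hne]
    have h2 := hcon _ h1 (fun i => by
      rw [inner_smul_right, (hWmem e).1 he i, mul_zero])
    rw [map_smul, norm_smul, norm_inv, RCLike.norm_ofReal, abs_of_nonneg (norm_nonneg _)] at h2
    rw [inv_mul_lt_iff₀ (by positivity)] at h2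
    linarith
  set P : EuclideanSpace 𝕜 (Fin N) →L[𝕜] EuclideanSpace 𝕜 (Fin N) := W.starProjection with hP
  have hPn : ∀ x, ‖P x‖ ≤ ‖x‖ := by
    intro x
    have := P.le_opNorm x
    have h2 : ‖P‖ ≤ 1 := W.starProjection_norm_le
    nlinarith [norm_nonneg x]
  have hPm : ∀ x, P x ∈ W := fun x => Submodule.starProjection_apply_mem W x
  -- orthonormal basis extending `v`
  have hjN : j ≤ N := by omega
  obtain ⟨b, hb⟩ : ∃ b : OrthonormalBasis (Fin N) 𝕜 (EuclideanSpace 𝕜 (Fin N)),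
      ∀ (i : Fin N) (hi : (i : ℕ) < j), b i = v ⟨i, hi⟩ := by
    set v' : Fin N → EuclideanSpace 𝕜 (Fin N) := fun i => if h : (i : ℕ) < j then v ⟨i, h⟩ else 0
      with hv'
    have hcard : Module.finrank 𝕜 (EuclideanSpace 𝕜 (Fin N)) = Fintype.card (Fin N) := by
      simp
    have hon : Orthonormal 𝕜 (Set.domRestrict {i : Fin N | (i : ℕ) < j} v') := by
      have : Set.domRestrict {i : Fin N | (i : ℕ) < j} v' =
          v ∘ (fun i : {i : Fin N | (i : ℕ) < j} => (⟨(i : Fin N), i.2⟩ : Fin j)) := by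
        funext i
        have : ((i : Fin N) : ℕ) < j := i.2
        simp [Set.domRestrict, hv', this]
      rw [this]
      refine hv.comp _ ?_
      intro a b hab
      simp only [Fin.mk.injEq] at hab
      exact Subtype.ext (Fin.ext hab)
    obtain ⟨b, hb⟩ := Orthonormal.exists_orthonormalBasis_extension_of_card_eq hcard hon
    refine ⟨b, fun i hi => ?_⟩
    rw [hb i hi, hv']
    simp [hi]
  have hPb : ∀ i : Fin N, P (b i) = if (i : ℕ) < j then 0 else b i := by
    intro i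
    split_ifs with hi
    · rw [hP, Submodule.starProjection_apply_eq_zero_iff, hW, Submodule.mem_orthogonal]
      intro u hu
      rw [Submodule.mem_orthogonal'] at hu
      rw [hb i hi]
      exact hu _ (Submodule.subset_span ⟨_, rfl⟩)
    · rw [hP, Submodule.starProjection_eq_self_iff, hWmem]
      intro l
      have hl : (l : ℕ) < N := lt_of_lt_of_le l.2 hjN
      have := hb ⟨l, hl⟩ l.2
      simp only [Fin.eta] at this
      rw [← this]
      rw [b.orthonormal.2]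
      intro hcon
      apply hi
      rw [← hcon]
      exact l.2
  have key : ∀ t : ℝ, 0 < t → (1 + t) ^ (N - j) ≤ (1 + t / 4) ^ N := by
    intro t ht
    set U : EuclideanSpace 𝕜 (Fin N) →L[𝕜] EuclideanSpace 𝕜 (Fin N) :=
      ContinuousLinearMap.id 𝕜 _ + (t : 𝕜) • P with hU
    have hUdet : LinearMap.det (U : EuclideanSpace 𝕜 (Fin N) →ₗ[𝕜] EuclideanSpace 𝕜 (Fin N)) =
        ((1 + t : ℝ) : 𝕜) ^ (N - j) := by
      rw [← LinearMap.det_toMatrix b.toBasis]
      have hM : LinearMap.toMatrix b.toBasis b.toBasis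
          (U : EuclideanSpace 𝕜 (Fin N) →ₗ[𝕜] EuclideanSpace 𝕜 (Fin N)) =
          Matrix.diagonal (fun i : Fin N => if (i : ℕ) < j then (1 : 𝕜) else ((1 + t : ℝ) : 𝕜)) := by
        ext i l
        rw [LinearMap.toMatrix_apply]
        have hUb : U (b l) = (if (l : ℕ) < j then (1 : 𝕜) else ((1 + t : ℝ) : 𝕜)) • b l := by
          simp only [hU, add_apply, ContinuousLinearMap.id_apply, smul_apply, hPb]
          split_ifs with h
          · simp
          · simp [add_smul]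
        simp only [OrthonormalBasis.coe_toBasis, ContinuousLinearMap.coe_coe, hUb, map_smul,
          Finsupp.smul_apply, smul_eq_mul]
        rw [← b.coe_toBasis, Module.Basis.repr_self, Matrix.diagonal_apply, Finsupp.single_apply]
        by_cases hil : i = l
        · subst hil; simp
        · have : ¬ l = i := fun h => hil h.symm
          simp [hil, this]
      rw [hM, Matrix.det_diagonal, Finset.prod_ite]
      simp only [Finset.prod_const_one, Finset.prod_const, one_mul]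
      congr 1
      have : (Finset.univ.filter (fun i : Fin N => ¬ (i : ℕ) < j)).card = N - j := by
        have h1 : (Finset.univ.filter (fun i : Fin N => ¬ (i : ℕ) < j)).card =
          ((Finset.univ.filter (fun i : Fin N => ¬ (i : ℕ) < j)).map Fin.valEmbedding).card := by
          rw [Finset.card_map]
        rw [h1]
        have h2 : (Finset.univ.filter (fun i : Fin N => ¬ (i : ℕ) < j)).map Fin.valEmbedding =
          Finset.Ico j N := by
          ext x
          simp only [Finset.mem_map, Finset.mem_filter, Finset.mem_univ, true_and,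
            Fin.valEmbedding_apply, Finset.mem_Ico]
          constructor
          · rintro ⟨a, ha, rfl⟩
            exact ⟨by omega, a.2⟩
          · rintro ⟨h1, h2⟩
            exact ⟨⟨x, h2⟩, by simpa using h1, rfl⟩
        rw [h2, Nat.card_Ico]
      exact this
    set r : ℝ := 1 + t / 4 with hr
    have hr0 : 0 < r := by positivity
    set S : EuclideanSpace 𝕜 (Fin N) →L[𝕜] F := ((r : 𝕜)⁻¹) • (T.comp U) with hS
    have hSn : ‖S‖ ≤ 1 := by
      refine ContinuousLinearMap.opNorm_le_bound _ zero_le_one ?_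
      intro x
      have hTx : ‖T (U x)‖ ≤ r * ‖x‖ := by
        have : U x = x + (t : 𝕜) • P x := by simp [hU]
        rw [this, map_add, map_smul]
        calc ‖T x + (t : 𝕜) • T (P x)‖ ≤ ‖T x‖ + ‖(t : 𝕜) • T (P x)‖ := norm_add_le _ _
          _ ≤ ‖x‖ + t * (‖P x‖ / 4) := by
              rw [norm_smul, RCLike.norm_ofReal, abs_of_pos ht]
              have h1 : ‖T x‖ ≤ ‖x‖ := by
                have := T.le_opNorm x
                nlinarith [norm_nonneg x]
              have h2 := hsmall _ (hPm x)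
              have h3 : t * ‖T (P x)‖ ≤ t * (‖P x‖ / 4) := by gcongr
              linarith
          _ ≤ ‖x‖ + t * (‖x‖ / 4) := by
              have := hPn x
              gcongr
          _ = r * ‖x‖ := by rw [hr]; ring
      simp only [hS, smul_apply, ContinuousLinearMap.comp_apply, one_mul]
      rw [norm_smul, norm_inv, RCLike.norm_ofReal, abs_of_pos hr0,
        inv_mul_le_iff₀ hr0]
      exact hTx
    have h1 := hmax S hSn
    have h2 : (φ.comp S).det = ((r : 𝕜)⁻¹) ^ N * ((φ.comp T).det * ((1 + t : ℝ) : 𝕜) ^ (N - j)) := by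
      have e1 : ((φ.comp S : EuclideanSpace 𝕜 (Fin N) →L[𝕜] EuclideanSpace 𝕜 (Fin N)) :
          EuclideanSpace 𝕜 (Fin N) →ₗ[𝕜] EuclideanSpace 𝕜 (Fin N)) =
          ((r : 𝕜)⁻¹) • (((φ.comp T : EuclideanSpace 𝕜 (Fin N) →L[𝕜] EuclideanSpace 𝕜 (Fin N)) :
          EuclideanSpace 𝕜 (Fin N) →ₗ[𝕜] EuclideanSpace 𝕜 (Fin N)).comp
          (U : EuclideanSpace 𝕜 (Fin N) →ₗ[𝕜] EuclideanSpace 𝕜 (Fin N))) := by
        ext x
        simp [hS]
      unfold ContinuousLinearMap.det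
      rw [e1, LinearMap.det_smul, LinearMap.det_comp, hUdet]
      simp
    rw [h2, norm_mul, norm_mul, norm_pow, norm_pow, norm_inv, RCLike.norm_ofReal,
      RCLike.norm_ofReal, abs_of_pos hr0, abs_of_pos (by positivity : (0:ℝ) < 1 + t)] at h1
    have h3 : r⁻¹ ^ N * (1 + t) ^ (N - j) ≤ 1 := by
      have h4 : (r⁻¹ ^ N * (1 + t) ^ (N - j)) * ‖(φ.comp T).det‖ ≤ 1 * ‖(φ.comp T).det‖ := by
        rw [one_mul]
        calc _ = r⁻¹ ^ N * (‖(φ.comp T).det‖ * (1 + t) ^ (N - j)) := by ring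
          _ ≤ _ := h1
      exact le_of_mul_le_mul_right h4 hpos
    rw [inv_pow, inv_mul_le_iff₀ (by positivity), mul_one] at h3
    exact h3
  exact T2_numeric (N := N) (k := N - j) (by omega) key (by omega)

/-- a determinant maximizer. -/
theorem T2_exists_max {F : Type u} [NormedAddCommGroup F] [NormedSpace 𝕜 F]
    [FiniteDimensional 𝕜 F] {N : ℕ} (φ : F ≃L[𝕜] EuclideanSpace 𝕜 (Fin N)) :
    ∃ T : EuclideanSpace 𝕜 (Fin N) →L[𝕜] F, ‖T‖ ≤ 1 ∧
      0 < ‖((φ : F →L[𝕜] EuclideanSpace 𝕜 (Fin N)).comp T).det‖ ∧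
      ∀ S : EuclideanSpace 𝕜 (Fin N) →L[𝕜] F, ‖S‖ ≤ 1 →
        ‖((φ : F →L[𝕜] EuclideanSpace 𝕜 (Fin N)).comp S).det‖ ≤
          ‖((φ : F →L[𝕜] EuclideanSpace 𝕜 (Fin N)).comp T).det‖ := by
  set D : (EuclideanSpace 𝕜 (Fin N) →L[𝕜] F) → ℝ := fun S =>
    ‖((φ : F →L[𝕜] EuclideanSpace 𝕜 (Fin N)).comp S).det‖ with hD
  have hcont : Continuous D := by
    refine (ContinuousLinearMap.continuous_det.comp ?_).norm
    exact continuous_const.clm_comp continuous_id
  have : ProperSpace (EuclideanSpace 𝕜 (Fin N) →L[𝕜] F) := FiniteDimensional.proper 𝕜 _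
  have hcomp : IsCompact (Metric.closedBall (0 : EuclideanSpace 𝕜 (Fin N) →L[𝕜] F) 1) :=
    isCompact_closedBall _ _
  obtain ⟨T, hT, hmax⟩ := hcomp.exists_isMaxOn ⟨0, by simp⟩ hcont.continuousOn
  have hmax' : ∀ S : EuclideanSpace 𝕜 (Fin N) →L[𝕜] F, ‖S‖ ≤ 1 → D S ≤ D T := by
    intro S hS
    exact hmax (by simpa using hS)
  refine ⟨T, by simpa using hT, ?_, hmax'⟩
  -- positivity
  set r : ℝ := 1 + ‖(φ.symm : EuclideanSpace 𝕜 (Fin N) →L[𝕜] F)‖ with hr
  have hr0 : 0 < r := by positivity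
  set S : EuclideanSpace 𝕜 (Fin N) →L[𝕜] F :=
    ((r : 𝕜)⁻¹) • (φ.symm : EuclideanSpace 𝕜 (Fin N) →L[𝕜] F) with hS
  have hSn : ‖S‖ ≤ 1 := by
    rw [hS, norm_smul, norm_inv, RCLike.norm_ofReal, abs_of_pos hr0, inv_mul_le_iff₀ hr0, mul_one,
      hr]
    linarith
  refine lt_of_lt_of_le ?_ (hmax' S hSn)
  have e1 : (((φ : F →L[𝕜] EuclideanSpace 𝕜 (Fin N)).comp S :
        EuclideanSpace 𝕜 (Fin N) →L[𝕜] EuclideanSpace 𝕜 (Fin N)) :
      EuclideanSpace 𝕜 (Fin N) →ₗ[𝕜] EuclideanSpace 𝕜 (Fin N)) =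
      ((r : 𝕜)⁻¹) • (LinearMap.id : EuclideanSpace 𝕜 (Fin N) →ₗ[𝕜] EuclideanSpace 𝕜 (Fin N)) := by
    ext x
    simp [hS]
  simp only [hD]
  unfold ContinuousLinearMap.det
  rw [e1, LinearMap.det_smul, LinearMap.det_id, mul_one, norm_pos_iff]
  apply pow_ne_zero
  apply inv_ne_zero
  exact_mod_cast hr0.ne'

/-- The Dvoretzky--Rogers system in a finite-dimensional space. -/
theorem T2_system {F : Type u} [NormedAddCommGroup F] [NormedSpace 𝕜 F]
    [FiniteDimensional 𝕜 F] {N : ℕ} (hN : Module.finrank 𝕜 F = N) :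
    ∃ T : EuclideanSpace 𝕜 (Fin N) →L[𝕜] F, ‖T‖ ≤ 1 ∧
      ∀ j : ℕ, 4 * j ≤ 3 * N → ∃ v : Fin j → EuclideanSpace 𝕜 (Fin N), Orthonormal 𝕜 v ∧
        ∀ i, 1 / 4 ≤ ‖T (v i)‖ := by
  have hfr : Module.finrank 𝕜 F = Module.finrank 𝕜 (EuclideanSpace 𝕜 (Fin N)) := by
    simp [hN]
  set φ : F ≃L[𝕜] EuclideanSpace 𝕜 (Fin N) := ContinuousLinearEquiv.ofFinrankEq hfr
  obtain ⟨T, hT, hpos, hmax⟩ := T2_exists_max φ
  refine ⟨T, hT, ?_⟩
  intro j
  induction j with
  | zero =>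
    intro _
    exact ⟨Fin.elim0, ⟨fun i => i.elim0, fun i => i.elim0⟩, fun i => i.elim0⟩
  | succ j ih =>
    intro hj
    obtain ⟨v, hv, hvT⟩ := ih (by omega)
    obtain ⟨e, he1, he2, he3⟩ := T2_step (φ : F →L[𝕜] EuclideanSpace 𝕜 (Fin N)) T hT hpos hmax
      (by omega) v hv
    refine ⟨Fin.snoc v e, ⟨?_, ?_⟩, ?_⟩
    · intro i
      refine Fin.lastCases ?_ (fun i => ?_) i
      · simpa using he1
      · simpa using hv.1 i
    · intro a b
      refine Fin.lastCases ?_ (fun a => ?_) a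
      · refine Fin.lastCases ?_ (fun b => ?_) b
        · intro h; exact absurd rfl h
        · intro _
          simp only [Fin.snoc_last, Fin.snoc_castSucc]
          exact inner_eq_zero_symm.1 (he2 b)
      · refine Fin.lastCases ?_ (fun b => ?_) b
        · intro _
          simp only [Fin.snoc_last, Fin.snoc_castSucc]
          exact he2 a
        · intro h
          simp only [Fin.snoc_castSucc]
          exact hv.2 (fun hab => h (by rw [hab]))
    · intro i
      refine Fin.lastCases ?_ (fun i => ?_) i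
      · simpa using he3
      · simpa using hvT i

theorem T2 {E : Type u} [NormedAddCommGroup E] [NormedSpace 𝕜 E] (hE : ¬ FiniteDimensional 𝕜 E)
    {ε : ℝ} (hε : 0 < ε) : ∃ (m : ℕ) (y : Fin m → E), 0 < m ∧ (∀ i, ‖y i‖ = 1) ∧
      ∀ c : Fin m → 𝕜, (∀ i, ‖c i‖ ≤ 1) → ‖∑ i, c i • y i‖ ≤ ε * m := by
  obtain ⟨M, hM⟩ := exists_nat_ge (16 / ε ^ 2)
  have hM' : 16 / ε ^ 2 ≤ ((3 * (M + 1) : ℕ) : ℝ) := by
    push_cast
    have : (0 : ℝ) ≤ M := Nat.cast_nonneg M
    linarith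
  have hrank : ((4 * (M + 1) : ℕ) : Cardinal) ≤ Module.rank 𝕜 E := by
    refine le_trans (Cardinal.natCast_lt_aleph0).le ?_
    by_contra h
    exact hE (Module.rank_lt_aleph0_iff.1 (not_le.1 h))
  obtain ⟨w, hw⟩ := exists_linearIndependent_of_le_rank hrank
  set F : Submodule 𝕜 E := Submodule.span 𝕜 (Set.range w) with hF
  have : FiniteDimensional 𝕜 F := FiniteDimensional.span_of_finite 𝕜 (Set.finite_range w)
  have hFr : Module.finrank 𝕜 F = 4 * (M + 1) := by
    rw [hF, finrank_span_eq_card hw, Fintype.card_fin]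
  obtain ⟨T, hT, hsys⟩ := T2_system hFr
  obtain ⟨m, hm⟩ : ∃ m : ℕ, m = 3 * (M + 1) := ⟨_, rfl⟩
  rw [← hm] at hM'
  obtain ⟨v, hv, hvT⟩ := hsys m (by omega)
  have hvT0 : ∀ i, 0 < ‖T (v i)‖ := fun i => lt_of_lt_of_le (by norm_num) (hvT i)
  refine ⟨m, fun i => ((((‖T (v i)‖ : ℝ) : 𝕜)⁻¹ • T (v i) : F) : E), by omega, ?_, ?_⟩
  · intro i
    beta_reduce
    rw [← Submodule.coe_norm, norm_smul, norm_inv, RCLike.norm_ofReal,
      abs_of_pos (hvT0 i), inv_mul_cancel₀ (hvT0 i).ne']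
  · intro c hc
    set a : Fin m → 𝕜 := fun i => c i * ((‖T (v i)‖ : ℝ) : 𝕜)⁻¹ with ha
    have ha4 : ∀ i, ‖a i‖ ≤ 4 := by
      intro i
      rw [ha]
      simp only [norm_mul, norm_inv, RCLike.norm_ofReal]
      rw [abs_of_pos (hvT0 i)]
      have h1 : (‖T (v i)‖)⁻¹ ≤ 4 := by
        rw [inv_le_comm₀ (hvT0 i) (by norm_num)]
        have := hvT i
        linarith
      calc ‖c i‖ * ‖T (v i)‖⁻¹ ≤ 1 * 4 := by
            apply mul_le_mul (hc i) h1 (by positivity) zero_le_one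
        _ = 4 := by norm_num
    have hsum : (∑ i, c i • ((((‖T (v i)‖ : ℝ) : 𝕜)⁻¹ • T (v i) : F) : E)) =
        ((T (∑ i, a i • v i) : F) : E) := by
      rw [map_sum, AddSubmonoidClass.coe_finsetSum]
      refine Finset.sum_congr rfl fun i _ => ?_
      rw [map_smul]
      simp only [Submodule.coe_smul, ha, smul_smul]
    rw [hsum, ← Submodule.coe_norm]
    have h1 : ‖T (∑ i, a i • v i)‖ ≤ ‖∑ i, a i • v i‖ := by
      have := T.le_opNorm (∑ i, a i • v i)
      nlinarith [norm_nonneg (∑ i, a i • v i)]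
    have h2 : ‖∑ i, a i • v i‖ ^ 2 ≤ 16 * m := by
      have h3 : ‖∑ i, a i • v i‖ ^ 2 = ∑ i, ‖a i‖ ^ 2 := by
        rw [@norm_sq_eq_re_inner 𝕜, hv.inner_sum]
        rw [map_sum]
        refine Finset.sum_congr rfl fun i _ => ?_
        rw [RCLike.conj_mul]
        norm_cast
      rw [h3]
      calc ∑ i, ‖a i‖ ^ 2 ≤ ∑ i : Fin m, (16 : ℝ) := by
            refine Finset.sum_le_sum fun i _ => ?_
            have := ha4 i
            have h0 := norm_nonneg (a i)
            nlinarith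
        _ = 16 * m := by simp [mul_comm]
    have hm0 : (0 : ℝ) < m := by
      have : 0 < m := by omega
      exact_mod_cast this
    have h3 : 16 * (m : ℝ) ≤ (ε * m) ^ 2 := by
      have h5 : 16 ≤ (m : ℝ) * ε ^ 2 := by
        rw [div_le_iff₀ (by positivity)] at hM'
        exact hM'
      nlinarith
    have h4 : ‖∑ i, a i • v i‖ ≤ ε * m := by
      apply le_of_sq_le_sq _ (by positivity)
      linarith
    linarith

theorem T2' (hX : ¬ FiniteDimensional 𝕜 X) {ε : ℝ} (hε : 0 < ε) :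
    ∃ (m : ℕ) (h : Fin m → (X →L[𝕜] 𝕜)), 0 < m ∧ (∀ i, ‖h i‖ = 1) ∧
      ∀ x : X, ∑ i, ‖h i x‖ ≤ ε * m * ‖x‖ := by
  have hE : ¬ FiniteDimensional 𝕜 (X →L[𝕜] 𝕜) := by
    intro hfin
    apply hX
    let L : X →ₗ[𝕜] ((X →L[𝕜] 𝕜) →L[𝕜] 𝕜) :=
      (NormedSpace.inclusionInDoubleDualLi (E := X) 𝕜).toLinearMap
    have hinj : Function.Injective L :=
      (NormedSpace.inclusionInDoubleDualLi (E := X) 𝕜).injective
    have hfin' : FiniteDimensional 𝕜 ((X →L[𝕜] 𝕜) →L[𝕜] 𝕜) := inferInstance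
    exact @FiniteDimensional.of_injective 𝕜 X _ _ _ ((X →L[𝕜] 𝕜) →L[𝕜] 𝕜) _ _ L hinj hfin'
  obtain ⟨m, h, hm, h1, h2⟩ := T2 hE hε
  refine ⟨m, h, hm, h1, fun x => ?_⟩
  set c : Fin m → 𝕜 := fun i => if h i x = 0 then 0 else (starRingEnd 𝕜 (h i x)) / ((‖h i x‖ : ℝ) : 𝕜)
    with hc
  have hc1 : ∀ i, ‖c i‖ ≤ 1 := by
    intro i
    rw [hc]
    beta_reduce
    split_ifs with h0
    · simp
    · rw [norm_div, RCLike.norm_conj, RCLike.norm_ofReal, abs_of_nonneg (norm_nonneg _),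
        div_self (by simpa using h0)]
  have hc2 : ∀ i, c i * h i x = ((‖h i x‖ : ℝ) : 𝕜) := by
    intro i
    rw [hc]
    beta_reduce
    split_ifs with h0
    · simp [h0]
    · have hne : ((‖h i x‖ : ℝ) : 𝕜) ≠ 0 := by
        simpa using h0
      rw [div_mul_eq_mul_div, RCLike.conj_mul, sq, mul_div_assoc, div_self hne, mul_one]
  have h3 := h2 c hc1
  have h4 : (∑ i, c i • h i) x = ((∑ i, ‖h i x‖ : ℝ) : 𝕜) := by
    rw [sum_apply]
    simp only [smul_apply, smul_eq_mul, hc2]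
    push_cast
    rfl
  have h5 := (∑ i, c i • h i).le_opNorm x
  rw [h4, RCLike.norm_ofReal, abs_of_nonneg (Finset.sum_nonneg fun i _ => norm_nonneg _)] at h5
  exact h5.trans (mul_le_mul_of_nonneg_right h3 (norm_nonneg _))

end Crest.Agent.R114.V
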