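import Mathlib
import Crest.Agent.R114.VDefs
import Crest.Agent.R130.AtomlessMap

/-!
Row 114, S0153, T3: total measures, iterated total measures on lists, swap lemma, selection.
-/

set_option autoImplicit false

open Filter Topology MeasureTheory
open scoped ENNReal
open Crest.AnalysisR

namespace Crest.Agent.R114.V

/-- the real line with the discrete sigma-algebra -/
def TR : Type := ℝ

instance : MeasurableSpace TR := ⊤
instance : Inhabited TR := ⟨(0 : ℝ)⟩
instance : MeasurableSpace (List TR) := ⊤

theorem measurableSet_TR (s : Set TR) : MeasurableSet s := trivial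
theorem measurableSet_LTR (s : Set (List TR)) : MeasurableSet s := trivial

theorem exists_total (hc : ContinuumRVM) :
    ∃ m : Measure TR, IsProbabilityMeasure m ∧ ∀ x, m {x} = 0 := by
  obtain ⟨m, h1, h2, h3⟩ := hc
  have h0 : m ∅ = 0 := by
    have := h3 Empty (fun i => i.elim) (by simpa using Cardinal.continuum_pos) (fun i => i.elim)
    simpa using this
  have hN : Cardinal.mk ℕ < Cardinal.continuum := by
    rw [Cardinal.mk_nat]; exact Cardinal.aleph0_lt_continuum
  let M : Measure TR := Measure.ofMeasurable (fun s _ => m s) h0 (fun f _ hd => h3 ℕ f hN hd)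
  have hM : ∀ s : Set TR, M s = m s := fun s => Measure.ofMeasurable_apply s trivial
  refine ⟨M, ⟨?_⟩, fun x => ?_⟩
  · rw [hM]; exact h1
  · rw [hM]; exact h2 x

/-- iterated total measures on lists -/
noncomputable def LM (m : Measure TR) : ℕ → Measure (List TR)
  | 0 => Measure.dirac []
  | q + 1 => m.bind (fun t => (LM m q).map (fun l => t :: l))

variable {m : Measure TR}

theorem ae_LM_succ (q : ℕ) (P : List TR → Prop) :
    (∀ᵐ l ∂LM m (q + 1), P l) ↔ ∀ᵐ t ∂m, ∀ᵐ l ∂LM m q, P (t :: l) := by
  rw [ae_iff, LM, Measure.bind_apply (measurableSet_LTR _) (Measurable.aemeasurable measurable_from_top),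
    lintegral_eq_zero_iff measurable_from_top]
  apply Filter.eventually_congr
  filter_upwards with t
  rw [Measure.map_apply measurable_from_top (measurableSet_LTR _)]
  rfl

theorem isProb_LM [IsProbabilityMeasure m] (q : ℕ) : IsProbabilityMeasure (LM m q) := by
  induction q with
  | zero => unfold LM; infer_instance
  | succ q ih =>
    constructor
    rw [LM, Measure.bind_apply MeasurableSet.univ (Measurable.aemeasurable measurable_from_top)]
    have : ∀ t : TR, ((LM m q).map (fun l => t :: l)) Set.univ = 1 := by
      intro t
      rw [Measure.map_apply measurable_from_top MeasurableSet.univ]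
      simp
    simp only [this]
    simp

/-- the `i`-th entry of a list, with a default -/
noncomputable def seq (l : List TR) (i : ℕ) : TR := l.getD i default

theorem seq_append_left (s l : List TR) {i : ℕ} (hi : i < s.length) : seq (s ++ l) i = seq s i := by
  unfold seq
  rw [List.getD_append _ _ _ _ hi]

theorem seq_at (s l : List TR) (t : TR) : seq (s ++ t :: l) s.length = t := by
  unfold seq
  simp

theorem seq_change (s l : List TR) (t t' : TR) {i : ℕ} (hi : i ≠ s.length) :
    seq (s ++ t :: l) i = seq (s ++ t' :: l) i := by
  unfold seq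
  rw [List.getD_eq_getElem?_getD, List.getD_eq_getElem?_getD]
  congr 1
  rcases lt_or_gt_of_ne hi with h | h
  · rw [List.getElem?_append_left h, List.getElem?_append_left h]
  · rw [List.getElem?_append_right h.le, List.getElem?_append_right h.le]
    have : ∃ k, i - s.length = k + 1 := ⟨i - s.length - 1, by omega⟩
    obtain ⟨k, hk⟩ := this
    rw [hk]
    simp

/-- Abstract relation: `Bad t x` is a jointly measurable family of null sets. -/
structure NullFam (m : Measure TR) (X : Type*) (Good : TR → X → Prop) : Prop where
  swap : ∀ (M : Measure (List TR)) [IsProbabilityMeasure M] (x : List TR → X),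
    ∀ᵐ t ∂m, ∀ᵐ l ∂M, Good t (x l)

variable {X : Type*} {Good : TR → X → Prop}

theorem ae_of_prefix [IsProbabilityMeasure m] (hN : NullFam m X Good) (j : ℕ)
    (x : (ℕ → TR) → X) (hx : ∀ θ θ' : ℕ → TR, (∀ i, i ≠ j → θ i = θ' i) → x θ = x θ') :
    ∀ (q : ℕ) (s : List TR), s.length ≤ j →
      ∀ᵐ l ∂LM m q, j < (s ++ l).length → Good (seq (s ++ l) j) (x (seq (s ++ l))) := by
  intro q
  induction q with
  | zero =>
    intro s hs
    simp only [LM]
    rw [ae_dirac_iff (measurableSet_LTR _)]
    intro h
    simp at h
    omega
  | succ q ih =>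
    intro s hs
    rw [ae_LM_succ]
    rcases hs.lt_or_eq with h | h
    · filter_upwards with t
      have := ih (s ++ [t]) (by simpa using h)
      simpa using this
    · haveI := isProb_LM (m := m) q
      have h1 := hN.swap (LM m q) (fun l => x (seq (s ++ default :: l)))
      filter_upwards [h1] with t ht
      filter_upwards [ht] with l hl _
      rw [← h, seq_at]
      have : x (seq (s ++ t :: l)) = x (seq (s ++ default :: l)) := by
        apply hx
        intro i hi
        exact seq_change s l t default (by rw [h]; exact hi)
      rw [this]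
      exact hl

/-- **Selection**: infinitely many points in general position. -/
theorem exists_sequence [IsProbabilityMeasure m] (hN : NullFam m X Good) {ι : Type} [Countable ι]
    (supp : ι → Finset ℕ) (x : ι → (ℕ → TR) → X)
    (hx : ∀ a, ∀ θ θ' : ℕ → TR, (∀ i ∈ supp a, θ i = θ' i) → x a θ = x a θ') :
    ∃ θ : ℕ → TR, ∀ a j, j ∉ supp a → Good (θ j) (x a θ) := by
  classical
  set Q : List TR → Prop := fun l => ∀ (a : ι) (j : ℕ), j ∉ supp a → j < l.length →
    Good (seq l j) (x a (seq l)) with hQ
  set G : List TR → Prop := fun s => ∀ q, ∀ᵐ l ∂LM m q, Q (s ++ l) with hG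
  have hG0 : G [] := by
    intro q
    simp only [hQ]
    rw [ae_all_iff]
    intro a
    rw [ae_all_iff]
    intro j
    by_cases hj : j ∈ supp a
    · filter_upwards with l h
      exact absurd hj h
    · have h1 := ae_of_prefix hN j (x a) (by
        intro θ θ' h
        apply hx
        intro i hi
        exact h i (by rintro rfl; exact hj hi)) q [] (by simp)
      filter_upwards [h1] with l hl _ hlt
      exact hl (by simpa using hlt)
  have hGQ : ∀ s, G s → Q s := by
    intro s hs
    have := hs 0
    simp only [LM] at this
    rw [ae_dirac_iff (measurableSet_LTR _)] at this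
    simpa using this
  have hGs : ∀ s, G s → ∃ t, G (s ++ [t]) := by
    intro s hs
    have h1 : ∀ᵐ t ∂m, ∀ q, ∀ᵐ l ∂LM m q, Q (s ++ t :: l) := by
      rw [ae_all_iff]
      intro q
      have := hs (q + 1)
      rwa [ae_LM_succ] at this
    obtain ⟨t, ht⟩ := h1.exists
    refine ⟨t, fun q => ?_⟩
    have := ht q
    simpa using this
  choose! nxt hnxt using hGs
  let L : ℕ → List TR := fun n => Nat.rec [] (fun _ s => s ++ [nxt s]) n
  have hL0 : L 0 = [] := rfl
  have hLs : ∀ n, L (n + 1) = L n ++ [nxt (L n)] := fun n => rfl
  have hLG : ∀ n, G (L n) := by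
    intro n
    induction n with
    | zero => exact hG0
    | succ n ih => rw [hLs]; exact hnxt _ ih
  have hLlen : ∀ n, (L n).length = n := by
    intro n
    induction n with
    | zero => rfl
    | succ n ih => rw [hLs, List.length_append, ih]; rfl
  set θ : ℕ → TR := fun n => nxt (L n) with hθ
  have hseq : ∀ n i, i < n → seq (L n) i = θ i := by
    intro n
    induction n with
    | zero => intro i hi; omega
    | succ n ih =>
      intro i hi
      rw [hLs]
      rcases Nat.lt_succ_iff_lt_or_eq.mp hi with h | h
      · rw [seq_append_left _ _ (by rw [hLlen]; exact h)]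
        exact ih i h
      · subst h
        have := seq_at (L i) [] (nxt (L i))
        rw [hLlen] at this
        exact this
  refine ⟨θ, fun a j hj => ?_⟩
  obtain ⟨n, hn⟩ : ∃ n, j < n ∧ ∀ i ∈ supp a, i < n := by
    refine ⟨max (j + 1) ((supp a).sup id + 1), by omega, fun i hi => ?_⟩
    have : i ≤ (supp a).sup id := Finset.le_sup (f := id) hi
    omega
  have h1 := hGQ _ (hLG n) a j hj (by rw [hLlen]; exact hn.1)
  rw [hseq n j hn.1] at h1
  have h2 : x a (seq (L n)) = x a θ := by
    apply hx
    intro i hi
    exact hseq n i (hn.2 i hi)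
  rwa [h2] at h1

end Crest.Agent.R114.V
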