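import Mathlib
import Crest.Agent.R114.VT3a

/-!
Row 114, S0153, T3: the random functionals.
-/

set_option autoImplicit false

open Filter Topology MeasureTheory
open scoped ENNReal
open Crest.AnalysisR

namespace Crest.Agent.R114.V

universe u
variable {𝕜 : Type} [RCLike 𝕜] {X : Type u} [NormedAddCommGroup X] [NormedSpace 𝕜 X]

/-- a functional of norm one vanishing on a non-dense subspace -/
theorem exists_vanishing (D : Submodule 𝕜 X) (hD : ¬ Dense (D : Set X)) :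
    ∃ u : X →L[𝕜] 𝕜, ‖u‖ = 1 ∧ ∀ x ∈ D, u x = 0 := by
  obtain ⟨x₀, hx₀⟩ : ∃ x, x ∉ D.topologicalClosure := by
    by_contra h
    push Not at h
    apply hD
    intro x
    exact h x
  have : IsClosed (D.topologicalClosure : Set X) := D.isClosed_topologicalClosure
  have hne : (D.topologicalClosure.mkQ x₀) ≠ 0 := by
    intro h
    exact hx₀ ((Submodule.Quotient.mk_eq_zero _).mp h)
  obtain ⟨g, hg1, hg2⟩ := exists_dual_vector 𝕜 (D.topologicalClosure.mkQ x₀)
    (norm_ne_zero_iff.mpr hne)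
  set w : X →L[𝕜] 𝕜 := g.comp D.topologicalClosure.mkQL with hw
  have hw0 : w ≠ 0 := by
    intro h
    have h1 : w x₀ = 0 := by rw [h]; rfl
    have h2 : w x₀ = g (D.topologicalClosure.mkQ x₀) := rfl
    rw [h2, hg2] at h1
    have : ‖D.topologicalClosure.mkQ x₀‖ = 0 := by exact_mod_cast h1
    exact hne (norm_eq_zero.mp this)
  refine ⟨((‖w‖ : 𝕜)⁻¹) • w, ?_, ?_⟩
  · rw [norm_smul, norm_inv, RCLike.norm_ofReal, abs_norm, inv_mul_cancel₀ (norm_ne_zero_iff.mpr hw0)]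
  · intro x hx
    have h1 : D.topologicalClosure.mkQ x = 0 :=
      (Submodule.Quotient.mk_eq_zero _).mpr (D.le_topologicalClosure hx)
    have h2 : w x = g (D.topologicalClosure.mkQ x) := rfl
    rw [smul_apply, h2, h1, map_zero, smul_zero]

theorem exists_norming (φ : X →L[𝕜] 𝕜) : ∃ x : X, ‖x‖ ≤ 1 ∧ ‖φ‖ ≤ 2 * ‖φ x‖ := by
  by_cases h : φ = 0
  · exact ⟨0, by simp, by simp [h]⟩
  · have hpos : 0 < ‖φ‖ := norm_pos_iff.mpr h
    by_contra hcon
    push Not at hcon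
    have : ‖φ‖ ≤ ‖φ‖ / 2 := by
      apply φ.opNorm_le_bound (by positivity)
      intro x
      by_cases hx : x = 0
      · rw [hx]; simp
      · have hxn : ‖x‖ ≠ 0 := norm_ne_zero_iff.mpr hx
        have h1 : ‖((‖x‖ : 𝕜)⁻¹) • x‖ = 1 := by
          rw [norm_smul, norm_inv, RCLike.norm_ofReal, abs_norm, inv_mul_cancel₀ hxn]
        have h2 := hcon _ h1.le
        rw [map_smul, norm_smul, norm_inv, RCLike.norm_ofReal, abs_norm] at h2
        have h3 : 0 < ‖x‖ := norm_pos_iff.mpr hx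
        have h4 : 2 * ‖φ x‖ < ‖φ‖ * ‖x‖ := by
          have := mul_lt_mul_of_pos_right h2 h3
          have e : 2 * (‖x‖⁻¹ * ‖φ x‖) * ‖x‖ = 2 * ‖φ x‖ := by field_simp
          rwa [e] at this
        linarith
    linarith

theorem exists_uniform (μ : Measure ℝ) [IsProbabilityMeasure μ] [NullSingletonClass μ] {M : ℕ}
    (hM : 0 < M) : ∃ θ : ℝ → Fin M, Measurable θ ∧
      ∀ g : Fin M → ℝ≥0∞, ∫⁻ t, g (θ t) ∂μ = (M : ℝ≥0∞)⁻¹ * ∑ i, g i := by
  have : Nonempty (Fin M) := ⟨⟨0, hM⟩⟩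
  have hM0 : (M : ℝ≥0∞) ≠ 0 := by exact_mod_cast hM.ne'
  have hMt : (M : ℝ≥0∞) ≠ ⊤ := ENNReal.natCast_ne_top M
  obtain ⟨θ, hθ, hmap⟩ := Crest.Agent.R130.exists_map_eq (X := ℝ) (Y := Fin M) μ
    ((M : ℝ≥0∞)⁻¹ • Measure.count) (by
      rw [Measure.smul_apply, Measure.count_apply MeasurableSet.univ, measure_univ]
      simp [ENNReal.inv_mul_cancel hM0 hMt])
  refine ⟨θ, hθ, fun g => ?_⟩
  have h1 : ∫⁻ t, g (θ t) ∂μ = ∫⁻ i, g i ∂(μ.map θ) := by
    rw [lintegral_map (measurable_of_countable g) hθ]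
  rw [h1, hmap, lintegral_smul_measure, lintegral_count, tsum_fintype, smul_eq_mul]

/-- the identity map, forgetting the sigma-algebra -/
def toR : TR → ℝ := fun t => t

theorem measurable_toR : Measurable toR := measurable_from_top

/-- T3, given T1 and T2'. -/
theorem T3_of [CompleteSpace X] (hc : ContinuumRVM)
    (hT1 : ∀ f : ℕ → X →L[𝕜] 𝕜, Tendsto (fun n => ‖f n‖) atTop atTop →
      Dense {x : X | Tendsto (fun n => f n x) atTop (𝓝 0)} → SQ 𝕜 X)
    (hT2 : ∀ ε : ℝ, 0 < ε → ∃ (m : ℕ) (h : Fin m → (X →L[𝕜] 𝕜)), 0 < m ∧ (∀ i, ‖h i‖ = 1) ∧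
      ∀ x : X, ∑ i, ‖h i x‖ ≤ ε * m * ‖x‖) :
    SQ 𝕜 X ∨ ∃ u : ℕ → (X →L[𝕜] 𝕜), (∀ i, ‖u i‖ = 1) ∧
      ∀ (A : Finset ℕ) (a : ℕ → 𝕜), ∃ x : X, ‖x‖ ≤ 1 ∧ (∀ j ∉ A, u j x = 0) ∧
        ‖∑ i ∈ A, a i • u i‖ ≤ 4 * ‖∑ i ∈ A, a i * u i x‖ := by
  classical
  obtain ⟨m, hm, hm0⟩ := exists_total hc
  set μ : Measure ℝ := m.map toR with hμ
  have hmeas : Measurable toR := measurable_toR
  have : IsProbabilityMeasure μ := Measure.isProbabilityMeasure_map hmeas.aemeasurable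
  have : NullSingletonClass μ := by
    constructor
    intro x
    rw [hμ, Measure.map_apply hmeas (measurableSet_singleton x)]
    exact hm0 x
  -- choose the families
  choose M h hM hn hsum using fun n : ℕ => hT2 ((4:ℝ)⁻¹ ^ n) (by positivity)
  choose θ hθ hint using fun n : ℕ => exists_uniform μ (hM n)
  set f : ℕ → ℝ → (X →L[𝕜] 𝕜) := fun n t => ((2:𝕜) ^ n) • h n (θ n t) with hf
  have hfn : ∀ n t, ‖f n t‖ = 2 ^ n := by
    intro n t
    simp only [hf]
    rw [norm_smul, hn, mul_one, norm_pow, RCLike.norm_ofNat]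
  -- the sum
  set S : ℝ → X → ℝ≥0∞ := fun t x => ∑' n, ‖f n t x‖ₑ with hS
  have hSm : ∀ x, ∀ᵐ t ∂μ, S t x < ⊤ := by
    intro x
    have hmn : ∀ n, Measurable (fun t => ‖f n t x‖ₑ) := by
      intro n
      have : Measurable (fun i : Fin (M n) => ‖(((2:𝕜) ^ n) • h n i) x‖ₑ) := measurable_of_countable _
      exact this.comp (hθ n)
    have h1 : ∫⁻ t, S t x ∂μ < ⊤ := by
      simp only [hS]
      rw [lintegral_tsum (fun n => (hmn n).aemeasurable)]
      have h2 : ∀ n, ∫⁻ t, ‖f n t x‖ₑ ∂μ ≤ ENNReal.ofReal ((2:ℝ)⁻¹ ^ n * ‖x‖) := by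
        intro n
        have h3 := hint n (fun i => ‖(((2:𝕜) ^ n) • h n i) x‖ₑ)
        simp only [hf]
        rw [h3]
        have h4 : ∑ i, ‖(((2:𝕜) ^ n) • h n i) x‖ₑ = ENNReal.ofReal (2 ^ n * ∑ i, ‖h n i x‖) := by
          rw [Finset.mul_sum, ENNReal.ofReal_sum_of_nonneg (fun i _ => by positivity)]
          apply Finset.sum_congr rfl
          intro i _
          rw [smul_apply, enorm_smul, ENNReal.ofReal_mul (by positivity), ← ofReal_norm, ← ofReal_norm,
            norm_pow, RCLike.norm_ofNat]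
        rw [h4]
        have h5 : (M n : ℝ≥0∞)⁻¹ = ENNReal.ofReal ((M n : ℝ)⁻¹) := by
          rw [ENNReal.ofReal_inv_of_pos (by exact_mod_cast hM n), ENNReal.ofReal_natCast]
        rw [h5, ← ENNReal.ofReal_mul (by positivity)]
        apply ENNReal.ofReal_le_ofReal
        have h6 := hsum n x
        have hMp : (0:ℝ) < M n := by exact_mod_cast hM n
        calc (M n : ℝ)⁻¹ * (2 ^ n * ∑ i, ‖h n i x‖)
            ≤ (M n : ℝ)⁻¹ * (2 ^ n * ((4:ℝ)⁻¹ ^ n * M n * ‖x‖)) := by gcongr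
          _ = (2 * 4⁻¹) ^ n * ‖x‖ * ((M n : ℝ)⁻¹ * M n) := by rw [mul_pow]; ring
          _ = (2:ℝ)⁻¹ ^ n * ‖x‖ := by
              rw [inv_mul_cancel₀ hMp.ne', mul_one]; norm_num
      refine lt_of_le_of_lt (ENNReal.tsum_le_tsum h2) ?_
      have hs : Summable (fun n : ℕ => (2:ℝ)⁻¹ ^ n * ‖x‖) :=
        (summable_geometric_of_lt_one (by norm_num) (by norm_num)).mul_right _
      rw [← ENNReal.ofReal_tsum_of_nonneg (fun n => by positivity) hs]
      exact ENNReal.ofReal_lt_top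
    exact ae_lt_top (Measurable.tsum hmn) h1.ne
  -- the null family
  have hNF : NullFam m X (fun t x => S (toR t) x < ⊤) := by
    constructor
    intro M' _ x
    have hjm : Measurable (fun p : ℝ × List TR => S p.1 (x p.2)) := by
      simp only [hS]
      apply Measurable.tsum
      intro n
      have h1 : Measurable (fun p : Fin (M n) × List TR => ‖(((2:𝕜) ^ n) • h n p.1) (x p.2)‖ₑ) := by
        apply measurable_from_prod_countable_right
        intro i
        exact measurable_from_top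
      exact h1.comp ((hθ n).comp measurable_fst |>.prodMk measurable_snd)
    have h2 : MeasurableSet {p : ℝ × List TR | ¬ S p.1 (x p.2) < ⊤} :=
      (measurableSet_lt hjm measurable_const).compl
    have h3 : (M'.prod μ) {p : List TR × ℝ | ¬ S p.2 (x p.1) < ⊤} = 0 := by
      have h2' : MeasurableSet {p : List TR × ℝ | ¬ S p.2 (x p.1) < ⊤} :=
        measurable_swap h2
      rw [Measure.measure_prod_null h2']
      filter_upwards with l
      exact hSm (x l)
    have h4 : (μ.prod M') {p : ℝ × List TR | ¬ S p.1 (x p.2) < ⊤} = 0 := by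
      rw [← Measure.prod_swap, Measure.map_apply measurable_swap h2]
      exact h3
    have h5 : ∀ᵐ t ∂μ, ∀ᵐ l ∂M', S t (x l) < ⊤ :=
      Measure.ae_ae_of_ae_prod (p := fun p => S p.1 (x p.2) < ⊤) h4
    exact ae_of_ae_map hmeas.aemeasurable h5
  -- the subspaces
  have hSadd : ∀ t x y, S t (x + y) ≤ S t x + S t y := by
    intro t x y
    simp only [hS]
    rw [← ENNReal.tsum_add]
    apply ENNReal.tsum_le_tsum
    intro n
    rw [map_add]
    exact enorm_add_le _ _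
  have hSsmul : ∀ t (c : 𝕜) x, S t (c • x) = ‖c‖ₑ * S t x := by
    intro t c x
    simp only [hS]
    rw [← ENNReal.tsum_mul_left]
    congr 1
    funext n
    rw [map_smul, enorm_smul]
  let D : ℝ → Submodule 𝕜 X := fun t =>
    { carrier := {x | S t x < ⊤}
      add_mem' := fun {x y} hx hy => lt_of_le_of_lt (hSadd t x y) (ENNReal.add_lt_top.mpr ⟨hx, hy⟩)
      zero_mem' := by simp [hS]
      smul_mem' := fun c x hx => by
        show S t (c • x) < ⊤
        rw [hSsmul]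
        exact ENNReal.mul_lt_top enorm_lt_top hx }
  by_cases hdense : ∃ t, Dense (D t : Set X)
  · left
    obtain ⟨t, ht⟩ := hdense
    apply hT1 (fun n => f n t)
    · simp only [hfn]
      exact tendsto_pow_atTop_atTop_of_one_lt (by norm_num)
    · refine ht.mono ?_
      intro x hx
      have hx' : ∑' n, ‖f n t x‖ₑ ≠ ⊤ := ne_of_lt hx
      have h1 := ENNReal.tendsto_atTop_zero_of_tsum_ne_top hx'
      show Tendsto (fun n => f n t x) atTop (𝓝 0)
      rw [tendsto_zero_iff_norm_tendsto_zero]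
      have h2 : Tendsto (fun n => (‖f n t x‖ₑ).toReal) atTop (𝓝 0) := by
        have := (ENNReal.tendsto_toReal ENNReal.zero_ne_top).comp h1
        simpa only [Function.comp_def, ENNReal.toReal_zero] using this
      simpa only [toReal_enorm] using h2
  · right
    push Not at hdense
    choose u₀ hu₀ hu₀D using fun t => exists_vanishing (D t) (hdense t)
    set u₁ : TR → (X →L[𝕜] 𝕜) := fun t => u₀ (toR t) with hu₁d
    have hu₁ : ∀ t, ‖u₁ t‖ = 1 := fun t => hu₀ _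
    choose nv hnv1 hnv2 using fun φ : X →L[𝕜] 𝕜 => exists_norming φ
    let ι := Σ A : Finset ℕ, (A → ℕ)
    let φ : ι → (ℕ → TR) → (X →L[𝕜] 𝕜) := fun a ϑ =>
      ∑ i : a.1, (TopologicalSpace.denseSeq 𝕜 (a.2 i)) • u₁ (ϑ i)
    obtain ⟨ϑ, hϑ⟩ := exists_sequence hNF (ι := ι) (fun a => a.1) (fun a ϑ => nv (φ a ϑ)) (by
      intro a ϑ ϑ' hh
      have : φ a ϑ = φ a ϑ' := by
        apply Finset.sum_congr rfl
        intro i _
        rw [hh i i.2]
      simp only [this])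
    refine ⟨fun i => u₁ (ϑ i), fun i => hu₁ _, fun A a => ?_⟩
    set N := ‖∑ i ∈ A, a i • u₁ (ϑ i)‖ with hN
    by_cases hN0 : N = 0
    · exact ⟨0, by simp, by simp, by simp [hN0]⟩
    have hNpos : 0 < N := lt_of_le_of_ne (norm_nonneg _) (Ne.symm hN0)
    set δ : ℝ := N / (8 * (A.card + 1)) with hδ
    have hδpos : 0 < δ := by positivity
    have hch : ∀ i : A, ∃ k : ℕ, ‖TopologicalSpace.denseSeq 𝕜 k - a i‖ < δ := by
      intro i
      obtain ⟨k, hk⟩ := (TopologicalSpace.denseRange_denseSeq 𝕜).exists_dist_lt (a i) hδpos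
      exact ⟨k, by rw [← dist_eq_norm, dist_comm]; exact hk⟩
    choose k hk using hch
    set b : ι := ⟨A, k⟩ with hb
    have hφb : φ b ϑ = ∑ i : A, (TopologicalSpace.denseSeq 𝕜 (k i)) • u₁ (ϑ i) := rfl
    have hdiff : ‖(∑ i ∈ A, a i • u₁ (ϑ i)) - φ b ϑ‖ ≤ N / 8 := by
      rw [hφb, ← Finset.sum_coe_sort A (fun i => a i • u₁ (ϑ i)), ← Finset.sum_sub_distrib]
      calc ‖∑ i : A, (a i • u₁ (ϑ i) - TopologicalSpace.denseSeq 𝕜 (k i) • u₁ (ϑ i))‖
          ≤ ∑ i : A, ‖a i • u₁ (ϑ i) - TopologicalSpace.denseSeq 𝕜 (k i) • u₁ (ϑ i)‖ :=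
            norm_sum_le _ _
        _ ≤ ∑ i : A, δ := by
            apply Finset.sum_le_sum
            intro i _
            have e : a i • u₁ (ϑ i) - TopologicalSpace.denseSeq 𝕜 (k i) • u₁ (ϑ i) =
                (a i - TopologicalSpace.denseSeq 𝕜 (k i)) • u₁ (ϑ i) := by
              ext y
              simp [sub_mul]
            rw [e, norm_smul, hu₁, mul_one, norm_sub_rev]
            exact (hk i).le
        _ = A.card * δ := by simp
        _ ≤ N / 8 := by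
            rw [hδ]
            have : (A.card : ℝ) * (N / (8 * (A.card + 1))) = N / 8 * (A.card / (A.card + 1)) := by
              field_simp
            rw [this]
            have h2 : (A.card : ℝ) / (A.card + 1) ≤ 1 := by
              rw [div_le_one (by positivity)]; linarith
            nlinarith
    have hxn := hnv1 (φ b ϑ)
    refine ⟨nv (φ b ϑ), hxn, ?_, ?_⟩
    · intro j hj
      have h1 := hϑ b j hj
      exact hu₀D _ _ h1
    · have h1 : N ≤ ‖φ b ϑ‖ + N / 8 := by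
        calc N = ‖φ b ϑ + ((∑ i ∈ A, a i • u₁ (ϑ i)) - φ b ϑ)‖ := by rw [hN]; congr 1; abel
          _ ≤ ‖φ b ϑ‖ + ‖(∑ i ∈ A, a i • u₁ (ϑ i)) - φ b ϑ‖ := norm_add_le _ _
          _ ≤ _ := by gcongr
      have h2 := hnv2 (φ b ϑ)
      have h3 : ‖φ b ϑ (nv (φ b ϑ))‖ ≤ ‖∑ i ∈ A, a i * u₁ (ϑ i) (nv (φ b ϑ))‖ + N / 8 := by
        have e : ∑ i ∈ A, a i * u₁ (ϑ i) (nv (φ b ϑ)) = (∑ i ∈ A, a i • u₁ (ϑ i)) (nv (φ b ϑ)) := by
          simp
        rw [e]
        calc ‖φ b ϑ (nv (φ b ϑ))‖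
            = ‖(∑ i ∈ A, a i • u₁ (ϑ i)) (nv (φ b ϑ)) -
              ((∑ i ∈ A, a i • u₁ (ϑ i)) - φ b ϑ) (nv (φ b ϑ))‖ := by
              rw [sub_apply]; congr 1; ring
          _ ≤ ‖(∑ i ∈ A, a i • u₁ (ϑ i)) (nv (φ b ϑ))‖ +
              ‖((∑ i ∈ A, a i • u₁ (ϑ i)) - φ b ϑ) (nv (φ b ϑ))‖ := norm_sub_le _ _
          _ ≤ ‖(∑ i ∈ A, a i • u₁ (ϑ i)) (nv (φ b ϑ))‖ + N / 8 := by
              gcongr
              calc _ ≤ ‖(∑ i ∈ A, a i • u₁ (ϑ i)) - φ b ϑ‖ * ‖nv (φ b ϑ)‖ :=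
                    ContinuousLinearMap.le_opNorm _ _
                _ ≤ N / 8 * 1 := by gcongr
                _ = N / 8 := mul_one _
      linarith

end Crest.Agent.R114.V
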