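import Crest.Agent.R114.SepQuot

/-!
Row 114, S0153, step T4': from a 4-suppression-unconditional normalised sequence of functionals
with norming vectors supported on the same set we get a separable infinite-dimensional quotient
or a sequence in the dual ball with a lower `ℓ₁`-estimate.
-/

set_option autoImplicit false

open Filter Topology

namespace Crest.Agent.R114.VT4

variable {𝕜 : Type*} [RCLike 𝕜] {X : Type*} [NormedAddCommGroup X] [NormedSpace 𝕜 X]

/-- The suppression property (output of T3). -/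
def PropS (u : ℕ → X →L[𝕜] 𝕜) : Prop :=
  ∀ (A : Finset ℕ) (a : ℕ → 𝕜), ∃ x : X, ‖x‖ ≤ 1 ∧ (∀ j ∉ A, u j x = 0) ∧
    ‖∑ i ∈ A, a i • u i‖ ≤ 4 * ‖∑ i ∈ A, a i * u i x‖

theorem PropS.suppress {u : ℕ → X →L[𝕜] 𝕜} (hs : PropS u) {B A : Finset ℕ} (h : B ⊆ A)
    (a : ℕ → 𝕜) : ‖∑ i ∈ B, a i • u i‖ ≤ 4 * ‖∑ i ∈ A, a i • u i‖ := by
  obtain ⟨x, hx, h0, h1⟩ := hs B a
  refine h1.trans ?_
  have h2 : ∑ i ∈ B, a i * u i x = (∑ i ∈ A, a i • u i) x := by
    rw [sum_apply, ← Finset.sum_subset h]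
    · rfl
    · intro i _ hi
      simp [h0 i hi]
  rw [h2]
  have h3 := (∑ i ∈ A, a i • u i).le_opNorm x
  have h4 : 0 ≤ ‖∑ i ∈ A, a i • u i‖ := norm_nonneg _
  have h5 : ‖∑ i ∈ A, a i • u i‖ * ‖x‖ ≤ ‖∑ i ∈ A, a i • u i‖ * 1 :=
    mul_le_mul_of_nonneg_left hx h4
  linarith

theorem sum_abs_le_of_subsets {ι : Type*} (F : Finset ι) (r : ι → ℝ) (C : ℝ)
    (h : ∀ P ⊆ F, |∑ k ∈ P, r k| ≤ C) : ∑ k ∈ F, |r k| ≤ 2 * C := by
  classical
  have h1 : ∑ k ∈ F, |r k| = ∑ k ∈ F with 0 ≤ r k, r k - ∑ k ∈ F with ¬ 0 ≤ r k, r k := by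
    rw [← Finset.sum_filter_add_sum_filter_not F (fun k => 0 ≤ r k) (fun k => |r k|),
      sub_eq_add_neg, ← Finset.sum_neg_distrib]
    congr 1
    · refine Finset.sum_congr rfl fun k hk => ?_
      exact abs_of_nonneg (Finset.mem_filter.mp hk).2
    · refine Finset.sum_congr rfl fun k hk => ?_
      exact abs_of_neg (not_le.mp (Finset.mem_filter.mp hk).2)
  rw [h1]
  have h2 := (abs_le.mp (h _ (Finset.filter_subset (fun k => 0 ≤ r k) F))).2
  have h3 := (abs_le.mp (h _ (Finset.filter_subset (fun k => ¬ 0 ≤ r k) F))).1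
  linarith

theorem sum_norm_le_of_subsets {ι : Type*} (F : Finset ι) (z : ι → 𝕜) (C : ℝ)
    (h : ∀ P ⊆ F, ‖∑ k ∈ P, z k‖ ≤ C) : ∑ k ∈ F, ‖z k‖ ≤ 4 * C := by
  have h1 : ∑ k ∈ F, |RCLike.re (z k)| ≤ 2 * C := by
    refine sum_abs_le_of_subsets F _ C fun P hP => ?_
    rw [← map_sum]
    exact (RCLike.abs_re_le_norm _).trans (h P hP)
  have h2 : ∑ k ∈ F, |RCLike.im (z k)| ≤ 2 * C := by
    refine sum_abs_le_of_subsets F _ C fun P hP => ?_
    rw [← map_sum]
    exact (RCLike.abs_im_le_norm _).trans (h P hP)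
  have h3 : ∀ w : 𝕜, ‖w‖ ≤ |RCLike.re w| + |RCLike.im w| := by
    intro w
    have h4 : w = (RCLike.re w : 𝕜) + (RCLike.im w : 𝕜) * RCLike.I := (RCLike.re_add_im w).symm
    calc ‖w‖ = ‖(RCLike.re w : 𝕜) + (RCLike.im w : 𝕜) * RCLike.I‖ := by rw [← h4]
      _ ≤ ‖(RCLike.re w : 𝕜)‖ + ‖(RCLike.im w : 𝕜) * RCLike.I‖ := norm_add_le _ _
      _ ≤ |RCLike.re w| + |RCLike.im w| := by
        rw [norm_mul, RCLike.norm_ofReal, RCLike.norm_ofReal]
        have h5 : ‖(RCLike.I : 𝕜)‖ ≤ 1 := by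
          by_cases h : (RCLike.I : 𝕜) = 0
          · rw [h, norm_zero]; exact zero_le_one
          · exact (RCLike.norm_I_of_ne_zero h).le
        have h6 := mul_le_mul_of_nonneg_left h5 (abs_nonneg (RCLike.im w))
        linarith
  calc ∑ k ∈ F, ‖z k‖ ≤ ∑ k ∈ F, (|RCLike.re (z k)| + |RCLike.im (z k)|) :=
        Finset.sum_le_sum fun k _ => h3 _
    _ = ∑ k ∈ F, |RCLike.re (z k)| + ∑ k ∈ F, |RCLike.im (z k)| := Finset.sum_add_distrib
    _ ≤ 4 * C := by linarith

/-- Lower `ℓ₁`-estimate for disjoint blocks `w k = ∑ i ∈ A k, a k i • u i` that are all large at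
one vector `y`. -/
theorem PropS.lower {u : ℕ → X →L[𝕜] 𝕜} (hs : PropS u) (A : ℕ → Finset ℕ)
    (hA : ∀ k l, k ≠ l → Disjoint (A k) (A l)) (a : ℕ → ℕ → 𝕜) (y : X) {δ : ℝ}
    (hy : ∀ k, δ ≤ ‖∑ i ∈ A k, a k i * u i y‖) (F : Finset ℕ) (c : ℕ → 𝕜) :
    δ * ∑ k ∈ F, ‖c k‖ ≤ 16 * ‖∑ k ∈ F, c k • ∑ i ∈ A k, a k i • u i‖ * ‖y‖ := by
  classical
  -- block index of `i`
  obtain ⟨κ, hκ⟩ : ∃ κ : ℕ → ℕ, ∀ k, ∀ i ∈ A k, κ i = k := by
    refine ⟨fun i => if h : ∃ k, i ∈ A k then h.choose else 0, fun k i hi => ?_⟩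
    have h : ∃ k, i ∈ A k := ⟨k, hi⟩
    simp only [h, dif_pos]
    by_contra hne
    exact (Finset.disjoint_left.mp (hA _ _ hne)) h.choose_spec hi
  let β : ℕ → 𝕜 := fun i => c (κ i) * a (κ i) i
  have hsum : ∀ P : Finset ℕ, ∑ k ∈ P, c k • ∑ i ∈ A k, a k i • u i
      = ∑ i ∈ P.biUnion A, β i • u i := by
    intro P
    rw [Finset.sum_biUnion]
    · refine Finset.sum_congr rfl fun k _ => ?_
      rw [Finset.smul_sum]
      refine Finset.sum_congr rfl fun i hi => ?_
      simp only [β, hκ k i hi, mul_smul]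
    · intro k _ l _ hkl
      exact hA k l hkl
  have hsup : ∀ P ⊆ F, ‖∑ k ∈ P, c k * ∑ i ∈ A k, a k i * u i y‖
      ≤ 4 * ‖∑ k ∈ F, c k • ∑ i ∈ A k, a k i • u i‖ * ‖y‖ := by
    intro P hP
    have h1 : ∑ k ∈ P, c k * ∑ i ∈ A k, a k i * u i y
        = (∑ k ∈ P, c k • ∑ i ∈ A k, a k i • u i) y := by
      simp only [sum_apply, smul_apply, smul_eq_mul]
    rw [h1]
    refine ((∑ k ∈ P, c k • ∑ i ∈ A k, a k i • u i).le_opNorm y).trans ?_
    refine mul_le_mul_of_nonneg_right ?_ (norm_nonneg _)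
    rw [hsum P, hsum F]
    exact hs.suppress (Finset.biUnion_subset_biUnion_of_subset_left A hP) β
  have h2 := sum_norm_le_of_subsets F (fun k => c k * ∑ i ∈ A k, a k i * u i y) _ hsup
  calc δ * ∑ k ∈ F, ‖c k‖ = ∑ k ∈ F, ‖c k‖ * δ := by
        rw [Finset.mul_sum]; exact Finset.sum_congr rfl fun k _ => mul_comm _ _
    _ ≤ ∑ k ∈ F, ‖c k * ∑ i ∈ A k, a k i * u i y‖ := by
        refine Finset.sum_le_sum fun k _ => ?_
        rw [norm_mul]
        exact mul_le_mul_of_nonneg_left (hy k) (norm_nonneg _)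
    _ ≤ 4 * (4 * ‖∑ k ∈ F, c k • ∑ i ∈ A k, a k i • u i‖ * ‖y‖) := h2
    _ = 16 * ‖∑ k ∈ F, c k • ∑ i ∈ A k, a k i • u i‖ * ‖y‖ := by ring

/-- biorthogonal vectors -/
theorem PropS.exists_biorth {u : ℕ → X →L[𝕜] 𝕜} (hs : PropS u) (hu : ∀ i, ‖u i‖ = 1) :
    ∃ e : ℕ → X, ∀ i j, u i (e j) = if i = j then 1 else 0 := by
  have h : ∀ j, ∃ e : X, ∀ i, u i e = if i = j then 1 else 0 := by
    intro j
    obtain ⟨x, _, h0, h1⟩ := hs {j} (fun _ => 1)
    have hne : u j x ≠ 0 := by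
      intro h2
      simp [h2, hu] at h1
      linarith
    refine ⟨(u j x)⁻¹ • x, fun i => ?_⟩
    by_cases hij : i = j
    · subst hij
      simp [hne]
    · have : u i x = 0 := h0 i (by simpa using hij)
      simp [this, hij]
  choose e he using h
  exact ⟨e, fun i j => he j i⟩

/-- T4': separable quotient or a sequence in the dual ball with a lower `ℓ₁`-estimate. -/
theorem T4' [CompleteSpace X] (u : ℕ → X →L[𝕜] 𝕜) (hu : ∀ i, ‖u i‖ = 1)
    (hs : ∀ (A : Finset ℕ) (a : ℕ → 𝕜), ∃ x : X, ‖x‖ ≤ 1 ∧ (∀ j ∉ A, u j x = 0) ∧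
        ‖∑ i ∈ A, a i • u i‖ ≤ 4 * ‖∑ i ∈ A, a i * u i x‖) :
    SepQuot 𝕜 X ∨ ∃ (g : ℕ → (X →L[𝕜] 𝕜)) (ρ : ℝ), 0 < ρ ∧ (∀ k, ‖g k‖ ≤ 1) ∧
      ∀ (F : Finset ℕ) (c : ℕ → 𝕜), ρ * ∑ k ∈ F, ‖c k‖ ≤ ‖∑ k ∈ F, c k • g k‖ := by
  classical
  have hS : PropS u := hs
  obtain ⟨e, he⟩ := hS.exists_biorth hu
  -- the common kernel
  let M : Submodule 𝕜 X := ⨅ i, LinearMap.ker (u i).toLinearMap
  have hMmem : ∀ z : X, z ∈ M ↔ ∀ i, u i z = 0 := by
    intro z; simp [M, Submodule.mem_iInf]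
  have hMclosed : IsClosed (M : Set X) := by
    have : (M : Set X) = ⋂ i, {z : X | u i z = 0} := by
      ext z; simp [hMmem]
    rw [this]
    exact isClosed_iInter (fun i => isClosed_eq (u i).continuous continuous_const)
  have : IsClosed (M : Set X) := hMclosed
  let s : X → ℕ → X := fun x n => ∑ i ∈ Finset.range n, u i x • e i
  have hus : ∀ x n j, u j (s x n) = if j < n then u j x else 0 := by
    intro x n j
    simp only [s, map_sum, map_smul, smul_eq_mul, he, mul_ite, mul_one, mul_zero]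
    rw [Finset.sum_ite_eq (Finset.range n) j]
    simp [Finset.mem_range]
  by_cases hC : ∀ x : X, CauchySeq (fun n => M.mkQ (s x n))
  · left
    refine ⟨M, hMclosed, ?_, ?_⟩
    · -- separable
      rw [← TopologicalSpace.isSeparable_univ_iff]
      have h1 : TopologicalSpace.IsSeparable
          (Submodule.span 𝕜 (Set.range (fun n => M.mkQ (e n))) : Set (X ⧸ M)) :=
        (Set.countable_range _).isSeparable.span
      refine h1.closure.mono ?_
      intro z _
      obtain ⟨x, rfl⟩ := M.mkQ_surjective z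
      obtain ⟨z', hz'⟩ := cauchySeq_tendsto_of_complete (hC x)
      obtain ⟨x', rfl⟩ := M.mkQ_surjective z'
      have hcont : ∀ j, Continuous (fun z : X ⧸ M => M.liftQ (u j).toLinearMap
          (fun m hm => by simpa using (hMmem m).mp hm j) z) := by
        intro j
        exact M.isQuotientMap_mkQ.continuous_iff.mpr (u j).continuous
      have heq : ∀ j, u j x' = u j x := by
        intro j
        have h2 := (hcont j).continuousAt.tendsto.comp hz'
        have h3 : Tendsto (fun n => u j (s x n)) atTop (𝓝 (u j x')) := h2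
        have h4 : Tendsto (fun n => u j (s x n)) atTop (𝓝 (u j x)) := by
          refine tendsto_const_nhds.congr' ?_
          filter_upwards [eventually_gt_atTop j] with n hn
          rw [hus, if_pos hn]
        exact tendsto_nhds_unique h3 h4
      have hxx : M.mkQ x' = M.mkQ x := by
        rw [Submodule.mkQ_apply, Submodule.mkQ_apply, Submodule.Quotient.eq, hMmem]
        intro j
        rw [map_sub, heq, sub_self]
      rw [← hxx]
      refine mem_closure_of_tendsto hz' (Eventually.of_forall fun n => ?_)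
      simp only [s, map_sum, map_smul]
      exact Submodule.sum_mem _ fun j _ => Submodule.smul_mem _ _ (Submodule.subset_span ⟨j, rfl⟩)
    · -- infinite dimensional
      intro hfd
      have hli : LinearIndependent 𝕜 (fun j => M.mkQ (e j)) := by
        rw [linearIndependent_iff']
        intro t g hg i hi
        have hmem : ∑ j ∈ t, g j • e j ∈ M := by
          have h1 : M.mkQ (∑ j ∈ t, g j • e j) = 0 := by
            rw [map_sum]; simpa [map_smul] using hg
          rwa [Submodule.mkQ_apply, Submodule.Quotient.mk_eq_zero] at h1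
        have h2 := (hMmem _).mp hmem i
        simp only [map_sum, map_smul, smul_eq_mul, he, mul_ite, mul_one, mul_zero] at h2
        rw [Finset.sum_ite_eq t i] at h2
        simpa [hi] using h2
      have := hli.finite_of_isNoetherian
      exact not_finite ℕ
  · right
    push Not at hC
    obtain ⟨y, hy⟩ := hC
    rw [Metric.cauchySeq_iff'] at hy
    push Not at hy
    obtain ⟨δ, hδ, hy⟩ := hy
    choose nx hnx hnd using hy
    have hlt : ∀ N, N < nx N := by
      intro N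
      rcases lt_or_eq_of_le (hnx N) with h | h
      · exact h
      · exfalso
        have := hnd N
        rw [← h, dist_self] at this
        linarith
    let N : ℕ → ℕ := fun k => nx^[k] 0
    have hN : ∀ k, N (k + 1) = nx (N k) := fun k => Function.iterate_succ_apply' nx k 0
    have hNmono : StrictMono N := strictMono_nat_of_lt_succ fun k => by
      rw [hN]; exact hlt _
    let A : ℕ → Finset ℕ := fun k => Finset.Ico (N k) (N (k + 1))
    have hAlt : ∀ k l, k < l → Disjoint (A k) (A l) := by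
      intro k l hkl
      rw [Finset.disjoint_left]
      intro i hi hi'
      have h1 := (Finset.mem_Ico.mp hi).2
      have h2 := (Finset.mem_Ico.mp hi').1
      have h3 : N (k + 1) ≤ N l := hNmono.monotone hkl
      omega
    have hA : ∀ k l, k ≠ l → Disjoint (A k) (A l) := by
      intro k l hkl
      rcases lt_or_gt_of_ne hkl with h | h
      · exact hAlt k l h
      · exact (hAlt l k h).symm
    -- norming functionals on the quotient
    have hblock : ∀ k, ∃ a : ℕ → 𝕜, ‖∑ i ∈ A k, a i • u i‖ ≤ 4 ∧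
        δ ≤ ‖∑ i ∈ A k, a i * u i y‖ := by
      intro k
      set φ : X := ∑ i ∈ A k, u i y • e i with hφ
      have h1 : δ ≤ ‖M.mkQ φ‖ := by
        have h2 := hnd (N k)
        rw [dist_eq_norm, ← map_sub] at h2
        have h3 : s y (nx (N k)) - s y (N k) = φ := by
          simp only [s, hφ, A, hN]
          rw [Finset.sum_Ico_eq_sub _ (hlt _).le]
        rwa [h3] at h2
      have hne : M.mkQ φ ≠ 0 := by
        intro h0
        rw [h0, norm_zero] at h1
        linarith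
      obtain ⟨ψ, hψ1, hψ2⟩ := exists_dual_vector 𝕜 (M.mkQ φ) (norm_ne_zero_iff.mpr hne)
      refine ⟨fun i => ψ (M.mkQ (e i)), ?_, ?_⟩
      · obtain ⟨x, hx, h0, h4⟩ := hS (A k) (fun i => ψ (M.mkQ (e i)))
        refine h4.trans ?_
        have h5 : ∑ i ∈ A k, ψ (M.mkQ (e i)) * u i x = ψ (M.mkQ x) := by
          have h6 : M.mkQ x = M.mkQ (∑ i ∈ A k, u i x • e i) := by
            rw [Submodule.mkQ_apply, Submodule.mkQ_apply, Submodule.Quotient.eq, hMmem]
            intro j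
            rw [map_sub, map_sum]
            simp only [map_smul, smul_eq_mul, he, mul_ite, mul_one, mul_zero]
            rw [Finset.sum_ite_eq (A k) j]
            by_cases hj : j ∈ A k
            · simp [hj]
            · simp [hj, h0 j hj]
          rw [h6, map_sum, map_sum]
          refine Finset.sum_congr rfl fun i _ => ?_
          simp only [map_smul, smul_eq_mul]
          ring
        rw [h5]
        have h7 : ‖ψ (M.mkQ x)‖ ≤ 1 := by
          refine (ψ.le_opNorm _).trans ?_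
          rw [hψ1, one_mul]
          exact (Submodule.Quotient.norm_mk_le M x).trans hx
        linarith
      · have h5 : ∑ i ∈ A k, ψ (M.mkQ (e i)) * u i y = ψ (M.mkQ φ) := by
          rw [hφ, map_sum, map_sum]
          refine Finset.sum_congr rfl fun i _ => ?_
          simp only [map_smul, smul_eq_mul]
          ring
        rw [h5, hψ2]
        simpa using h1
    choose a ha1 ha2 using hblock
    have hypos : 0 < ‖y‖ := by
      rw [norm_pos_iff]
      rintro rfl
      have := ha2 0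
      simp at this
      linarith
    refine ⟨fun k => (4 : 𝕜)⁻¹ • ∑ i ∈ A k, a k i • u i, δ / (64 * ‖y‖), by positivity, ?_, ?_⟩
    · intro k
      rw [norm_smul, norm_inv]
      have : ‖(4 : 𝕜)‖ = 4 := by
        rw [show (4 : 𝕜) = ((4 : ℕ) : 𝕜) by norm_num, RCLike.norm_natCast]; norm_num
      rw [this]
      have := ha1 k
      linarith
    · intro F c
      have h1 := hS.lower A hA a y ha2 F c
      have h2 : ∑ k ∈ F, c k • (4 : 𝕜)⁻¹ • ∑ i ∈ A k, a k i • u i
          = (4 : 𝕜)⁻¹ • ∑ k ∈ F, c k • ∑ i ∈ A k, a k i • u i := by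
        rw [Finset.smul_sum]
        refine Finset.sum_congr rfl fun k _ => ?_
        rw [smul_comm]
      rw [h2, norm_smul, norm_inv]
      have h4 : ‖(4 : 𝕜)‖ = 4 := by
        rw [show (4 : 𝕜) = ((4 : ℕ) : 𝕜) by norm_num, RCLike.norm_natCast]; norm_num
      rw [h4, div_mul_eq_mul_div, div_le_iff₀ (by positivity)]
      calc δ * ∑ k ∈ F, ‖c k‖ ≤ 16 * ‖∑ k ∈ F, c k • ∑ i ∈ A k, a k i • u i‖ * ‖y‖ := h1
        _ = 4⁻¹ * ‖∑ k ∈ F, c k • ∑ i ∈ A k, a k i • u i‖ * (64 * ‖y‖) := by ring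

end Crest.Agent.R114.VT4
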