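import Crest.Agent.R114.XDualAbs
import Crest.Agent.R114.FrameInst

/-! # Row 114, S0152: `X* = V` for the space `VV c 𝕜` (helper898) -/

set_option autoImplicit false

open Set Filter Topology

namespace Crest.Agent.R114

variable {I : Type} [LinearOrder I] {c : Coding I} {𝕜 : Type} [RCLike 𝕜]

lemma RV_Ico (a b : I) (hab : a ≤ b) (v : VV c 𝕜) :
    RV c 𝕜 (E := Ico a b) ordConnected_Ico v =
      RV c 𝕜 (E := Iio b) ordConnected_Iio v - RV c 𝕜 (E := Iio a) ordConnected_Iio v := by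
  have h : RV c 𝕜 (E := Ico a b) ordConnected_Ico =
      RV c 𝕜 (E := Iio b) ordConnected_Iio - RV c 𝕜 (E := Iio a) ordConnected_Iio := by
    refine ext_vec fun f => ?_
    show _ = RV c 𝕜 (E := Iio b) ordConnected_Iio (vec c f) -
      RV c 𝕜 (E := Iio a) ordConnected_Iio (vec c f)
    rw [RV_vec, RV_vec, RV_vec, eq_sub_iff_add_eq, ← vec_add]
    congr 1
    classical
    ext x
    rw [Finsupp.add_apply, cut_apply, cut_apply, cut_apply]
    by_cases h1 : x < a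
    · have h2 : x < b := h1.trans_le hab
      simp [h1, h2, not_le.2 h1]
    · by_cases h2 : x < b
      · simp [h1, h2, not_lt.1 h1]
      · simp [h1, h2]
  rw [h]; rfl

lemma exists_ratio_small {ε : ℝ} (hε : 0 < ε) : ∃ j : ℕ, 2 * (mq j : ℝ) ≤ ε * nq j := by
  obtain ⟨j0, hj0⟩ := exists_nat_gt (2 / ε)
  let j := max j0 2
  have hj2 : 2 ≤ j := le_max_right _ _
  have hj : 2 / ε < j := hj0.trans_le (by exact_mod_cast le_max_left _ _)
  refine ⟨j, ?_⟩
  have h1 := two_mq_lt j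
  have h2 : ((j ^ (4 * j + 6) : ℕ) : ℝ) ≤ nq j := by exact_mod_cast pow_le_nq (le_refl j)
  have hjpos : (0 : ℝ) < j := by
    have : (2 : ℝ) ≤ j := by exact_mod_cast hj2
    linarith
  have h3 : (2 : ℝ) ^ (4 * j + 6) ≤ ε * (j : ℝ) ^ (4 * j + 6) := by
    have e1 : (2 : ℝ) ^ (4 * j + 6) = 2 ^ (4 * j + 5) * 2 := by rw [← pow_succ]
    have e2 : (j : ℝ) ^ (4 * j + 6) = (j : ℝ) ^ (4 * j + 5) * j := by rw [← pow_succ]
    rw [e1, e2]
    have h4 : (2 : ℝ) ^ (4 * j + 5) ≤ (j : ℝ) ^ (4 * j + 5) := by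
      apply pow_le_pow_left₀ (by norm_num)
      exact_mod_cast hj2
    have h5 : (2 : ℝ) ≤ ε * j := by
      rw [div_lt_iff₀ hε] at hj
      linarith
    calc (2 : ℝ) ^ (4 * j + 5) * 2 ≤ (j : ℝ) ^ (4 * j + 5) * (ε * j) :=
          mul_le_mul h4 h5 (by norm_num) (by positivity)
      _ = ε * ((j : ℝ) ^ (4 * j + 5) * j) := by ring
  push_cast at h2
  calc 2 * (mq j : ℝ) ≤ (2 : ℝ) ^ (4 * j + 6) := h1.le
    _ ≤ ε * (j : ℝ) ^ (4 * j + 6) := h3
    _ ≤ ε * nq j := mul_le_mul_of_nonneg_left h2 hε.le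

theorem frameV_lowerEst (c : Coding I) (𝕜 : Type) [RCLike 𝕜] :
    Frame.LowerEst (frameV c 𝕜) := by
  intro ε hε
  obtain ⟨j, hj⟩ := exists_ratio_small hε
  refine ⟨nq j, ?_, ?_⟩
  · by_contra h0
    have h1 : nq j = 0 := by omega
    rw [h1] at hj
    have h2 : (0 : ℝ) < mq j := by
      unfold mq; positivity
    simp only [Nat.cast_zero, mul_zero] at hj
    linarith
  · intro v a ha
    have h1 := lower_estimate_V (c := c) (𝕜 := 𝕜) j (nq j) le_rfl v
      (fun i => Ico (a i) (a (i + 1))) (fun i => ordConnected_Ico) (by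
        intro i i' hii' _ x hx y hy
        exact hx.2.trans_le ((ha (show i + 1 ≤ i' from hii')).trans hy.1))
    calc ∑ i ∈ Finset.range (nq j), ‖(frameV c 𝕜).R (a (i + 1)) v - (frameV c 𝕜).R (a i) v‖ =
        ∑ i ∈ Finset.range (nq j),
          ‖RV c 𝕜 (E := Ico (a i) (a (i + 1))) ordConnected_Ico v‖ := by
          refine Finset.sum_congr rfl fun i _ => ?_
          rw [RV_Ico _ _ (ha (Nat.le_succ i))]
          rfl
      _ ≤ 2 * mq j * ‖v‖ := h1
      _ ≤ ε * nq j * ‖v‖ := mul_le_mul_of_nonneg_right hj (norm_nonneg v)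

lemma ev_eq_actV {d : TData 𝕜 (VV c 𝕜) I} (hest : ∀ ξ, d.est ξ = actV c 𝕜 (Finsupp.single ξ 1))
    (b : I →₀ ℚ) : d.ev b = actV c 𝕜 b := by
  rw [actV_eq_sum]
  unfold TData.ev
  rw [Finsupp.sum]
  exact Finset.sum_congr rfl fun ξ _ => by rw [hest]

lemma actV_cut {E : Set I} (hE : E.OrdConnected) (b : I →₀ ℚ) (v : VV c 𝕜) :
    actV c 𝕜 (cut E b) v = actV c 𝕜 b (RV c 𝕜 hE v) := by
  have h : actV c 𝕜 (cut E b) = (actV c 𝕜 b).comp (RV c 𝕜 hE) := by
    refine ext_vec fun f => ?_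
    show _ = actV c 𝕜 b (RV c 𝕜 hE (vec c f))
    rw [RV_vec, actV_vec, actV_vec, act_cut]
  rw [h]; rfl

theorem normingSet [WellFoundedLT I] {r : Reg c} {d : TData 𝕜 (VV c 𝕜) I} (h : TInst r d) :
    Frame.NormingSet (frameV c 𝕜) d (NB c) where
  norm_le := fun b hb => by
    rw [ev_eq_actV h.est]
    exact norm_actV_le hb
  abs_le := fun b hb η => by
    have := hb.abs_le_one η
    exact_mod_cast this
  cut := fun b hb γ => by
    refine ⟨cut (Iio γ) b, hb.cut ordConnected_Iio, ?_, fun v => ?_⟩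
    · intro η hη
      have h1 := cut_support (Iio γ) b
      classical
      rw [Finsupp.mem_support_iff, cut_apply] at hη
      by_contra hcon
      exact hη (if_neg hcon)
    · rw [ev_eq_actV h.est, ev_eq_actV h.est, actV_cut ordConnected_Iio]
      rfl
  norming := fun v C hC => norm_le_of_actV fun b hb => by
    rw [← ev_eq_actV h.est]
    exact hC b hb

/-- **`X* = V`** -/
theorem hdual [WellFoundedLT I] [Nonempty I] (hcof : ∀ s : ℕ → I, ∃ γ, ∀ n, s n < γ)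
    {r : Reg c} {d : TData 𝕜 (VV c 𝕜) I} (h : TInst r d) :
    ∀ F : Frame.Predual d.gen →L[𝕜] 𝕜, ∃ v : VV c 𝕜, ∀ β,
      F ⟨d.gen β, Frame.mem_predual _ β⟩ = d.gen β v :=
  fun F => Frame.exists_vec h.compat hcof (frameV_lowerEst c 𝕜) (normingSet h) F

theorem hdual' (hI : GoodIndex I) [WellFoundedLT I] {r : Reg c} {d : TData 𝕜 (VV c 𝕜) I}
    (h : TInst r d) : ∀ F : Frame.Predual d.gen →L[𝕜] 𝕜, ∃ v : VV c 𝕜, ∀ β,
      F ⟨d.gen β, Frame.mem_predual _ β⟩ = d.gen β v := by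
  have hne : Nonempty I := hI.ne
  refine hdual (fun s => ?_) h
  obtain ⟨γ, hγ⟩ := hI.bdd (range s) (countable_range s)
  exact ⟨γ, fun n => hγ _ ⟨n, rfl⟩⟩

end Crest.Agent.R114
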