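import Crest.Agent.R114.FrameT

/-! # Row 114, S0152: `X* = V`, abstract form over a frame with recursion data (helper898) -/

set_option autoImplicit false

namespace Crest.Agent.R114

open Filter Topology

section
variable {𝕜 : Type*} [RCLike 𝕜] {V : Type*} [NormedAddCommGroup V] [NormedSpace 𝕜 V]
  {I : Type*} [LinearOrder I] [WellFoundedLT I]

namespace TData

variable (d : TData 𝕜 V I)

/-- local version of `est_add_T_mem` -/
theorem est_add_T_mem_Iic (ξ : I) :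
    ∀ K, d.est ξ + d.T ξ K ∈ Submodule.span 𝕜 (d.gen '' Set.Iic ξ) := by
  induction ξ using WellFoundedLT.induction with
  | ind ξ ih =>
    intro K
    induction K with
    | zero => exact Submodule.subset_span ⟨ξ, le_rfl, rfl⟩
    | succ K ihK =>
      have h1 : d.ev (d.b ξ K) + d.D (d.b ξ K) ∈ Submodule.span 𝕜 (d.gen '' Set.Iic ξ) := by
        unfold D
        rw [ev_add_eq]
        refine Submodule.sum_mem _ fun η hη => Submodule.smul_mem _ _ ?_
        refine Submodule.span_mono (Set.image_mono (Set.Iic_subset_Iic.2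
          (d.lt_of_mem ξ K η hη).le)) (ih η (d.lt_of_mem ξ K η hη) _)
      have h2 : d.est ξ + d.T ξ (K + 1) =
          (d.est ξ + d.T ξ K) - (d.ev (d.b ξ K) + d.D (d.b ξ K)) := by
        rw [d.T_succ ξ K]; abel
      rw [h2]
      exact Submodule.sub_mem _ ihK h1

theorem lift_mem_Iio (c : I →₀ ℚ) (K : ℕ) (γ : I) (hc : ∀ η ∈ c.support, η < γ) :
    d.lift c K ∈ Submodule.span 𝕜 (d.gen '' Set.Iio γ) := by
  unfold lift
  rw [ev_add_eq]
  refine Submodule.sum_mem _ fun η hη => Submodule.smul_mem _ _ ?_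
  refine Submodule.span_mono (Set.image_mono ?_) (d.est_add_T_mem_Iic η _)
  intro x hx
  exact lt_of_le_of_lt hx (hc η hη)

end TData

/-- bound of a functional on a submodule -/
theorem exists_bound_submodule {𝕜 E : Type*} [RCLike 𝕜] [NormedAddCommGroup E] [NormedSpace 𝕜 E]
    (P : Submodule 𝕜 E) (F : P →L[𝕜] 𝕜) : ∃ M : ℝ, 0 ≤ M ∧ ∀ y : P, ‖F y‖ ≤ M * ‖(y : E)‖ :=
  ⟨‖F‖, norm_nonneg _, fun y => F.le_opNorm y⟩

namespace Frame

/-- lower estimates for a frame: successive increments of a vector along long finite sequences are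
small in the mean -/
def LowerEst (Fr : Frame 𝕜 V I) : Prop :=
  ∀ ε > (0 : ℝ), ∃ N : ℕ, 0 < N ∧ ∀ (v : V) (a : ℕ → I), Monotone a →
    ∑ i ∈ Finset.range N, ‖Fr.R (a (i + 1)) v - Fr.R (a i) v‖ ≤ ε * N * ‖v‖

/-- a norming set of rational functionals -/
structure NormingSet (Fr : Frame 𝕜 V I) (d : TData 𝕜 V I) (B : (I →₀ ℚ) → Prop) : Prop where
  norm_le : ∀ b, B b → ‖d.ev b‖ ≤ 1
  abs_le : ∀ b, B b → ∀ η, |((b η : ℚ) : ℝ)| ≤ 1
  cut : ∀ b, B b → ∀ γ, ∃ b', B b' ∧ (∀ η ∈ b'.support, η < γ) ∧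
    ∀ v, d.ev b' v = d.ev b (Fr.R γ v)
  norming : ∀ (v : V) (C : ℝ), (∀ b, B b → ‖d.ev b v‖ ≤ C) → ‖v‖ ≤ C

variable {Fr : Frame 𝕜 V I} {d : TData 𝕜 V I}

theorem Compat.gen_R (h : Compat Fr d) {β γ : I} (hβ : β < γ) (v : V) :
    d.gen β (Fr.R γ v) = d.gen β v := by
  have h3 : ∀ v, d.gen β v = d.est β v + d.T β 0 v := fun v => rfl
  rw [h3, h3, h.est, Fr.e_R_lt β γ hβ, ← h.T_R β 0 (Fr.R γ v), Fr.R_R β γ hβ.le, h.T_R]

theorem Compat.eq_zero [Nonempty I] (h : Compat Fr d) (hcof : ∀ s : ℕ → I, ∃ γ, ∀ n, s n < γ)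
    {γ : I} {v : V} (hR : Fr.R γ v = v) (hv : ∀ β < γ, d.gen β v = 0) : v = 0 := by
  apply Fr.eq_zero_of_e hcof
  intro ξ
  induction ξ using WellFoundedLT.induction with
  | ind ξ ih =>
    rcases lt_or_ge ξ γ with hξ | hξ
    · have h1 : Fr.R ξ v = 0 := Fr.R_eq_zero_of_e ξ ih
      have h2 := hv ξ hξ
      have h3 : d.gen ξ v = d.est ξ v + d.T ξ 0 v := rfl
      rw [h3, ← h.T_R ξ 0 v, h1, map_zero, add_zero, h.est] at h2
      exact h2
    · rw [← hR, Fr.e_R_ge ξ γ hξ]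

variable {F : Predual d.gen →ₗ[𝕜] 𝕜}

/-- `v` represents `F` below `γ` -/
structure Rep (Fr : Frame 𝕜 V I) (d : TData 𝕜 V I) (F : Predual d.gen →ₗ[𝕜] 𝕜) (γ : I) (v : V) :
    Prop where
  R_eq : Fr.R γ v = v
  gen_eq : ∀ β < γ, d.gen β v = F ⟨d.gen β, mem_predual d.gen β⟩

theorem Rep.unique [Nonempty I] (h : Compat Fr d) (hcof : ∀ s : ℕ → I, ∃ γ, ∀ n, s n < γ)
    {γ : I} {v w : V} (hv : Rep Fr d F γ v) (hw : Rep Fr d F γ w) : v = w := by
  have : v - w = 0 := h.eq_zero hcof (γ := γ) (by rw [map_sub, hv.R_eq, hw.R_eq]) fun β hβ => by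
    rw [map_sub, hv.gen_eq β hβ, hw.gen_eq β hβ, sub_self]
  exact sub_eq_zero.1 this

theorem Rep.restrict (h : Compat Fr d) {γ γ' : I} (hγ : γ ≤ γ') {v : V}
    (hv : Rep Fr d F γ' v) : Rep Fr d F γ (Fr.R γ v) := by
  refine ⟨Fr.R_R γ γ le_rfl v, fun β hβ => ?_⟩
  rw [h.gen_R hβ]
  exact hv.gen_eq β (hβ.trans_le hγ)

theorem Rep.span_eq {γ : I} {v : V} (hv : Rep Fr d F γ v) (z : V →L[𝕜] 𝕜)
    (hz : z ∈ Submodule.span 𝕜 (d.gen '' Set.Iio γ)) :
    ∃ hz' : z ∈ Predual d.gen, z v = F ⟨z, hz'⟩ := by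
  induction hz using Submodule.span_induction with
  | mem z hz =>
    obtain ⟨β, hβ, rfl⟩ := hz
    exact ⟨mem_predual d.gen β, hv.gen_eq β hβ⟩
  | zero => exact ⟨Submodule.zero_mem _, (map_zero F).symm⟩
  | add z w _ _ ihz ihw =>
    obtain ⟨hz', hz⟩ := ihz
    obtain ⟨hw', hw⟩ := ihw
    refine ⟨Submodule.add_mem _ hz' hw', ?_⟩
    have := map_add F ⟨z, hz'⟩ ⟨w, hw'⟩
    rw [← hz, ← hw] at this
    exact this.symm
  | smul c z _ ihz =>
    obtain ⟨hz', hz⟩ := ihz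
    refine ⟨Submodule.smul_mem _ c hz', ?_⟩
    have := map_smul F c ⟨z, hz'⟩
    rw [← hz] at this
    exact this.symm

theorem Rep.norm_le {B : (I →₀ ℚ) → Prop} (hB : NormingSet Fr d B) {M : ℝ} (hM : 0 ≤ M)
    (hF : ∀ y : Predual d.gen, ‖F y‖ ≤ M * ‖(y : V →L[𝕜] 𝕜)‖) {γ : I} {v : V}
    (hv : Rep Fr d F γ v) : ‖v‖ ≤ 4 * M := by
  refine hB.norming v _ fun b hb => ?_
  obtain ⟨b', hb', hsupp, hev⟩ := hB.cut b hb γ
  have h1 : d.ev b v = d.ev b' v := by rw [hev, hv.R_eq]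
  rw [h1]
  refine le_of_tendsto (d.lift_tendsto b' v).norm ?_
  filter_upwards [eventually_ge_atTop (d.kappa b'.support)] with K hK
  obtain ⟨hz', hz⟩ := hv.span_eq (d.lift b' K) (d.lift_mem_Iio b' K γ hsupp)
  rw [hz]
  refine (hF _).trans ?_
  rw [mul_comm]
  refine mul_le_mul_of_nonneg_right ?_ hM
  have h2 := d.lift_norm_le b' hK zero_le_one (hB.abs_le b' hb')
  have h3 := hB.norm_le b' hb'
  show ‖d.lift b' K‖ ≤ 4
  linarith

omit [WellFoundedLT I] in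
/-- The limit step: bounded coherent families converge. -/
theorem exists_limit [CompleteSpace V] (hL : LowerEst Fr) (S : Set I) (hne : S.Nonempty)
    (v : I → V) (C : ℝ) (hC : ∀ γ ∈ S, ‖v γ‖ ≤ C)
    (hR : ∀ γ ∈ S, ∀ γ' ∈ S, γ ≤ γ' → Fr.R γ (v γ') = v γ) :
    ∃ w : V, ∀ ε > 0, ∃ γ₀ ∈ S, ∀ γ ∈ S, γ₀ ≤ γ → ‖v γ - w‖ ≤ ε := by
  have hcl : ∀ ε > 0, ∃ γ₀ ∈ S, ∀ γ ∈ S, γ₀ ≤ γ → ‖v γ - v γ₀‖ ≤ ε := by
    intro ε hε
    by_contra hcon
    push Not at hcon
    choose! nx hnx1 hnx2 hnx3 using hcon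
    obtain ⟨γ₀, hγ₀⟩ := hne
    have hC0 : 0 ≤ C := (norm_nonneg _).trans (hC γ₀ hγ₀)
    let a : ℕ → I := fun n => nx^[n] γ₀
    have ha : ∀ n, a n ∈ S := by
      intro n
      induction n with
      | zero => exact hγ₀
      | succ n ih =>
        show nx^[n + 1] γ₀ ∈ S
        rw [Function.iterate_succ_apply']
        exact hnx1 _ ih
    have hsucc : ∀ n, a (n + 1) = nx (a n) := fun n => Function.iterate_succ_apply' _ _ _
    have hmono : Monotone a := monotone_nat_of_le_succ fun n => by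
      rw [hsucc]; exact hnx2 _ (ha n)
    obtain ⟨N, hN0, hN⟩ := hL (ε / (2 * (C + 1))) (by positivity)
    have h1 := hN (v (a N)) a hmono
    have h2 : ∑ i ∈ Finset.range N, ε ≤
        ∑ i ∈ Finset.range N, ‖Fr.R (a (i + 1)) (v (a N)) - Fr.R (a i) (v (a N))‖ := by
      refine Finset.sum_le_sum fun i hi => ?_
      have hi' : i < N := Finset.mem_range.1 hi
      rw [hR _ (ha _) _ (ha _) (hmono (show i + 1 ≤ N from hi')),
        hR _ (ha _) _ (ha _) (hmono hi'.le), hsucc]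
      exact (hnx3 _ (ha i)).le
    rw [Finset.sum_const, Finset.card_range, nsmul_eq_mul] at h2
    have h3 : ε / (2 * (C + 1)) * N * ‖v (a N)‖ ≤ ε / (2 * (C + 1)) * N * C :=
      mul_le_mul_of_nonneg_left (hC _ (ha N)) (by positivity)
    have h4 := (h2.trans h1).trans h3
    have hN' : (0 : ℝ) < N := by exact_mod_cast hN0
    have h5 : ε / (2 * (C + 1)) * N * C = (N * ε) * (C / (2 * (C + 1))) := by
      field_simp
    rw [h5] at h4
    have h6 : C / (2 * (C + 1)) < 1 := by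
      rw [div_lt_one (by positivity)]; linarith
    have h7 : (N * ε) * (C / (2 * (C + 1))) < (N * ε) * 1 :=
      mul_lt_mul_of_pos_left h6 (by positivity)
    linarith
  have hpos : ∀ n : ℕ, (0 : ℝ) < 1 / ((n : ℝ) + 1) := fun n => by positivity
  choose s hs1 hs2 using fun n : ℕ => hcl (1 / ((n : ℝ) + 1)) (hpos n)
  have hs3 : ∀ n m, ‖v (s n) - v (s m)‖ ≤ 1 / ((n : ℝ) + 1) + 1 / ((m : ℝ) + 1) := by
    intro n m
    have hmax : max (s n) (s m) ∈ S := by
      rcases max_choice (s n) (s m) with h | h <;> rw [h]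
      exacts [hs1 n, hs1 m]
    have e1 := hs2 n _ hmax (le_max_left _ _)
    have e2 := hs2 m _ hmax (le_max_right _ _)
    calc ‖v (s n) - v (s m)‖ = ‖(v (max (s n) (s m)) - v (s m)) - (v (max (s n) (s m)) - v (s n))‖ := by
          congr 1; abel
      _ ≤ ‖v (max (s n) (s m)) - v (s m)‖ + ‖v (max (s n) (s m)) - v (s n)‖ := norm_sub_le _ _
      _ ≤ _ := by linarith
  have hcau : CauchySeq fun n => v (s n) := by
    rw [Metric.cauchySeq_iff']
    intro ε hε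
    obtain ⟨N, hN⟩ := exists_nat_one_div_lt (half_pos hε)
    refine ⟨N, fun n hn => ?_⟩
    rw [dist_eq_norm]
    have h1 := hs3 n N
    have h2 : 1 / ((n : ℝ) + 1) ≤ 1 / ((N : ℝ) + 1) := by
      apply one_div_le_one_div_of_le (by positivity)
      have : (N : ℝ) ≤ n := by exact_mod_cast hn
      linarith
    linarith
  obtain ⟨w, hw⟩ := cauchySeq_tendsto_of_complete hcau
  have hw2 : ∀ n, ‖v (s n) - w‖ ≤ 1 / ((n : ℝ) + 1) := by
    intro n
    have h1 : Tendsto (fun m => ‖v (s n) - v (s m)‖) atTop (𝓝 ‖v (s n) - w‖) :=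
      (hw.const_sub _).norm
    have h2 : Tendsto (fun m : ℕ => 1 / ((n : ℝ) + 1) + 1 / ((m : ℝ) + 1)) atTop
        (𝓝 (1 / ((n : ℝ) + 1) + 0)) :=
      tendsto_const_nhds.add tendsto_one_div_add_atTop_nhds_zero_nat
    rw [add_zero] at h2
    exact le_of_tendsto_of_tendsto' h1 h2 fun m => hs3 n m
  refine ⟨w, fun ε hε => ?_⟩
  obtain ⟨N, hN⟩ := exists_nat_one_div_lt (half_pos hε)
  refine ⟨s N, hs1 N, fun γ hγ hle => ?_⟩
  have h1 := hs2 N γ hγ hle
  have h2 := hw2 N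
  calc ‖v γ - w‖ = ‖(v γ - v (s N)) + (v (s N) - w)‖ := by congr 1; abel
    _ ≤ ‖v γ - v (s N)‖ + ‖v (s N) - w‖ := norm_add_le _ _
    _ ≤ ε := by linarith

theorem exists_rep [CompleteSpace V] [Nonempty I] (h : Compat Fr d)
    (hcof : ∀ s : ℕ → I, ∃ γ, ∀ n, s n < γ) (hL : LowerEst Fr) {B : (I →₀ ℚ) → Prop}
    (hB : NormingSet Fr d B) {M : ℝ} (hM : 0 ≤ M)
    (hF : ∀ y : Predual d.gen, ‖F y‖ ≤ M * ‖(y : V →L[𝕜] 𝕜)‖) (γ : I) :
    ∃ v, Rep Fr d F γ v := by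
  induction γ using WellFoundedLT.induction with
  | ind γ ih =>
    choose! v hv using ih
    by_cases hne : ∃ ξ, ξ < γ
    · by_cases hlim : ∀ ξ, ξ < γ → ∃ η, ξ < η ∧ η < γ
      · -- limit case
        obtain ⟨w, hw⟩ := exists_limit hL (Set.Iio γ) hne v (4 * M)
          (fun γ' hγ' => (hv γ' hγ').norm_le hB hM hF) (fun β hβ β' hβ' hle =>
            ((hv β' hβ').restrict h hle).unique h hcof (hv β hβ))
        refine ⟨w, ?_, ?_⟩
        · have h1 : ∀ ε > 0, ‖Fr.R γ w - w‖ ≤ 0 + ε := by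
            intro ε hε
            obtain ⟨γ₀, hγ₀, hγ₀'⟩ := hw (ε / 2) (half_pos hε)
            have h2 := hγ₀' γ₀ hγ₀ le_rfl
            have h3 : Fr.R γ w - w = (v γ₀ - w) - Fr.R γ (v γ₀ - w) := by
              rw [map_sub]
              have h4 : Fr.R γ (v γ₀) = v γ₀ := by
                rw [← (hv γ₀ hγ₀).R_eq]
                exact Fr.R_R' γ γ₀ (le_of_lt hγ₀) _
              rw [h4]; abel
            rw [h3]
            calc _ ≤ ‖v γ₀ - w‖ + ‖Fr.R γ (v γ₀ - w)‖ := norm_sub_le _ _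
              _ ≤ ‖v γ₀ - w‖ + ‖v γ₀ - w‖ := by gcongr; exact Fr.R_norm _ _
              _ ≤ 0 + ε := by linarith
          have h2 := le_of_forall_pos_le_add h1
          exact sub_eq_zero.1 (norm_le_zero_iff.1 h2)
        · intro β hβ
          have h1 : ∀ ε > 0, ‖d.gen β w - F ⟨d.gen β, mem_predual d.gen β⟩‖ ≤ 0 + ε := by
            intro ε hε
            obtain ⟨γ₀, hγ₀, hγ₀'⟩ := hw (ε / (‖d.gen β‖ + 1)) (by positivity)
            obtain ⟨η, hη, hη'⟩ := hlim (max γ₀ β) (max_lt hγ₀ hβ)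
            have h2 := hγ₀' η hη' ((le_max_left _ _).trans hη.le)
            rw [← (hv η hη').gen_eq β ((le_max_right _ _).trans_lt hη), ← map_sub]
            rw [norm_sub_rev] at h2
            calc ‖d.gen β (w - v η)‖ ≤ ‖d.gen β‖ * ‖w - v η‖ := ContinuousLinearMap.le_opNorm _ _
              _ ≤ ‖d.gen β‖ * (ε / (‖d.gen β‖ + 1)) := by gcongr
              _ ≤ 0 + ε := by
                rw [zero_add, mul_div_assoc', div_le_iff₀ (by positivity)]
                nlinarith [norm_nonneg (d.gen β)]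
          have h2 := le_of_forall_pos_le_add h1
          exact sub_eq_zero.1 (norm_le_zero_iff.1 h2)
      · -- successor case
        push Not at hlim
        obtain ⟨ξ, hξ, hsucc⟩ := hlim
        have hmax : ∀ η, η < γ → η ≤ ξ := fun η hη => by
          by_contra hcon
          exact absurd hη (not_lt.2 (hsucc η (not_le.1 hcon)))
        have hvξ := hv ξ hξ
        have hgen : ∀ β ≤ ξ, β < ξ → d.gen β (Fr.δ ξ) = 0 := by
          intro β _ hβ
          rw [← h.gen_R hβ, Fr.R_ge ξ ξ le_rfl, map_zero]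
        have hself : d.gen ξ (Fr.δ ξ) = 1 := by
          have h3 : d.gen ξ (Fr.δ ξ) = d.est ξ (Fr.δ ξ) + d.T ξ 0 (Fr.δ ξ) := rfl
          rw [h3, h.est, Fr.e_self, ← h.T_R, Fr.R_ge ξ ξ le_rfl, map_zero, add_zero]
        refine ⟨v ξ + (F ⟨d.gen ξ, mem_predual d.gen ξ⟩ - d.gen ξ (v ξ)) • Fr.δ ξ, ?_, ?_⟩
        · rw [map_add, map_smul, Fr.R_lt γ ξ hξ]
          congr 1
          rw [← hvξ.R_eq]
          exact Fr.R_R' γ ξ hξ.le _
        · intro β hβ
          rw [map_add, map_smul]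
          rcases (hmax β hβ).lt_or_eq with h1 | h1
          · rw [hgen β h1.le h1, smul_zero, add_zero]
            exact hvξ.gen_eq β h1
          · subst h1
            rw [hself, smul_eq_mul, mul_one]
            abel
    · push Not at hne
      refine ⟨0, map_zero _, fun β hβ => absurd hβ (not_lt.2 (hne β))⟩

/-- **`X* = V`**: every continuous functional on the predual is the evaluation at a vector. -/
theorem exists_vec [CompleteSpace V] [Nonempty I] (h : Compat Fr d)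
    (hcof : ∀ s : ℕ → I, ∃ γ, ∀ n, s n < γ) (hL : LowerEst Fr) {B : (I →₀ ℚ) → Prop}
    (hB : NormingSet Fr d B) (F : Predual d.gen →L[𝕜] 𝕜) :
    ∃ v : V, ∀ β, F ⟨d.gen β, mem_predual d.gen β⟩ = d.gen β v := by
  obtain ⟨M, hM, hF⟩ := exists_bound_submodule (Predual d.gen) F
  choose v hv using fun γ => exists_rep (F := (F : Predual d.gen →ₗ[𝕜] 𝕜)) h hcof hL hB hM hF γ
  obtain ⟨w, hw⟩ := exists_limit hL Set.univ Set.univ_nonempty v (4 * M)
    (fun γ _ => (hv γ).norm_le hB hM hF) (fun β _ β' _ hle =>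
      ((hv β').restrict h hle).unique h hcof (hv β))
  refine ⟨w, fun β => ?_⟩
  have h1 : ∀ ε > 0, ‖d.gen β w - (F : Predual d.gen →ₗ[𝕜] 𝕜) ⟨d.gen β, mem_predual d.gen β⟩‖ ≤
      0 + ε := by
    intro ε hε
    obtain ⟨γ₀, -, hγ₀'⟩ := hw (ε / (‖d.gen β‖ + 1)) (by positivity)
    obtain ⟨η, hη⟩ := hcof fun _ => max γ₀ β
    have h2 := hγ₀' η (Set.mem_univ _) ((le_max_left _ _).trans (hη 0).le)
    rw [← (hv η).gen_eq β ((le_max_right _ _).trans_lt (hη 0)), ← map_sub]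
    rw [norm_sub_rev] at h2
    calc ‖d.gen β (w - v η)‖ ≤ ‖d.gen β‖ * ‖w - v η‖ := ContinuousLinearMap.le_opNorm _ _
      _ ≤ ‖d.gen β‖ * (ε / (‖d.gen β‖ + 1)) := by gcongr
      _ ≤ 0 + ε := by
        rw [zero_add, mul_div_assoc', div_le_iff₀ (by positivity)]
        nlinarith [norm_nonneg (d.gen β)]
  have h2 := le_of_forall_pos_le_add h1
  exact (sub_eq_zero.1 (norm_le_zero_iff.1 h2)).symm

end Frame

end

end Crest.Agent.R114
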