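import Crest.Agent.R114.Incid
import Crest.Agent.R114.MAvg

/-! # Row 114, S0152 (S3): the sequence of normalized averages. -/

set_option autoImplicit false

open Set Filter

namespace Crest.Agent.R114

variable {I : Type} [LinearOrder I] {c : Coding I} {𝕜 : Type} [RCLike 𝕜]

namespace YSeqAux

/-- support of an element of the span of `u a, …, u (b-1)` -/
lemma support_span {u : ℕ → I →₀ 𝕜} {S : Set ℕ} {f : I →₀ 𝕜}
    (hf : f ∈ Submodule.span 𝕜 (u '' S)) : ∀ x ∈ f.support, ∃ m ∈ S, x ∈ (u m).support := by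
  classical
  induction hf using Submodule.span_induction with
  | mem g hg =>
    obtain ⟨m, hm, rfl⟩ := hg
    exact fun x hx => ⟨m, hm, hx⟩
  | zero => intro x hx; simp at hx
  | add g h _ _ ihg ihh =>
    intro x hx
    rcases Finset.mem_union.1 (Finsupp.support_add hx) with h1 | h1
    · exact ihg x h1
    · exact ihh x h1
  | smul z g _ ih => exact fun x hx => ih x (Finsupp.support_smul hx)

lemma slt_of_span {u : ℕ → I →₀ 𝕜} (hu : IsBlockSeq u) {a b a' b' : ℕ} (hba : b ≤ a')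
    {f g : I →₀ 𝕜} (hf : f ∈ Submodule.span 𝕜 (u '' Ico a b))
    (hg : g ∈ Submodule.span 𝕜 (u '' Ico a' b')) : SLt f.support g.support := by
  intro x hx y hy
  obtain ⟨m, hm, hxm⟩ := support_span hf x hx
  obtain ⟨m', hm', hym⟩ := support_span hg y hy
  exact hu.slt m m' (lt_of_lt_of_le hm.2 (hba.trans hm'.1)) x hxm y hym

lemma nrm_zero : nrm c (0 : I →₀ 𝕜) = 0 := (nrm_eq_zero_iff (c := c) 0).2 rfl

lemma nrm_sum_le {ι : Type*} (s : Finset ι) (f : ι → I →₀ 𝕜) :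
    nrm c (∑ i ∈ s, f i) ≤ ∑ i ∈ s, nrm c (f i) := by
  classical
  induction s using Finset.induction_on with
  | empty => simp [nrm_zero]
  | insert i s hi ih =>
    rw [Finset.sum_insert hi, Finset.sum_insert hi]
    exact (nrm_add_le _ _).trans (add_le_add le_rfl ih)

lemma mem_blk {u : ℕ → I →₀ 𝕜} {a b : ℕ} {f : C00 c 𝕜}
    (hf : f ∈ MAvg.Blk 𝕜 (fun i => C00.of c (u i)) a b) :
    (show I →₀ 𝕜 from f) ∈ Submodule.span 𝕜 (u '' Ico a b) := hf

/-- one step of the construction -/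
theorem step (c : Coding I) {u : ℕ → I →₀ 𝕜} (hu : IsBlockSeq u) (w P N0 : ℕ) :
    ∃ (y : I →₀ 𝕜) (K1 : ℕ), y ∈ Submodule.span 𝕜 (u '' Ico N0 K1) ∧ nrm c y = 1 ∧
      (∀ i b, i ≤ w → IsW (NB c) i b → ‖act b y‖ ≤ 4 / mq i) ∧
      ∀ E : Set I, E.OrdConnected → ∃ v ∈ Submodule.span 𝕜 (u '' Ico N0 K1), nrm c v ≤ 2 ∧
        ∀ b, NB c b → ‖act (cut E b) y - act b v‖ ≤ 4 / (P + 1) := by
  classical
  obtain ⟨N, hN⟩ : ∃ N, N = max (nq w) (P + 1) := ⟨_, rfl⟩
  have hNw : nq w ≤ N := hN ▸ le_max_left _ _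
  have hNP : P + 1 ≤ N := hN ▸ le_max_right _ _
  have hN0 : 0 < N := by omega
  have hNR : (0 : ℝ) < N := by exact_mod_cast hN0
  obtain ⟨k, h, hk, hk0, hmem, hle, hge⟩ := MAvg.exists_average (𝕜 := 𝕜) (E := C00 c 𝕜)
    (u := fun i => C00.of c (u i)) (K := 2 * mq N) (nn := nq N)
    (fun i hi => hu.ne_zero i ((nrm_eq_zero_iff (c := c) (u i)).1 hi))
    (by
      intro k f N' hN' hk hf
      refine lower_estimate (c := c) (𝕜 := 𝕜) N N' hN' f ?_
      intro i i' hii' _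
      exact slt_of_span hu (hk (Nat.succ_le_of_lt hii')) (mem_blk (hf i)) (mem_blk (hf i')))
    N (4 * N + 6) N0 hN0 (pow_le_nq le_rfl) (two_mq_lt N) (by positivity)
  have hmem' : ∀ i, (h i : I →₀ 𝕜) ∈ Submodule.span 𝕜 (u '' Ico (k i) (k (i + 1))) :=
    fun i => mem_blk (hmem i)
  set S : I →₀ 𝕜 := ∑ i ∈ Finset.range N, (show I →₀ 𝕜 from h i) with hS
  have hge' : (N : ℝ) ≤ nrm c S := hge
  have hle' : ∀ i, nrm c (show I →₀ 𝕜 from h i) ≤ 2 := hle
  have hSpos : 0 < nrm c S := lt_of_lt_of_le hNR hge'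
  set r : 𝕜 := (((nrm c S)⁻¹ : ℝ) : 𝕜) with hr
  have hrn : ‖r‖ = (nrm c S)⁻¹ := by
    rw [hr, RCLike.norm_ofReal, abs_of_pos (inv_pos.2 hSpos)]
  set h' : ℕ → I →₀ 𝕜 := fun i => r • (show I →₀ 𝕜 from h i) with hh'
  have hM : ∀ i < N, nrm c (h' i) ≤ 2 / N := by
    intro i _
    rw [hh']
    simp only
    rw [nrm_smul, hrn, inv_mul_eq_div]
    exact div_le_div₀ (by norm_num) (hle' i) hNR hge'
  have hkm : ∀ i < N, Ico (k i) (k (i + 1)) ⊆ Ico N0 (k N) := by
    intro i hi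
    exact Ico_subset_Ico (hk0.trans (hk (Nat.zero_le _))) (hk hi)
  have hm' : ∀ i < N, h' i ∈ Submodule.span 𝕜 (u '' Ico N0 (k N)) := by
    intro i hi
    exact Submodule.smul_mem _ _ (Submodule.span_mono (image_mono (hkm i hi)) (hmem' i))
  have hy : r • S = ∑ i ∈ Finset.range N, h' i := by
    rw [hS, Finset.smul_sum]
  have hs : ∀ i i', i < i' → i' < N → SLt (h' i).support (h' i').support := by
    intro i i' hii' _
    have h1 : SLt (show I →₀ 𝕜 from h i).support (show I →₀ 𝕜 from h i').support :=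
      slt_of_span hu (hk (Nat.succ_le_of_lt hii')) (hmem' i) (hmem' i')
    exact fun a ha b hb => h1 a (Finsupp.support_smul ha) b (Finsupp.support_smul hb)
  refine ⟨r • S, k N, ?_, ?_, ?_, ?_⟩
  · rw [hy]
    exact Submodule.sum_mem _ fun i hi => hm' i (Finset.mem_range.1 hi)
  · rw [nrm_smul, hrn, inv_mul_cancel₀ hSpos.ne']
  · intro i b hi hb
    rw [hy]
    refine (act_average (c := c) (j := i) (N := N)
      ((nq_strictMono.monotone hi).trans hNw) hb h' hs hM).trans (le_of_eq ?_)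
    field_simp
    norm_num
  · intro E hE
    obtain ⟨T, hT, hT2⟩ := average_cut (c := c) N hN0 h' hs hM hE
    refine ⟨∑ i ∈ T, h' i, ?_, ?_, ?_⟩
    · exact Submodule.sum_mem _ fun i hi => hm' i (Finset.mem_range.1 (hT hi))
    · calc nrm c (∑ i ∈ T, h' i) ≤ ∑ i ∈ T, nrm c (h' i) := nrm_sum_le _ _
        _ ≤ ∑ i ∈ Finset.range N, nrm c (h' i) :=
            Finset.sum_le_sum_of_subset_of_nonneg hT fun _ _ _ => nrm_nonneg _
        _ ≤ ∑ i ∈ Finset.range N, (2 / N : ℝ) :=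
            Finset.sum_le_sum fun i hi => hM i (Finset.mem_range.1 hi)
        _ = 2 := by
            rw [Finset.sum_const, Finset.card_range, nsmul_eq_mul]
            field_simp
    · intro b hb
      rw [hy]
      refine (hT2 b hb).trans ?_
      have h1 : ((P : ℝ) + 1) ≤ N := by exact_mod_cast hNP
      have h2 : 2 * (2 / (N : ℝ)) = 4 / N := by ring
      rw [h2]
      exact div_le_div_of_nonneg_left (by norm_num) (by positivity) h1

lemma exists_large (x : ℝ) (k w : ℕ) : ∃ w', w < w' ∧ x ≤ (1 / 2 : ℝ) ^ k * mq (w' + 1) := by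
  obtain ⟨n, hn⟩ := pow_unbounded_of_one_lt (x * 2 ^ k) (by norm_num : (1 : ℝ) < 16)
  refine ⟨w + n + 1, by omega, ?_⟩
  have h1 : (16 : ℝ) ^ n ≤ mq (w + n + 1 + 1) := by
    unfold mq
    push_cast
    exact pow_le_pow_right₀ (by norm_num) (by omega)
  have h2 : x * 2 ^ k ≤ mq (w + n + 1 + 1) := hn.le.trans h1
  have h3 : (0 : ℝ) < 2 ^ k := by positivity
  rw [one_div, inv_pow, inv_mul_eq_div, le_div_iff₀ h3]
  exact h2

end YSeqAux

open YSeqAux in
theorem exists_YData (c : Coding I) (u : ℕ → I →₀ 𝕜) (hu : IsBlockSeq u) :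
    ∃ (y : ℕ → I →₀ 𝕜) (w : ℕ → ℕ), YData c u y w := by
  classical
  choose Y K1 hY1 hY2 hY3 hY4 using fun w P N0 => step c hu w P N0
  choose W hW1 hW2 using fun (x : ℝ) (k w : ℕ) => exists_large x k w
  -- the states `(w k, K k)`
  let σ : ℕ → ℕ × ℕ := fun n => Nat.rec (0, 0)
    (fun k s => (W (2 * l1 (Y s.1 k s.2)) k s.1, max (K1 s.1 k s.2) (k + 1))) n
  have hσ : ∀ k, σ (k + 1) = (W (2 * l1 (Y (σ k).1 k (σ k).2)) k (σ k).1,
    max (K1 (σ k).1 k (σ k).2) (k + 1)) := fun k => rfl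
  let y : ℕ → I →₀ 𝕜 := fun k => Y (σ k).1 k (σ k).2
  let w : ℕ → ℕ := fun k => (σ k).1
  have hK : ∀ k, k ≤ (σ k).2 := by
    intro k
    cases k with
    | zero => exact Nat.zero_le _
    | succ k => rw [hσ]; exact le_max_right _ _
  have hK1 : ∀ k, K1 (σ k).1 k (σ k).2 ≤ (σ (k + 1)).2 := by
    intro k; rw [hσ]; exact le_max_left _ _
  -- nonzero vector in the block, so the block is nonempty
  have hlt : ∀ k, (σ k).2 ≤ (σ (k + 1)).2 := by
    intro k
    by_contra hcon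
    have h1 : K1 (σ k).1 k (σ k).2 ≤ (σ k).2 := (hK1 k).trans (not_le.1 hcon).le
    have h2 := hY1 (σ k).1 k (σ k).2
    rw [Ico_eq_empty (not_lt.2 h1), image_empty, Submodule.span_empty, Submodule.mem_bot] at h2
    have h3 := hY2 (σ k).1 k (σ k).2
    rw [h2, nrm_zero] at h3
    exact zero_ne_one h3
  have hmono : Monotone fun k => (σ k).2 := monotone_nat_of_le_succ hlt
  refine ⟨y, w, ?_, ⟨?_, ?_⟩, ?_, ?_, ?_, ?_, ?_⟩
  · refine strictMono_nat_of_lt_succ fun k => ?_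
    show (σ k).1 < (σ (k + 1)).1
    rw [hσ]
    exact hW1 _ _ _
  · intro k h0
    have h3 : nrm c (y k) = 1 := hY2 (σ k).1 k (σ k).2
    rw [h0, nrm_zero] at h3
    exact zero_ne_one h3
  · intro k k' hkk'
    exact slt_of_span hu ((hK1 k).trans (hmono (Nat.succ_le_of_lt hkk')))
      (hY1 (σ k).1 k (σ k).2) (hY1 (σ k').1 k' (σ k').2)
  · intro k
    refine Submodule.span_mono (image_mono ?_) (hY1 (σ k).1 k (σ k).2)
    exact fun m hm => (hK k).trans hm.1
  · exact fun k => hY2 (σ k).1 k (σ k).2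
  · intro k i b hi hb
    exact hY3 (σ k).1 k (σ k).2 i b hi hb
  · intro k
    show 2 * l1 (Y (σ k).1 k (σ k).2) ≤ (1 / 2 : ℝ) ^ k * mq ((σ (k + 1)).1 + 1)
    rw [hσ]
    exact hW2 _ _ _
  · intro k E hE
    obtain ⟨v, hv1, hv2, hv3⟩ := hY4 (σ k).1 k (σ k).2 E hE
    refine ⟨v, Submodule.span_mono (image_mono ?_) hv1, hv2, hv3⟩
    exact fun m hm => (hK k).trans hm.1

end Crest.Agent.R114
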